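import Vale.Agent.P257.SG.Dig

/-! The complexes with coefficients in `k[t_1^p]`, `k[t_1^p]/(t_1^(p^2))`, `k[t_1^(p^2)]` and the
operators on them. -/

namespace Vale.Agent.P257.SG

open MvPolynomial Finset Vale.Agent.P257.Q.PC Vale.Agent.P257.X

set_option linter.unusedSectionVars false

variable {p : ℕ} [Fact p.Prime]

/-- The variable `t_1 ^ p` of the coefficients. -/
abbrev vy : ℕ × ℕ := (0, 0)

/-- The variable `t_2 ^ p` of the coefficients. -/
abbrev vz : ℕ × ℕ := (0, 1)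

theorem pderiv_eq_zero_of {σ : Type*} {x : σ} {f : MvPolynomial σ (ZMod p)}
    (h : ∀ u ∈ f.support, p ∣ u x) : pderiv x f = 0 := by
  rw [f.as_sum, map_sum]
  refine Finset.sum_eq_zero fun u hu => ?_
  rw [pderiv_monomial, (ZMod.natCast_eq_zero_iff _ p).2 (h u hu), mul_zero, monomial_zero]

theorem dg_support {σ : Type*} {x : σ} {f : MvPolynomial σ (ZMod p)} {v : σ →₀ ℕ}
    (hv : v ∈ (dg p x f).support) :
    ∃ u ∈ f.support, v = u - Finsupp.single x p ∧ ¬ p ∣ u x / p := by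
  classical
  rw [f.as_sum, map_sum] at hv
  have := MvPolynomial.support_sum hv
  rw [Finset.mem_biUnion] at this
  obtain ⟨u, hu, hv⟩ := this
  rw [dg_monomial] at hv
  refine ⟨u, hu, ?_, ?_⟩
  · have := support_monomial_subset hv
    rwa [Finset.mem_singleton] at this
  · intro h
    rw [(ZMod.natCast_eq_zero_iff _ p).2 h, mul_zero, monomial_zero] at hv
    simp at hv

/-- No `ε ^ j` with `0 < j ≤ p`. -/
def Flat (p : ℕ) (g : Polynomial (KP p)) : Prop := ∀ j, 0 < j → j ≤ p → g.coeff j = 0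

theorem Flat.coeff_mul {f g : Polynomial (KP p)} (hg : Flat p g) {j : ℕ} (hj : j ≤ p) :
    (f * g).coeff j = f.coeff j * g.coeff 0 := by
  rw [Polynomial.coeff_mul, Finset.sum_eq_single (j, 0)]
  · rintro ⟨a, b⟩ hab hne
    rw [HasAntidiagonal.mem_antidiagonal] at hab
    dsimp only at hab ⊢
    have hb : 0 < b := by
      rcases Nat.eq_zero_or_pos b with h | h
      · subst h
        exact absurd (by rw [Prod.mk.injEq]; omega) hne
      · exact h
    rw [hg b hb (by omega), mul_zero]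
  · intro h
    exact absurd (HasAntidiagonal.mem_antidiagonal.2 (by simp)) h

theorem Flat.mul {f g : Polynomial (KP p)} (hf : Flat p f) (hg : Flat p g) : Flat p (f * g) :=
  fun j hj hj' => by rw [hg.coeff_mul hj', hf j hj hj', zero_mul]

theorem Flat.C (f : KP p) : Flat p (Polynomial.C f) := fun j hj _ => by
  rw [Polynomial.coeff_C, if_neg (by omega)]

theorem Flat.one : Flat p (1 : Polynomial (KP p)) := Flat.C 1

theorem Flat.pow {f : Polynomial (KP p)} (hf : Flat p f) (n : ℕ) : Flat p (f ^ n) := by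
  induction n with
  | zero => rw [pow_zero]; exact Flat.one
  | succ n ih => rw [pow_succ]; exact ih.mul hf

theorem Flat.prod {ι : Type*} (S : Finset ι) (f : ι → Polynomial (KP p))
    (hf : ∀ i ∈ S, Flat p (f i)) : Flat p (∏ i ∈ S, f i) := by
  classical
  induction S using Finset.induction_on with
  | empty => exact Flat.one
  | insert a S ha ih =>
    rw [Finset.prod_insert ha]
    exact (hf a (Finset.mem_insert_self a S)).mul (ih fun i hi => hf i (Finset.mem_insert_of_mem hi))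

theorem Flat.add_C_pow (a b : KP p) {n : ℕ} (hn : p < n) :
    Flat p (Polynomial.C a + Polynomial.C b * Polynomial.X ^ n) := by
  intro j hj hj'
  rw [Polynomial.coeff_add, Polynomial.coeff_C, if_neg (by omega), Polynomial.coeff_C_mul,
    Polynomial.coeff_X_pow, if_neg (by omega), mul_zero, add_zero]

theorem flat_T_X {x : ℕ × ℕ} (h0 : x ≠ vy) (h1 : x ≠ vz) : Flat p (T p (X x)) := by
  obtain ⟨l, n⟩ := x
  have hp := (Fact.out : p.Prime)
  by_cases hl : l = 0
  · subst hl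
    rw [T_zero]
    refine Flat.add_C_pow _ _ ?_
    have hn : 2 ≤ n := by
      by_contra h
      have : n = 0 ∨ n = 1 := by omega
      rcases this with rfl | rfl
      · exact h0 rfl
      · exact h1 rfl
    calc p = p ^ 1 := (pow_one p).symm
      _ < p ^ n := Nat.pow_lt_pow_right hp.one_lt (by omega)
  · rw [T_ne hl]
    exact Flat.C _

theorem flat_T_z (c : ℕ) : Flat p (T p (X vz) ^ (p * c)) := by
  have hp := (Fact.out : p.Prime)
  rw [pow_mul]
  refine Flat.pow ?_ c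
  rw [T_zero]
  have h := add_pow_pp (p := p) (Polynomial.C (X vz : KP p))
    (Polynomial.C (tt p 0 1) * Polynomial.X ^ p ^ 1) 1
  rw [pow_one] at h
  rw [pow_one, h, mul_pow, ← Polynomial.C_pow, ← Polynomial.C_pow, ← pow_mul]
  refine Flat.add_C_pow _ _ ?_
  have := hp.one_lt
  nlinarith

theorem flat_T_monomial {u : ℕ × ℕ →₀ ℕ} (h0 : u vy = 0) (h1 : p ∣ u vz) (c : ZMod p) :
    Flat p (T p (monomial u c)) := by
  have h4 : T p (monomial u c) = Polynomial.C (C c) * ∏ x ∈ u.support, T p (X x) ^ u x := by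
    rw [monomial_eq, map_mul, Finsupp.prod, map_prod, ← algebraMap_eq, AlgHom.commutes]
    simp only [map_pow]
    rfl
  rw [h4]
  refine (Flat.C _).mul (Flat.prod _ _ fun x hx => ?_)
  by_cases hy : x = vy
  · subst hy
    rw [h0, pow_zero]
    exact Flat.one
  by_cases hz : x = vz
  · subst hz
    obtain ⟨c, hc⟩ := h1
    rw [hc]
    exact flat_T_z c
  exact (flat_T_X hy hz).pow _

theorem choose_p (n : ℕ) : ((n.choose p : ℕ) : ZMod p) = ((n / p : ℕ) : ZMod p) := by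
  have hp := (Fact.out : p.Prime)
  have h := Choose.choose_modEq_choose_mod_mul_choose_div_nat (n := n) (k := p) (p := p)
  rw [Nat.mod_self, Nat.choose_zero_right, one_mul, Nat.div_self hp.pos, Nat.choose_one_right] at h
  exact (ZMod.natCast_eq_natCast_iff _ _ _).2 h

theorem Tk_monomial {u : ℕ × ℕ →₀ ℕ} (h1 : p ∣ u vz) (c : ZMod p) :
    Tk p p (monomial u c) = dg p vy (monomial u c) := by
  have hp := (Fact.out : p.Prime)
  have h2 : (monomial u c : KP p) = X vy ^ u vy * monomial (u.erase vy) c := by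
    rw [X_pow_eq_monomial, monomial_mul, one_mul, Finsupp.single_add_erase]
  have h3 : Flat p (T p (monomial (u.erase vy) c)) := by
    refine flat_T_monomial Finsupp.erase_same ?_ c
    rw [Finsupp.erase_ne (by simp [Prod.ext_iff])]
    exact h1
  rw [Tk_apply]
  conv_lhs => rw [h2]
  rw [map_mul, map_pow, h3.coeff_mul le_rfl]
  have h4 : (T p (monomial (u.erase vy) c)).coeff 0 = monomial (u.erase vy) c := Tk_zero _
  rw [h4, T_zero, pow_zero, pow_one, tt_zero, Polynomial.C_1, one_mul, add_comm (Polynomial.C _),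
    Polynomial.coeff_X_add_C_pow, dg_monomial, ← choose_p]
  by_cases h5 : p ≤ u vy
  · have h6 : Finsupp.single vy (u vy - p) + u.erase vy = u - Finsupp.single vy p := by
      ext x
      rw [Finsupp.add_apply, Finsupp.tsub_apply]
      by_cases hx : x = vy
      · subst hx
        rw [Finsupp.single_eq_same, Finsupp.single_eq_same, Finsupp.erase_same, add_zero]
      · rw [Finsupp.single_eq_of_ne hx, Finsupp.single_eq_of_ne hx, Finsupp.erase_ne hx, zero_add,
          tsub_zero]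
    rw [X_pow_eq_monomial, show ((u vy).choose p : KP p) = C ((u vy).choose p : ZMod p) by simp,
      mul_comm (monomial _ _) (C _), mul_assoc, monomial_mul, C_mul_monomial, one_mul, mul_comm c,
      h6]
  · rw [Nat.choose_eq_zero_of_lt (by omega)]
    simp

theorem Tk_eq_dg {f : KP p} (hf : pderiv vz f = 0) : Tk p p f = dg p vy f := by
  conv_lhs => rw [f.as_sum]
  conv_rhs => rw [f.as_sum]
  rw [map_sum, map_sum]
  exact Finset.sum_congr rfl fun u hu => Tk_monomial (dvd_of_pderiv_eq_zero _ hf hu) _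

/-- `∂ / ∂ (t_2 ^ p)`. -/
theorem derZ : Cpx.Der (FF p) p (p + p ^ 2) (DD p 1) := by
  have h := der2 (p := p) 1
  rwa [show (p : ℤ) * wt p 1 = p + p ^ 2 by
    rw [wt, Finset.sum_range_succ, Finset.sum_range_succ, Finset.sum_range_zero]; push_cast; ring]
    at h

/-- `∂ / ∂ (t_1 ^ p)`. -/
theorem derY : Cpx.Der (FF p) p p (DD p 0) := by
  have h := der2 (p := p) 0
  rwa [show (p : ℤ) * wt p 0 = p by simp [wt]] at h

/-- The coefficient of `ε ^ p` of the translation. -/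
noncomputable def DW (p : ℕ) [Fact p.Prime] : KP p →+ KP p := (Tk p p).toAddMonoidHom

theorem DW_apply (f : KP p) : DW p f = Tk p p f := rfl

/-- The kernel of `∂ / ∂ (t_2 ^ p)`. -/
noncomputable def K2 (p : ℕ) [Fact p.Prime] : Cpx (KP p) := (FF p).Ker derZ

theorem mem_K2 {s : ℕ} {N : ℤ} {f : KP p} :
    f ∈ (K2 p).K s N ↔ f ∈ (FF p).K s N ∧ pderiv vz f = 0 := Iff.rfl

theorem K2_d (s : ℕ) (f : KP p) : (K2 p).d s f = d2 p s f := rfl

theorem pderiv_z_dg {f : KP p} (hf : pderiv vz f = 0) : pderiv vz (dg p vy f) = 0 := by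
  refine pderiv_eq_zero_of fun v hv => ?_
  obtain ⟨u, hu, rfl, -⟩ := dg_support hv
  rw [Finsupp.tsub_apply, Finsupp.single_eq_of_ne (by simp [Prod.ext_iff]), tsub_zero]
  exact dvd_of_pderiv_eq_zero _ hf hu

theorem DW_iter {f : KP p} (hf : pderiv vz f = 0) (k : ℕ) :
    (DW p)^[k] f = (dg p vy)^[k] f ∧ pderiv vz ((dg p vy)^[k] f) = 0 := by
  induction k with
  | zero => exact ⟨rfl, hf⟩
  | succ k ih =>
    rw [Function.iterate_succ_apply', Function.iterate_succ_apply', ih.1, DW_apply,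
      Tk_eq_dg ih.2]
    exact ⟨rfl, pderiv_z_dg ih.2⟩

theorem X_mul_mem {s : ℕ} {N : ℤ} {f : KP p} (hf : f ∈ (FF p).K s N) (n k : ℕ) {M : ℤ}
    (hM : M = N + k * (p * wt p n)) : X (0, n) ^ k * f ∈ (FF p).K s M := by
  rw [mem_FF] at hf ⊢
  have h00 : ((0, n) : ℕ × ℕ) ∈ Bl s := Nat.zero_le s
  refine ⟨?_, mul_mem (pow_mem (X_mem_supported.2 h00) _) hf.2⟩
  have h1 := ((isWeightedHomogeneous_X (ZMod p) (W2 p) (0, n)).pow k).mul hf.1
  rw [hM, add_comm N]
  rwa [nsmul_eq_mul, W2_zero] at h1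

theorem pderiv_z_mul {f : KP p} (hf : pderiv vz f = 0) (k : ℕ) :
    pderiv vz (X vy ^ k * f) = 0 := by
  rw [pderiv_mul, hf, pderiv_pow, pderiv_X_of_ne (by simp [Prod.ext_iff])]
  simp

theorem DW_neg_iter (k : ℕ) (f : KP p) : (DW p)^[k] (-f) = -(DW p)^[k] f := by
  induction k with
  | zero => rfl
  | succ k ih => rw [Function.iterate_succ_apply', ih, map_neg, Function.iterate_succ_apply']

theorem adg_mem {s : ℕ} {N : ℤ} {f : KP p} (hf : f ∈ (FF p).K s N) :
    adg (p := p) vy f ∈ (FF p).K s (N + p ^ 2) := by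
  rw [mem_FF] at hf ⊢
  have h00 : vy ∈ Bl s := Nat.zero_le s
  refine ⟨?_, adg_supported _ h00 hf.2⟩
  have := adg_homogeneous vy hf.1
  rwa [W2_zero, show (p : ℤ) * (p * wt p 0) = p ^ 2 by simp [wt]; ring] at this

theorem pderiv_adg {x : ℕ × ℕ} (hx : x ≠ vy) {f : KP p} (hf : pderiv x f = 0) :
    pderiv x (adg (p := p) vy f) = 0 := by
  refine pderiv_eq_zero_of fun v hv => ?_
  obtain ⟨u, hu, rfl⟩ := adg_support vy hv
  rw [Finsupp.add_apply, Finsupp.single_eq_of_ne hx, add_zero]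
  exact dvd_of_pderiv_eq_zero _ hf hu

/-- The digit derivative on the kernel of `∂ / ∂ (t_2 ^ p)`. -/
theorem dW : Cpx.Der (K2 p) p (p ^ 2) (DW p) where
  mem s N f hf := by
    rw [mem_K2] at hf ⊢
    refine ⟨?_, ?_⟩
    · have := Tk_mem hf.1 p
      rwa [← sq] at this
    · rw [DW_apply, Tk_eq_dg hf.2]
      exact pderiv_z_dg hf.2
  comm s N f _ := Tk_d2 p s f
  pow s N f hf := by
    rw [mem_K2] at hf
    rw [(DW_iter hf.2 p).1, dg_iter_p]
  ex1 s N f hf h0 := by
    rw [mem_K2] at hf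
    rw [(DW_iter hf.2 _).1] at h0
    have h1 : pderiv vz (adg (p := p) vy f) = 0 := pderiv_adg (by simp [Prod.ext_iff]) hf.2
    refine ⟨adg vy f, mem_K2.2 ⟨adg_mem hf.1, h1⟩, ?_⟩
    rw [DW_apply, Tk_eq_dg h1, dg_adg _ h0]
  ex2 s N f hf h0 := by
    rw [mem_K2] at hf
    rw [DW_apply, Tk_eq_dg hf.2] at h0
    refine ⟨-(X vy ^ ((p - 1) * p) * f), neg_mem (mem_K2.2 ⟨?_, ?_⟩), ?_⟩
    · refine X_mul_mem hf.1 0 _ ?_
      rw [Nat.cast_mul, Nat.cast_sub (Fact.out : p.Prime).one_le]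
      simp [wt]
      ring
    · exact pderiv_z_mul hf.2 _
    · rw [DW_neg_iter, (DW_iter (pderiv_z_mul hf.2 _) _).1, dg_iter_mul_pow _ h0, neg_neg]

/-- The kernel of the digit derivative. -/
noncomputable def M1 (p : ℕ) [Fact p.Prime] : Cpx (KP p) := (K2 p).Ker dW

theorem mem_M1 {s : ℕ} {N : ℤ} {f : KP p} :
    f ∈ (M1 p).K s N ↔ (f ∈ (FF p).K s N ∧ pderiv vz f = 0) ∧ Tk p p f = 0 := Iff.rfl

theorem mem_M1' {s : ℕ} {N : ℤ} {f : KP p} :
    f ∈ (M1 p).K s N ↔ (f ∈ (FF p).K s N ∧ pderiv vz f = 0) ∧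
      ∀ u ∈ f.support, p ∣ u vy / p := by
  rw [mem_M1]
  constructor
  · rintro ⟨h, h'⟩
    rw [Tk_eq_dg h.2] at h'
    exact ⟨h, fun u hu => dvd_of_dg_eq_zero vy h' hu⟩
  · rintro ⟨h, h'⟩
    exact ⟨h, by rw [Tk_eq_dg h.2]; exact dg_eq_zero_of vy h'⟩

theorem M1_d (s : ℕ) (f : KP p) : (M1 p).d s f = d2 p s f := rfl

theorem pderiv_support {σ : Type*} {x : σ} {f : MvPolynomial σ (ZMod p)} {v : σ →₀ ℕ}
    (hv : v ∈ (pderiv x f).support) :
    ∃ u ∈ f.support, v = u - Finsupp.single x 1 ∧ ¬ p ∣ u x := by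
  classical
  rw [f.as_sum, map_sum] at hv
  have := MvPolynomial.support_sum hv
  rw [Finset.mem_biUnion] at this
  obtain ⟨u, hu, hv⟩ := this
  rw [pderiv_monomial] at hv
  refine ⟨u, hu, ?_, ?_⟩
  · have := support_monomial_subset hv
    rwa [Finset.mem_singleton] at this
  · intro h
    rw [(ZMod.natCast_eq_zero_iff _ p).2 h, mul_zero, monomial_zero] at hv
    simp at hv

theorem sub_one_div {a : ℕ} (h : ¬ p ∣ a) : (a - 1) / p = a / p := by
  have hp := (Fact.out : p.Prime)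
  obtain ⟨b, rfl⟩ : ∃ b, a = b + 1 := ⟨a - 1, by
    have : a ≠ 0 := by rintro rfl; exact h (dvd_zero p)
    omega⟩
  rw [Nat.add_sub_cancel, Nat.succ_div_of_not_dvd h]

theorem add_one_div {a : ℕ} (h : ¬ p ∣ a + 1) : (a + 1) / p = a / p :=
  Nat.succ_div_of_not_dvd h

/-- `∂ / ∂ (t_1 ^ p)` on `M1`. -/
theorem dY : Cpx.Der (M1 p) p p (DD p 0) where
  mem s N f hf := by
    rw [mem_M1'] at hf ⊢
    obtain ⟨⟨h1, h2⟩, h3⟩ := hf
    refine ⟨⟨derY.mem _ _ _ h1, ?_⟩, fun v hv => ?_⟩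
    · rw [DD_apply, pderiv_swap, h2, map_zero]
    · obtain ⟨u, hu, rfl, hd⟩ := pderiv_support hv
      rw [Finsupp.tsub_apply, Finsupp.single_eq_same, sub_one_div hd]
      exact h3 u hu
  comm s N f _ := pderiv_d2 0 s f
  pow s N f _ := pderiv_iter_p _ f
  ex1 s N f hf h0 := by
    rw [mem_M1'] at hf
    obtain ⟨⟨h1, h2⟩, h3⟩ := hf
    refine ⟨anti vy f, mem_M1'.2 ⟨⟨?_, ?_⟩, fun v hv => ?_⟩, pderiv_anti _ h0⟩
    · rw [mem_FF] at h1 ⊢
      have h00 : vy ∈ Bl s := Nat.zero_le s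
      refine ⟨?_, anti_supported _ h00 h1.2⟩
      have := anti_homogeneous vy h1.1
      rwa [W2_zero, show (p : ℤ) * wt p 0 = p by simp [wt]] at this
    · exact pderiv_anti_ne (by simp [Prod.ext_iff]) h2
    · obtain ⟨u, hu, rfl⟩ := anti_support vy hv
      rw [Finsupp.add_apply, Finsupp.single_eq_same,
        add_one_div (not_dvd_of_pderiv_iter_eq_zero vy h0 hu)]
      exact h3 u hu
  ex2 s N f hf h0 := by
    rw [mem_M1'] at hf
    obtain ⟨⟨h1, h2⟩, h3⟩ := hf
    have hp := (Fact.out : p.Prime)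
    refine ⟨-(X vy ^ (p - 1) * f), neg_mem (mem_M1'.2 ⟨⟨?_, pderiv_z_mul h2 _⟩, fun v hv => ?_⟩), ?_⟩
    · refine X_mul_mem h1 0 _ ?_
      rw [Nat.cast_sub hp.one_le]
      simp [wt]
    · obtain ⟨u, hu, rfl⟩ := pow_mul_support vy _ hv
      rw [Finsupp.add_apply, Finsupp.single_eq_same]
      obtain ⟨c, hc⟩ := dvd_of_pderiv_eq_zero vy h0 hu
      have := h3 u hu
      rw [hc, Nat.mul_div_cancel_left _ hp.pos] at this
      rw [hc, Nat.mul_add_div hp.pos, Nat.div_eq_of_lt (by have := hp.pos; omega), add_zero]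
      exact this
    · rw [DD_iter]
      have h3 : ∀ (j : ℕ) (g : KP p), (pderiv vy)^[j] (-g) = -(pderiv vy)^[j] g := by
        intro j g
        induction j with
        | zero => rfl
        | succ j ih => rw [Function.iterate_succ_apply', ih, map_neg, Function.iterate_succ_apply']
      rw [h3, pderiv_iter_mul_pow _ h0, ZMod.wilsons_lemma]
      simp

/-- The kernel of both operators. -/
noncomputable def K0 (p : ℕ) [Fact p.Prime] : Cpx (KP p) := (M1 p).Ker dY

/-- `∂ / ∂ (t_1 ^ p)` on `K2`. -/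
theorem dY' : Cpx.Der (K2 p) p p (DD p 0) where
  mem s N f hf := by
    rw [mem_K2] at hf ⊢
    exact ⟨derY.mem _ _ _ hf.1, by rw [DD_apply, pderiv_swap, hf.2, map_zero]⟩
  comm s N f _ := pderiv_d2 0 s f
  pow s N f _ := pderiv_iter_p _ f
  ex1 s N f hf h0 := by
    rw [mem_K2] at hf
    refine ⟨anti vy f, mem_K2.2 ⟨?_, pderiv_anti_ne (by simp [Prod.ext_iff]) hf.2⟩,
      pderiv_anti _ h0⟩
    have h1 := hf.1
    rw [mem_FF] at h1 ⊢
    have h00 : vy ∈ Bl s := Nat.zero_le s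
    refine ⟨?_, anti_supported _ h00 h1.2⟩
    have := anti_homogeneous vy h1.1
    rwa [W2_zero, show (p : ℤ) * wt p 0 = p by simp [wt]] at this
  ex2 s N f hf h0 := by
    rw [mem_K2] at hf
    have hp := (Fact.out : p.Prime)
    refine ⟨-(X vy ^ (p - 1) * f), neg_mem (mem_K2.2 ⟨?_, pderiv_z_mul hf.2 _⟩), ?_⟩
    · refine X_mul_mem hf.1 0 _ ?_
      rw [Nat.cast_sub hp.one_le]
      simp [wt]
    · rw [DD_iter]
      have h3 : ∀ (j : ℕ) (g : KP p), (pderiv vy)^[j] (-g) = -(pderiv vy)^[j] g := by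
        intro j g
        induction j with
        | zero => rfl
        | succ j ih => rw [Function.iterate_succ_apply', ih, map_neg, Function.iterate_succ_apply']
      rw [h3, pderiv_iter_mul_pow _ h0, ZMod.wilsons_lemma]
      simp

/-- The kernel of the two partial derivatives. -/
noncomputable def K1 (p : ℕ) [Fact p.Prime] : Cpx (KP p) := (K2 p).Ker dY'

theorem mem_K1 {s : ℕ} {N : ℤ} {f : KP p} :
    f ∈ (K1 p).K s N ↔ (f ∈ (FF p).K s N ∧ pderiv vz f = 0) ∧ pderiv vy f = 0 := Iff.rfl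

/-- The digit derivative on `K1`. -/
theorem dW' : Cpx.Der (K1 p) p (p ^ 2) (DW p) where
  mem s N f hf := by
    rw [mem_K1] at hf ⊢
    refine ⟨dW.mem _ _ _ hf.1, ?_⟩
    rw [DW_apply, Tk_eq_dg hf.1.2]
    refine pderiv_eq_zero_of fun v hv => ?_
    obtain ⟨u, hu, rfl, -⟩ := dg_support hv
    rw [Finsupp.tsub_apply, Finsupp.single_eq_same]
    exact Nat.dvd_sub (dvd_of_pderiv_eq_zero _ hf.2 hu) dvd_rfl
  comm s N f _ := Tk_d2 p s f
  pow s N f hf := dW.pow _ _ _ hf.1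
  ex1 s N f hf h0 := by
    rw [mem_K1] at hf
    rw [(DW_iter hf.1.2 _).1] at h0
    have h1 : pderiv vz (adg (p := p) vy f) = 0 := pderiv_adg (by simp [Prod.ext_iff]) hf.1.2
    refine ⟨adg vy f, mem_K1.2 ⟨⟨adg_mem hf.1.1, h1⟩, ?_⟩, ?_⟩
    · refine pderiv_eq_zero_of fun v hv => ?_
      obtain ⟨u, hu, rfl⟩ := adg_support vy hv
      rw [Finsupp.add_apply, Finsupp.single_eq_same]
      exact dvd_add (dvd_of_pderiv_eq_zero _ hf.2 hu) dvd_rfl
    · rw [DW_apply, Tk_eq_dg h1, dg_adg _ h0]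
  ex2 s N f hf h0 := by
    rw [mem_K1] at hf
    rw [DW_apply, Tk_eq_dg hf.1.2] at h0
    refine ⟨-(X vy ^ ((p - 1) * p) * f), neg_mem (mem_K1.2 ⟨⟨?_, ?_⟩, ?_⟩), ?_⟩
    · refine X_mul_mem hf.1.1 0 _ ?_
      rw [Nat.cast_mul, Nat.cast_sub (Fact.out : p.Prime).one_le]
      simp [wt]
      ring
    · exact pderiv_z_mul hf.1.2 _
    · refine pderiv_eq_zero_of fun v hv => ?_
      obtain ⟨u, hu, rfl⟩ := pow_mul_support vy _ hv
      rw [Finsupp.add_apply, Finsupp.single_eq_same]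
      exact dvd_add (dvd_of_pderiv_eq_zero _ hf.2 hu) (dvd_mul_left _ _)
    · rw [DW_neg_iter, (DW_iter (pderiv_z_mul hf.1.2 _) _).1, dg_iter_mul_pow _ h0, neg_neg]

end Vale.Agent.P257.SG
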