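import Vale.Agent.P257.SG.Low
import Vale.Agent.P257.G.Switch
import Vale.Agent.P257.X.TowerOut

/-! The bridge between the complexes `K0`, `K1.Ker dW'` and the cobar complex of `Q.PDefs`. -/

namespace Vale.Agent.P257.SG

open MvPolynomial Finset Vale.Agent.P257.Q.PC Vale.Agent.P257.X

set_option linter.unusedSectionVars false

variable {p : ℕ} [Fact p.Prime]

/-- The reversal of the blocks `0, ..., s`. -/
def rv (s : ℕ) (x : ℕ × ℕ) : ℕ × ℕ := if x.1 ≤ s then (s - x.1, x.2) else x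

theorem rv_of_le {s : ℕ} {x : ℕ × ℕ} (h : x.1 ≤ s) : rv s x = (s - x.1, x.2) := if_pos h

theorem rv_rv (s : ℕ) (x : ℕ × ℕ) : rv s (rv s x) = x := by
  by_cases h : x.1 ≤ s
  · rw [rv_of_le h, rv_of_le (by dsimp only; omega)]
    ext
    · dsimp only; omega
    · rfl
  · rw [rv, rv, if_neg h, if_neg h]

/-- The reversal of the blocks `0, ..., s`. -/
noncomputable def rev (p s : ℕ) : KP p →ₐ[ZMod p] KP p := rename (rv s)

theorem rev_X (s : ℕ) (x : ℕ × ℕ) : rev p s (X x) = X (rv s x) := rename_X _ _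

theorem rev_rev (s : ℕ) (f : KP p) : rev p s (rev p s f) = f := by
  rw [rev, rename_rename]
  have : rv s ∘ rv s = id := funext (rv_rv s)
  rw [this, rename_id, AlgHom.id_apply]

theorem rev_injective (s : ℕ) : Function.Injective (rev p s) :=
  Function.LeftInverse.injective (rev_rev s)

theorem rev_tt {s j : ℕ} (h : j ≤ s) (n : ℕ) : rev p s (tt p j n) = tt p (s - j) n := by
  cases n with
  | zero => simp [tt]
  | succ n => rw [tt_succ, rev_X, rv_of_le h, tt_succ]

/-- The blocks `< s`. -/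
def Lt (s : ℕ) : Set (ℕ × ℕ) := {x | x.1 < s}

/-- The blocks `1, ..., s`. -/
def Bk (s : ℕ) : Set (ℕ × ℕ) := {x | 1 ≤ x.1 ∧ x.1 ≤ s}

theorem rev_δ {s i : ℕ} (hi : i < s) {f : KP p} (hf : f ∈ supported (ZMod p) (Lt s)) :
    rev p (s + 1) (δ p i f) = ψ p (s - i) (rev p s f) := by
  obtain ⟨k, hk⟩ : ∃ k, s - i = k + 1 := ⟨s - i - 1, by omega⟩
  rw [hk, ψ_succ, ← hk]
  refine eqOn_supported ((rev p (s + 1)).comp (δ p i)) ((φ p (s - i)).comp (rev p s))
    (fun x hx => ?_) hf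
  have hx' : x.1 < s := hx
  rw [AlgHom.comp_apply, AlgHom.comp_apply, rev_X, rv_of_le hx'.le, δ, aeval_X]
  rcases lt_trichotomy x.1 i with h | h | h
  · rw [if_pos h, rev_X, rv_of_le (by omega), φ_X, if_neg (by dsimp only; omega),
      if_neg (by dsimp only; omega)]
    congr 1
    ext
    · dsimp only; omega
    · rfl
  · rw [if_neg (by omega), if_pos h, map_sum, ← tt_succ, h, φ_tt,
      Finset.Nat.sum_antidiagonal_eq_sum_range_succ
        (fun a b => tt p (s - i + 1) a * tt p (s - i) b ^ p ^ a)]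
    refine Finset.sum_congr rfl fun a ha => ?_
    rw [map_mul, map_pow, rev_tt (by omega), rev_tt (by omega),
      show s + 1 - i = s - i + 1 by omega, show s + 1 - (i + 1) = s - i by omega]
  · rw [if_neg (by omega), if_neg (by omega), rev_X, rv_of_le (by dsimp only; omega), φ_X,
      if_pos (by dsimp only; omega)]
    congr 1
    ext
    · dsimp only; omega
    · rfl

theorem rev_sh {s : ℕ} {f : KP p} (hf : f ∈ supported (ZMod p) (Lt s)) :
    rev p (s + 1) (sh p f) = rev p s f := by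
  refine eqOn_supported ((rev p (s + 1)).comp (sh p)) (rev p s) (fun x hx => ?_) hf
  have hx' : x.1 < s := hx
  rw [AlgHom.comp_apply, rev_X, rv_of_le hx'.le, sh, rename_X, rev_X,
    rv_of_le (by dsimp only; omega)]
  congr 1
  ext
  · dsimp only; omega
  · rfl

theorem rev_id {s : ℕ} {f : KP p} (hf : f ∈ supported (ZMod p) (Lt s)) :
    rev p (s + 1) f = ψ p 0 (rev p s f) := by
  refine eqOn_supported (rev p (s + 1)) ((ψ p 0).comp (rev p s)) (fun x hx => ?_) hf
  have hx' : x.1 < s := hx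
  rw [AlgHom.comp_apply, rev_X, rv_of_le (by omega), rev_X, rv_of_le hx'.le, ψ_zero_X,
    if_neg (by dsimp only; omega)]
  congr 1
  ext
  · dsimp only; omega
  · rfl

/-- The reversal and the differentials. -/
theorem rev_cob {s : ℕ} {f : KP p} (hf : f ∈ supported (ZMod p) (Lt s)) :
    rev p (s + 1) (cob p s f) = (-1 : ZMod p) ^ (s + 1) • d2 p s (rev p s f) := by
  rw [G.cob_apply, d2_apply, map_add, map_add, map_sum, rev_sh hf, map_smul, rev_id hf,
    Finset.sum_range_succ', pow_zero, one_smul, smul_add, smul_add, smul_smul, ← pow_add,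
    Even.neg_one_pow ⟨s + 1, rfl⟩, one_smul, Finset.smul_sum]
  have h1 : ∑ i ∈ range s, rev p (s + 1) ((-1 : ZMod p) ^ (i + 1) • δ p i f) =
      ∑ i ∈ range s, (-1 : ZMod p) ^ (s + 1) • (-1 : ZMod p) ^ (i + 1) •
        ψ p (i + 1) (rev p s f) := by
    rw [← Finset.sum_range_reflect]
    refine Finset.sum_congr rfl fun i hi => ?_
    rw [Finset.mem_range] at hi
    rw [map_smul, rev_δ (by omega) hf, smul_smul, ← pow_add,
      show s - (s - 1 - i) = i + 1 by omega]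
    congr 1
    rw [show s + 1 + (i + 1) = (s - 1 - i + 1) + 2 * (i + 1) by omega, pow_add _ (s - 1 - i + 1),
      pow_mul]
    simp
  rw [h1]
  abel

theorem rev_supp {s : ℕ} {f : KP p} (hf : f ∈ supported (ZMod p) (Lt s)) :
    rev p s f ∈ supported (ZMod p) (Bk s) := by
  refine supported_map (rev p s) (V := Lt s) (fun x hx => ?_) hf
  have hx' : x.1 < s := hx
  rw [rev_X, rv_of_le hx'.le]
  exact X_mem_supported.2 ⟨by dsimp only; omega, by dsimp only; omega⟩

theorem rev_supp' {s : ℕ} {f : KP p} (hf : f ∈ supported (ZMod p) (Bk s)) :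
    rev p s f ∈ supported (ZMod p) (Lt s) := by
  refine supported_map (rev p s) (V := Bk s) (fun x hx => ?_) hf
  obtain ⟨h1, h2⟩ : 1 ≤ x.1 ∧ x.1 ≤ s := hx
  rw [rev_X, rv_of_le h2]
  exact X_mem_supported.2 (show s - x.1 < s by omega)

/-- Polynomials without the block `0`. -/
def B0 (p s : ℕ) (N : ℤ) (f : KP p) : Prop :=
  IsWeightedHomogeneous (W2 p) f N ∧ f ∈ supported (ZMod p) (Bk s)

theorem rev_Ch {s N : ℕ} {f : KP p} : B0 p s N (rev p s f) ↔ f ∈ Ch p s N := by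
  rw [mem_Ch, B0]
  constructor
  · rintro ⟨h1, h2⟩
    have h3 := rev_supp' h2
    rw [rev_rev] at h3
    refine ⟨hom_cast.1 ?_, h3⟩
    have h4 := homogeneous_map (rev p s) (V := Bk s) (w := W2 p)
      (w' := fun i : ℕ × ℕ => (wt p i.2 : ℤ)) (fun x hx => ?_) h2 h1
    · rwa [rev_rev] at h4
    · obtain ⟨hx1, hx2⟩ : 1 ≤ x.1 ∧ x.1 ≤ s := hx
      rw [rev_X, rv_of_le hx2, W2, if_neg (by omega)]
      exact isWeightedHomogeneous_X (ZMod p) (fun i : ℕ × ℕ => (wt p i.2 : ℤ)) (s - x.1, x.2)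
  · rintro ⟨h1, h2⟩
    refine ⟨?_, rev_supp h2⟩
    refine homogeneous_map (rev p s) (V := Lt s) (w := fun i : ℕ × ℕ => (wt p i.2 : ℤ))
      (w' := W2 p) (fun x hx => ?_) h2 (hom_cast.2 h1)
    have hx' : x.1 < s := hx
    rw [rev_X, rv_of_le hx'.le]
    have := isWeightedHomogeneous_X (ZMod p) (W2 p) (s - x.1, x.2)
    rwa [W2, if_neg (by dsimp only; omega)] at this

theorem rev_Ch' {s N : ℕ} {f : KP p} : B0 p s N f ↔ rev p s f ∈ Ch p s N := by
  rw [← rev_Ch, rev_rev]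

theorem neg_one_pow_smul_eq_zero {k : ℕ} {f : KP p} : (-1 : ZMod p) ^ k • f = 0 ↔ f = 0 := by
  rcases neg_one_pow_eq_or (ZMod p) k with h | h
  · rw [h, one_smul]
  · rw [h, neg_one_smul, neg_eq_zero]

/-- The bridge. -/
theorem van_iff_ex {C : Cpx (KP p)} (hd : ∀ s f, C.d s f = d2 p s f) {s N : ℕ}
    (hC : ∀ s f, f ∈ C.K s N ↔ B0 p s N f) : Van p s N ↔ C.Ex s N := by
  constructor
  · intro h f hf
    obtain ⟨hf1, hf2⟩ := hf
    rw [hC] at hf1
    rw [hd] at hf2
    have hz : rev p s f ∈ Zc p s N := by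
      refine ⟨rev_Ch'.1 hf1, ?_⟩
      change cob p s (rev p s f) = 0
      apply rev_injective (s + 1)
      rw [map_zero, rev_cob (rev_supp' hf1.2), rev_rev, hf2, smul_zero]
    have hb := h hz
    cases s with
    | zero =>
      change rev p 0 f = 0 at hb
      change f = 0
      apply rev_injective 0
      rw [hb, map_zero]
    | succ s =>
      obtain ⟨g, hg, hg'⟩ := hb
      have hg2 : g ∈ supported (ZMod p) (Lt s) := (mem_Ch.1 hg).2
      have h1 := congrArg (rev p (s + 1)) hg'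
      rw [rev_rev, rev_cob hg2] at h1
      refine ⟨(-1 : ZMod p) ^ (s + 1) • rev p s g, (hC _ _).2 ?_, ?_⟩
      · rw [← map_smul]
        exact rev_Ch.2 (Submodule.smul_mem _ _ hg)
      · rw [hd, map_smul, h1]
  · intro h f hf
    obtain ⟨hf1, hf2⟩ := hf
    change cob p s f = 0 at hf2
    have hfs : f ∈ supported (ZMod p) (Lt s) := (mem_Ch.1 hf1).2
    have hz : C.Z s N (rev p s f) := by
      refine ⟨(hC _ _).2 (rev_Ch.2 hf1), ?_⟩
      have h1 := rev_cob hfs
      rw [hf2, map_zero] at h1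
      rw [hd]
      exact neg_one_pow_smul_eq_zero.1 h1.symm
    have hb := h _ hz
    cases s with
    | zero =>
      change rev p 0 f = 0 at hb
      change f = 0
      apply rev_injective 0
      rw [hb, map_zero]
    | succ s =>
      obtain ⟨g, hg, hg'⟩ := hb
      rw [hC] at hg
      rw [hd] at hg'
      refine ⟨rev p s ((-1 : ZMod p) ^ (s + 1) • g), ?_, ?_⟩
      · have := rev_Ch'.1 hg
        rw [map_smul]
        exact Submodule.smul_mem _ _ this
      · apply rev_injective (s + 1)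
        rw [map_smul, map_smul, map_smul, rev_cob (rev_supp' hg.2), rev_rev, hg', smul_smul,
          ← pow_add, Even.neg_one_pow ⟨s + 1, rfl⟩, one_smul]

theorem W2_nonneg (x : ℕ × ℕ) : 0 ≤ W2 p x := by
  rw [W2]; split_ifs <;> positivity

theorem le_weight (u : ℕ × ℕ →₀ ℕ) (x : ℕ × ℕ) : (u x : ℤ) * W2 p x ≤ Finsupp.weight (W2 p) u := by
  rw [Finsupp.weight_apply, Finsupp.sum]
  by_cases h0 : u x = 0
  · rw [h0, Nat.cast_zero, zero_mul]
    exact Finset.sum_nonneg fun y _ => by rw [nsmul_eq_mul]; exact mul_nonneg (by positivity) (W2_nonneg y)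
  · rw [← Finset.add_sum_erase _ _ (Finsupp.mem_support_iff.2 h0), nsmul_eq_mul]
    have : 0 ≤ ∑ y ∈ u.support.erase x, u y • W2 p y :=
      Finset.sum_nonneg fun y _ => by
        rw [nsmul_eq_mul]; exact mul_nonneg (by positivity) (W2_nonneg y)
    linarith

/-- In small degrees there is no block `0`. -/
theorem no_block0 {s : ℕ} {N : ℤ} (hN : N < p ^ 3) {f : KP p} (hf : f ∈ (FF p).K s N)
    (hz : ∀ u ∈ f.support, p ∣ u vz) (hy : ∀ u ∈ f.support, p ^ 2 ∣ u vy) : B0 p s N f := by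
  rw [mem_FF] at hf
  refine ⟨hf.1, ?_⟩
  have hs := hf.2
  rw [mem_supported_iff] at hs ⊢
  intro u hu x hx
  refine ⟨?_, hs u hu x hx⟩
  by_contra h0
  obtain ⟨l, n⟩ := x
  obtain rfl : l = 0 := by dsimp only at h0; omega
  rw [Finsupp.mem_support_iff] at hx
  have hp := (Fact.out : p.Prime)
  have hp1 : (1 : ℤ) ≤ p := by exact_mod_cast hp.one_le
  have h1 := le_weight (p := p) u (0, n)
  rw [hf.1 (mem_support_iff.1 hu), W2_zero] at h1
  have hw : (1 : ℤ) ≤ wt p n := by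
    have := wt_ge (p := p) n
    have h2 : 0 < p ^ n := pow_pos hp.pos n
    exact_mod_cast h2.trans_le this
  have hux : (1 : ℤ) ≤ u (0, n) := by
    have : 1 ≤ u (0, n) := Nat.one_le_iff_ne_zero.2 hx
    exact_mod_cast this
  rcases Nat.lt_or_ge n 2 with hn | hn
  · have h3 : (p : ℤ) ^ 2 ≤ u (0, n) * wt p n := by
      have : n = 0 ∨ n = 1 := by omega
      rcases this with rfl | rfl
      · have := Nat.le_of_dvd (Nat.pos_of_ne_zero hx) (hy u hu)
        have h4 : (p : ℤ) ^ 2 ≤ u (0, 0) := by exact_mod_cast this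
        nlinarith
      · have := Nat.le_of_dvd (Nat.pos_of_ne_zero hx) (hz u hu)
        have h4 : (p : ℤ) ≤ u (0, 1) := by exact_mod_cast this
        have h5 : (p : ℤ) ≤ wt p 1 := by
          have := wt_ge (p := p) 1
          rw [pow_one] at this
          exact_mod_cast this
        nlinarith
    nlinarith
  · have h3 : (p : ℤ) ^ 2 ≤ wt p n := by
      have h5 := wt_ge (p := p) n
      have h6 : p ^ 2 ≤ p ^ n := Nat.pow_le_pow_right hp.pos hn
      exact_mod_cast h6.trans h5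
    have h7 : (p : ℤ) * p ^ 2 ≤ u (0, n) * (p * wt p n) := by
      have h8 : (p : ℤ) * p ^ 2 ≤ p * wt p n := by nlinarith
      have h9 : (0 : ℤ) ≤ p * wt p n := by positivity
      nlinarith
    have h10 : (p : ℤ) * p ^ 2 = p ^ 3 := by ring
    linarith

theorem of_no_block0 {s : ℕ} {N : ℤ} {f : KP p} (hf : B0 p s N f) : f ∈ (FF p).K s N ∧
    ∀ u ∈ f.support, ∀ n, u (0, n) = 0 := by
  obtain ⟨h1, h2⟩ := hf
  rw [mem_supported_iff] at h2
  refine ⟨mem_FF.2 ⟨h1, mem_supported_iff.2 fun u hu x hx => (h2 u hu x hx).2⟩,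
    fun u hu n => ?_⟩
  by_contra h0
  have := (h2 u hu (0, n) (Finsupp.mem_support_iff.2 h0)).1
  dsimp only at this
  omega

theorem mem_K0 {s : ℕ} {N : ℤ} (hN : N < p ^ 3) {f : KP p} : f ∈ (K0 p).K s N ↔ B0 p s N f := by
  constructor
  · intro hf
    obtain ⟨h1, h2⟩ : f ∈ (M1 p).K s N ∧ pderiv vy f = 0 := hf
    rw [mem_M1'] at h1
    obtain ⟨⟨h1, h3⟩, h4⟩ := h1
    refine no_block0 hN h1 (fun u hu => dvd_of_pderiv_eq_zero _ h3 hu) fun u hu => ?_
    obtain ⟨c, hc⟩ := dvd_of_pderiv_eq_zero _ h2 hu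
    obtain ⟨e, he⟩ := h4 u hu
    rw [hc, Nat.mul_div_cancel_left _ (Fact.out : p.Prime).pos] at he
    rw [hc, he, sq, ← mul_assoc]
    exact dvd_mul_right _ _
  · intro hf
    obtain ⟨h1, h2⟩ := of_no_block0 hf
    refine ⟨mem_M1'.2 ⟨⟨h1, pderiv_eq_zero_of fun u hu => ?_⟩, fun u hu => ?_⟩,
      pderiv_eq_zero_of fun u hu => ?_⟩
    · rw [h2 u hu]; exact dvd_zero _
    · rw [h2 u hu, Nat.zero_div]; exact dvd_zero _
    · rw [h2 u hu]; exact dvd_zero _

theorem mem_K0' {s : ℕ} {N : ℤ} (hN : N < p ^ 3) {f : KP p} :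
    f ∈ ((K1 p).Ker dW').K s N ↔ B0 p s N f := by
  rw [← mem_K0 hN]
  constructor
  · intro hf
    obtain ⟨h1, h2⟩ : f ∈ (K1 p).K s N ∧ Tk p p f = 0 := hf
    rw [mem_K1] at h1
    exact ⟨mem_M1.2 ⟨h1.1, h2⟩, h1.2⟩
  · intro hf
    obtain ⟨h1, h2⟩ : f ∈ (M1 p).K s N ∧ pderiv vy f = 0 := hf
    rw [mem_M1] at h1
    exact ⟨mem_K1.2 ⟨h1.1, h2⟩, h1.2⟩

/-- The bridge for `K0`. -/
theorem van_iff {s N : ℕ} (hN : (N : ℤ) < p ^ 3) : Van p s N ↔ (K0 p).Ex s N :=
  van_iff_ex (fun _ _ => rfl) fun _ _ => mem_K0 hN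

/-- The bridge for `K1.Ker dW'`. -/
theorem van_iff' {s N : ℕ} (hN : (N : ℤ) < p ^ 3) : Van p s N ↔ ((K1 p).Ker dW').Ex s N :=
  van_iff_ex (fun _ _ => rfl) fun _ _ => mem_K0' hN

end Vale.Agent.P257.SG
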