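import Vale.Agent.P257.SG.Ops

/-! The cones of `B_1 ∪`, `B_2 ∪` on the complex with coefficients in `k[t_1^p, t_2^p, ...]`. -/

namespace Vale.Agent.P257.SG

open MvPolynomial Finset Vale.Agent.P257.Q.PC Vale.Agent.P257.X Vale.Agent.P257.E

set_option linter.unusedSectionVars false

variable {p : ℕ} [Fact p.Prime]

theorem DD_iter_neg (n j : ℕ) (g : KP p) : (DD p n)^[j] (-g) = -(DD p n)^[j] g := by
  induction j with
  | zero => rfl
  | succ j ih => rw [Function.iterate_succ_apply', ih, map_neg, Function.iterate_succ_apply']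

/-- The hypothesis of `cone_ker`. -/
theorem perA (n s : ℕ) (N : ℤ) (z : KP p) (hz : ((AA p (n + 1)).Ker (der n)).Z s N z) :
    ∃ g ∈ (AA p (n + 1)).K s (N + (p - 1 : ℤ) * (wt p n)),
      ∃ u ∈ (AA p (n + 1)).K (s + 1) (N + p * wt p n), (DD p n)^[p - 1] g = z ∧
        DD p n u = (AA p (n + 1)).d s g ∧ (AA p (n + 1)).d (s + 1) u = bop p n z := by
  have hp := (Fact.out : p.Prime)
  obtain ⟨hzK, hzd⟩ := hz
  obtain ⟨hzK, hzD⟩ := (Cpx.mem_ker _).1 hzK
  have hzD' : pderiv ((0, n) : ℕ × ℕ) z = 0 := hzD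
  have hzd' : dd p s z = 0 := hzd
  have hφ : ∀ i j, i ≤ j → ∀ x, φ p (j + 1) (φ p i x) = φ p i (φ p j x) := fun i j h x => φ_φ h x
  have hX : ∀ s, (X (0, n) : KP p) ∈ (AA p (n + 1)).K s (wt p n) := fun s => by
    rw [mem_AA]
    refine ⟨X_mem_Co s n, fun k hk => ?_⟩
    rw [pderiv_X_of_ne]
    rw [Ne, Prod.mk.injEq]; omega
  have hτ : hn p n ∈ (AA p (n + 1)).K 1 (wt p n) := AA_mono (Nat.zero_le _) le_rfl (hn_mem n)
  have hU : gam p (X (0, n)) (hn p n) ∈ (AA p (n + 1)).K 1 (p * wt p n) :=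
    gam_mem_AA (hX 1) hτ
  refine ⟨-(X (0, n) ^ (p - 1) * z), ?_, -(gam p (X (0, n)) (hn p n) * φ p 0 z), ?_, ?_, ?_, ?_⟩
  · have h1 : ∀ k : ℕ, (X (0, n) : KP p) ^ k * z ∈ (AA p (n + 1)).K s (k * wt p n + N) := by
      intro k
      induction k with
      | zero => simpa using hzK
      | succ k ih =>
        have := mul_mem_AA (hX s) ih
        rw [pow_succ', mul_assoc]
        rwa [show (wt p n : ℤ) + (k * wt p n + N) = (k + 1 : ℕ) * wt p n + N by
          push_cast; ring] at this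
    have h2 := h1 (p - 1)
    rw [show ((p - 1 : ℕ) : ℤ) * wt p n + N = N + (p - 1 : ℤ) * wt p n by
      rw [Nat.cast_sub hp.one_le]; push_cast; ring] at h2
    exact neg_mem h2
  · rw [add_comm N]
    exact neg_mem (mul_mem_AA (AA_mono le_rfl (by omega) hU) (φ_mem_AA (Nat.zero_le _) hzK))
  · rw [DD_iter_neg, DD_iter, pderiv_iter_mul_pow _ hzD', ZMod.wilsons_lemma]
    simp
  · rw [AA_d, DD_apply, map_neg, map_neg, pderiv_mul, pderiv_φ, hzD', map_zero, mul_zero,
      add_zero, derivation_gam hp, pderiv_X_self, (mem_AA.1 (hn_mem (p := p) n)).2 n (Nat.zero_le _)]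
    have h1 := leib hφ (r := 0) (s := s) (a := (X (0, n) : KP p) ^ (p - 1))
      (fun i hi => by rw [map_pow, φ_y n i hi]) z
    rw [df_dd, df_dd, df_dd, hzd'] at h1
    simp only [add_zero, zero_add, pow_zero, Function.iterate_zero, id_eq,
      Function.iterate_one, mul_zero] at h1
    rw [h1, ← df_dd, df]
    simp only [Finset.sum_range_succ, Finset.sum_range_zero, sgn, map_pow, hn, zero_add]
    rw [add_sub_cancel]
    ring
  · rw [AA_d, map_neg, bop_apply]
    have h1 := leib hφ (r := 1) (s := s) (a := gam p (X (0, n)) (hn p n))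
      (fun i hi => by rw [φ_of_lt hi (mem_AA.1 hU).1.2]) z
    have h2 : df (φ p) 1 (gam p (X (0, n)) (hn p n)) = bn p n :=
      df_one_gam hφ (fun i hi => φ_y n i hi)
    rw [h2, df_dd, df_dd, hzd'] at h1
    simp only [Function.iterate_succ_apply, Function.iterate_zero, id_eq,
      map_zero, mul_zero, add_zero] at h1
    rw [h1]

/-- `η φ_0 = 1` -/
theorem eta_φ_zero (x : KP p) : eta p (φ p 0 x) = x := by
  have : (eta p).comp (φ p 0) = AlgHom.id _ _ := by
    refine MvPolynomial.algHom_ext fun y => ?_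
    obtain ⟨l, n⟩ := y
    rw [AlgHom.comp_apply, ← tt_succ]
    by_cases hl : l = 0
    · subst hl
      rw [φ_tt, map_sum, Finset.sum_eq_single (n + 1, 0)]
      · rw [map_mul, map_pow, eta_tt, tt_zero, map_one, one_pow, mul_one]
        rfl
      · rintro ⟨a, b⟩ hab hne
        rw [HasAntidiagonal.mem_antidiagonal] at hab
        dsimp only at hab
        obtain ⟨b, rfl⟩ : ∃ b', b = b' + 1 := ⟨b - 1, by
          have : b ≠ 0 := by
            rintro rfl
            apply hne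
            rw [Prod.mk.injEq]; omega
          omega⟩
        rw [map_mul, map_pow, tt_succ 0 b, eta_X, if_pos rfl,
          zero_pow (pow_ne_zero _ (Fact.out : p.Prime).ne_zero), mul_zero]
      · intro h2
        exact absurd (HasAntidiagonal.mem_antidiagonal.2 (Nat.add_zero _)) h2
    · obtain ⟨l, rfl⟩ : ∃ l', l = l' + 1 := ⟨l - 1, by omega⟩
      rw [φ_tt_gt (by omega), eta_tt]
      rfl
  exact DFunLike.congr_fun this x

/-- `η φ_(j+1) = φ_j η` -/
theorem eta_φ_succ (j : ℕ) (x : KP p) : eta p (φ p (j + 1) x) = φ p j (eta p x) := by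
  have : (eta p).comp (φ p (j + 1)) = (φ p j).comp (eta p) := by
    refine MvPolynomial.algHom_ext fun y => ?_
    obtain ⟨l, n⟩ := y
    rw [AlgHom.comp_apply, AlgHom.comp_apply, ← tt_succ]
    cases l with
    | zero =>
      rw [φ_tt_lt (by omega), tt_succ, eta_X, if_pos rfl, map_zero]
    | succ l =>
      rw [eta_tt]
      rcases lt_trichotomy l j with h | h | h
      · rw [φ_tt_lt (by omega), eta_tt, φ_tt_lt h]
      · subst h
        rw [φ_tt, φ_tt, map_sum]
        refine Finset.sum_congr rfl fun y _ => ?_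
        rw [map_mul, map_pow, eta_tt, eta_tt]
      · rw [φ_tt_gt (by omega), eta_tt, φ_tt_gt h]
  exact DFunLike.congr_fun this x

theorem eta_mem_Co {s : ℕ} {N : ℤ} {f : KP p} (hf : f ∈ Co p s N) : eta p f ∈ Co p (s - 1) N := by
  rw [mem_Co] at *
  refine ⟨homogeneous_map (eta p) (V := Set.univ) (fun x _ => ?_) (by simp) hf.1,
    supported_map (eta p) (fun x hx => ?_) hf.2⟩
  · rw [eta_X]
    split_ifs
    · exact isWeightedHomogeneous_zero _ _ _
    · exact isWeightedHomogeneous_X (ZMod p) (W p) (x.1 - 1, x.2)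
  · rw [eta_X]
    split_ifs
    · exact zero_mem _
    · exact X_mem_supported.2 (show x.1 - 1 ≤ s - 1 from Nat.sub_le_sub_right hx 1)

/-- The top of the tower. -/
theorem topA {m s : ℕ} {N : ℤ} (hN : N < wt p m) (h0 : ¬ (s = 0 ∧ N = 0)) :
    (AA p m).Ex s N := by
  rintro f ⟨hf, hd⟩
  have hC := (mem_AA.1 hf).1
  change dd p s f = 0 at hd
  rw [dd_eq hC.2, Finset.sum_range_succ'] at hd
  have h3 := congrArg (eta p) hd
  rw [map_zero, map_add, map_sum, pow_zero, one_smul, eta_φ_zero] at h3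
  have h4 : f = ∑ i ∈ range (s + 1), (-1 : ZMod p) ^ i • φ p i (eta p f) := by
    rw [add_comm, add_eq_zero_iff_eq_neg] at h3
    refine h3.trans ?_
    rw [← Finset.sum_neg_distrib]
    refine Finset.sum_congr rfl fun i _ => ?_
    rw [map_smul, eta_φ_succ, pow_succ, mul_neg, mul_one, neg_smul, neg_neg]
  cases s with
  | zero =>
    change f = 0
    have h6 : eta p f = C (constantCoeff f) := by
      have := eqOn_supported (eta p) ((Algebra.ofId (ZMod p) (KP p)).comp (aeval fun _ => (0 : ZMod p)))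
        (V := Bl 0) (fun x hx => by
          rw [eta_X, if_pos (Nat.le_zero.1 hx), AlgHom.comp_apply, aeval_X, map_zero]) hC.2
      rw [this, AlgHom.comp_apply]
      change C (aeval (fun _ => (0 : ZMod p)) f) = _
      congr 1
      simp [aeval_def, constantCoeff_eq, eval₂_zero'_apply]
    have h7 : constantCoeff f = 0 := by
      by_contra h7
      have h8 := hC.1 h7
      rw [map_zero] at h8
      exact h0 ⟨rfl, h8.symm⟩
    rw [h4, h6, h7, C_0]
    simp
  | succ s =>
    have h5 := eta_mem_Co hC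
    rw [Nat.add_sub_cancel] at h5
    refine ⟨eta p f, mem_AA.2 ⟨h5, fun n hn => ?_⟩, ?_⟩
    · refine pderiv_of_lt ?_ h5 0
      refine hN.trans_le ?_
      exact_mod_cast wt_mono (p := p) hn
    · change dd p s (eta p f) = f
      rw [dd_eq h5.2]
      exact h4.symm

/-- The letters. -/
def LA : ℕ → List (ℕ × ℕ)
  | 0 => []
  | m + 1 => (2 - m, 0) :: LA m

theorem exA (j : ℕ) (hj : j ≤ 3) {s : ℕ} {N : ℤ} (hN : N < wt p 3) (h : NoM p (LA j) s N) :
    (AA p (3 - j)).Ex s N := by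
  induction j generalizing s N with
  | zero =>
    refine topA hN ?_
    rintro ⟨rfl, rfl⟩
    exact h 0 rfl ⟨rfl, rfl⟩
  | succ j ih =>
    have h1 : 3 - j = 3 - (j + 1) + 1 := by omega
    have h2 : 2 - j = 3 - (j + 1) := by omega
    refine (isoA (p := p) (3 - (j + 1))).ex_iff.1 ((der (3 - (j + 1))).tower
      (Fact.out : p.Prime).one_le s N ?_)
    intro s' ε k hε hs
    rw [← h1]
    refine ih (by omega) ?_ ?_
    · have : 0 ≤ ((ε : ℤ) + p * k) * (wt p (3 - (j + 1))) := by positivity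
      omega
    · have := NoM.cons h hε hs
      rw [pow_zero, one_mul] at this
      rw [← h2]
      exact this

/-- The cone of `B_(m+1)` on `AA p m`. -/
theorem coneA (m : ℕ) {s : ℕ} {N : ℤ} (h1 : (AA p (m + 1)).Ex s N)
    (h2 : ∀ s', s = s' + 1 → (AA p (m + 1)).Ex s' (N - wt p m)) :
    ((AA p m).Cone (bop_op m m)).Ex s N := by
  have hk := (bop_op (p := p) m (m + 1)).ker (der m) (DD_bop m m)
  have key := (der (p := p) m).cone_ker (Fact.out : p.Prime).one_le rfl hk (perA m) h1 h2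
  exact ((isoA (p := p) m).cone (bop_op m m) hk fun _ => rfl).ex_iff.1 key

/-- The operator `B_1`. -/
theorem cone1 {s : ℕ} {N : ℤ} (hN : N < wt p 3) (h1 : NoM p (LA 2) s N)
    (h2 : ∀ s', s = s' + 1 → NoM p (LA 2) s' (N - 1)) :
    ((AA p 0).Cone (bop_op 0 0)).Ex s N := by
  refine coneA 0 (exA 2 (by norm_num) hN h1) fun s' hs' => ?_
  have h3 : (wt p 0 : ℤ) = 1 := by rw [wt]; simp
  rw [h3]
  exact exA 2 (by norm_num) (by omega) (h2 s' hs')

/-- The operator `B_2`. -/
theorem cone2 {s : ℕ} {N : ℤ} (hN : N < wt p 3)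
    (h1 : ∀ s' ε j : ℕ, ε ≤ 1 → s = s' + ε + 2 * j → NoM p (LA 1) s' (N - (ε + p * j)))
    (h2 : ∀ s' ε j : ℕ, ε ≤ 1 → s = s' + 1 + ε + 2 * j →
      NoM p (LA 1) s' (N - (ε + p * j) - wt p 1)) :
    ((AA p 0).Cone (bop_op 1 0)).Ex s N := by
  have h3 : (wt p 0 : ℤ) = 1 := by rw [wt]; simp
  refine (stepA 1 0).cone (bop_op 1 1) (bop_op 1 0) (Fact.out : p.Prime).one_le s N ?_
  intro s' ε j hε hs
  rw [h3, mul_one]
  have h4 : 0 ≤ ((ε : ℤ) + p * j) := by positivity
  refine coneA 1 (exA 1 (by norm_num) (by omega) (h1 s' ε j hε hs)) fun s'' hs'' => ?_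
  have h5 : (0 : ℤ) ≤ wt p 1 := by positivity
  exact exA 1 (by norm_num) (by omega) (h2 s'' ε j hε (by omega))

end Vale.Agent.P257.SG
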