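import Vale.Agent.P257.SG.Tr

/-! The derivative with respect to the second digit of the exponent of a variable. -/

namespace Vale.Agent.P257.SG

open MvPolynomial Finset Vale.Agent.P257.Q.PC Vale.Agent.P257.X

set_option linter.unusedSectionVars false

section General

variable {σ : Type*} {p : ℕ} [Fact p.Prime] (x : σ)

/-- `y ^ a ↦ (a / p) y ^ (a - p)`. -/
noncomputable def dg (p : ℕ) [Fact p.Prime] (x : σ) :
    MvPolynomial σ (ZMod p) →ₗ[ZMod p] MvPolynomial σ (ZMod p) :=
  (basisMonomials σ (ZMod p)).constr (ZMod p) fun u =>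
    monomial (u - Finsupp.single x p) ((u x / p : ℕ) : ZMod p)

theorem dg_monomial (u : σ →₀ ℕ) (c : ZMod p) :
    dg p x (monomial u c) = monomial (u - Finsupp.single x p) (c * (u x / p : ℕ)) := by
  have h1 : (monomial u c : MvPolynomial σ (ZMod p)) = c • basisMonomials σ (ZMod p) u := by
    rw [coe_basisMonomials, smul_monomial, smul_eq_mul, mul_one]
  rw [h1, map_smul, dg, Module.Basis.constr_basis, smul_monomial, smul_eq_mul]

theorem dg_iter_monomial (k : ℕ) (u : σ →₀ ℕ) (c : ZMod p) :
    (dg p x)^[k] (monomial u c) = monomial (u - Finsupp.single x (k * p))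
      (c * ((u x / p).descFactorial k : ℕ)) := by
  have hp := (Fact.out : p.Prime)
  induction k with
  | zero => simp
  | succ k ih =>
    rw [Function.iterate_succ_apply', ih, dg_monomial]
    congr 1
    · rw [tsub_tsub, ← Finsupp.single_add, ← Nat.succ_mul]
    · rw [Nat.descFactorial_succ, Finsupp.tsub_apply, Finsupp.single_eq_same, mul_comm k p,
        Nat.sub_mul_div]
      push_cast
      ring

theorem dg_iter_zero (k : ℕ) : (dg p x)^[k] (0 : MvPolynomial σ (ZMod p)) = 0 := by
  induction k with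
  | zero => rfl
  | succ k ih => rw [Function.iterate_succ_apply', ih, map_zero]

theorem dg_iter_sum {ι : Type*} (k : ℕ) (s : Finset ι) (g : ι → MvPolynomial σ (ZMod p)) :
    (dg p x)^[k] (∑ i ∈ s, g i) = ∑ i ∈ s, (dg p x)^[k] (g i) := by
  induction k with
  | zero => rfl
  | succ k ih => simp only [Function.iterate_succ_apply', ih, map_sum]

theorem dg_iter_p (f : MvPolynomial σ (ZMod p)) : (dg p x)^[p] f = 0 := by
  rw [f.as_sum, dg_iter_sum]
  refine Finset.sum_eq_zero fun u _ => ?_
  rw [dg_iter_monomial]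
  have : (((u x / p).descFactorial p : ℕ) : ZMod p) = 0 := by
    rw [ZMod.natCast_eq_zero_iff, Nat.descFactorial_eq_factorial_mul_choose]
    exact Dvd.dvd.mul_right (Nat.dvd_factorial (Fact.out : p.Prime).pos le_rfl) _
  rw [this, mul_zero, monomial_zero]

/-- The coefficients of iterated derivatives. -/
theorem coeff_dg_iter (k : ℕ) (f : MvPolynomial σ (ZMod p)) (u : σ →₀ ℕ) (hu : k * p ≤ u x) :
    coeff (u - Finsupp.single x (k * p)) ((dg p x)^[k] f) =
      coeff u f * ((u x / p).descFactorial k : ℕ) := by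
  classical
  have hp := (Fact.out : p.Prime)
  conv_lhs => rw [f.as_sum, dg_iter_sum, coeff_sum]
  have h1 : ∀ v ∈ f.support, v ≠ u → coeff (u - Finsupp.single x (k * p))
      ((dg p x)^[k] (monomial v (coeff v f))) = 0 := by
    intro v _ hvu
    rw [dg_iter_monomial, coeff_monomial]
    split_ifs with h
    · by_cases hv : k * p ≤ v x
      · exfalso
        apply hvu
        ext y
        have := DFunLike.congr_fun h y
        simp only [Finsupp.tsub_apply] at this
        by_cases hy : x = y
        · subst hy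
          rw [Finsupp.single_eq_same] at this
          omega
        · rw [Finsupp.single_eq_of_ne (Ne.symm hy)] at this
          omega
      · rw [Nat.descFactorial_eq_zero_iff_lt.2 ((Nat.div_lt_iff_lt_mul hp.pos).2 (by omega))]
        simp
    · rfl
  rw [Finset.sum_eq_single u h1]
  · rw [dg_iter_monomial, coeff_monomial, if_pos rfl]
  · intro hu'
    rw [notMem_support_iff] at hu'
    rw [hu', monomial_zero, dg_iter_zero, coeff_zero]

theorem dvd_of_dg_eq_zero {f : MvPolynomial σ (ZMod p)} (hf : dg p x f = 0)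
    {u : σ →₀ ℕ} (hu : u ∈ f.support) : p ∣ u x / p := by
  have hp := (Fact.out : p.Prime)
  rcases Nat.lt_or_ge (u x) p with h0 | h0
  · rw [Nat.div_eq_of_lt h0]; exact dvd_zero _
  have h1 := coeff_dg_iter x 1 f u (by rwa [one_mul])
  rw [Function.iterate_one, hf, coeff_zero, Nat.descFactorial_one] at h1
  have h2 := mul_eq_zero.1 h1.symm
  rcases h2 with h2 | h2
  · exact absurd h2 (mem_support_iff.1 hu)
  · rwa [ZMod.natCast_eq_zero_iff] at h2

theorem dg_eq_zero_of {f : MvPolynomial σ (ZMod p)} (h : ∀ u ∈ f.support, p ∣ u x / p) :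
    dg p x f = 0 := by
  rw [f.as_sum, map_sum]
  refine Finset.sum_eq_zero fun u hu => ?_
  rw [dg_monomial, (ZMod.natCast_eq_zero_iff _ p).2 (h u hu), mul_zero, monomial_zero]

theorem not_dvd_of_dg_iter_eq_zero {f : MvPolynomial σ (ZMod p)}
    (hf : (dg p x)^[p - 1] f = 0) {u : σ →₀ ℕ} (hu : u ∈ f.support) : ¬ p ∣ u x / p + 1 := by
  intro hd
  have hp := (Fact.out : p.Prime)
  have hle' : p - 1 ≤ u x / p := by
    have := Nat.le_of_dvd (Nat.succ_pos _) hd
    exact Nat.sub_le_of_le_add this
  have hle : (p - 1) * p ≤ u x := (Nat.le_div_iff_mul_le hp.pos).1 hle'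
  have h1 := coeff_dg_iter x (p - 1) f u hle
  rw [hf, coeff_zero] at h1
  rcases mul_eq_zero.1 h1.symm with h2 | h2
  · exact absurd h2 (mem_support_iff.1 hu)
  · rw [ZMod.natCast_eq_zero_iff, Nat.descFactorial_eq_prod_range, hp.prime.dvd_finsetProd_iff] at h2
    obtain ⟨i, hi, hi'⟩ := h2
    rw [Finset.mem_range] at hi
    have h3 : p ∣ (u x / p + 1) - (u x / p - i) := Nat.dvd_sub hd hi'
    have h4 : i ≤ u x / p := le_trans (by omega) hle'
    rw [show (u x / p + 1) - (u x / p - i) = i + 1 by
      generalize u x / p = a at h4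
      omega] at h3
    have := Nat.le_of_dvd (by omega) h3
    omega

/-- An antiderivative. -/
noncomputable def adg (f : MvPolynomial σ (ZMod p)) : MvPolynomial σ (ZMod p) :=
  ∑ u ∈ f.support, monomial (u + Finsupp.single x p)
    (coeff u f * ((u x / p + 1 : ℕ) : ZMod p)⁻¹)

theorem dg_adg {f : MvPolynomial σ (ZMod p)} (hf : (dg p x)^[p - 1] f = 0) :
    dg p x (adg x f) = f := by
  rw [adg, map_sum]
  conv_rhs => rw [f.as_sum]
  refine Finset.sum_congr rfl fun u hu => ?_
  rw [dg_monomial, add_tsub_cancel_right]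
  congr 1
  have : ((u x / p + 1 : ℕ) : ZMod p) ≠ 0 := by
    rw [Ne, ZMod.natCast_eq_zero_iff]
    exact not_dvd_of_dg_iter_eq_zero x hf hu
  rw [Finsupp.add_apply, Finsupp.single_eq_same, Nat.add_div_right _ (Fact.out : p.Prime).pos,
    mul_assoc, inv_mul_cancel₀ this, mul_one]

theorem adg_supported {V : Set σ} (hx : x ∈ V) {f : MvPolynomial σ (ZMod p)}
    (hf : f ∈ supported (ZMod p) V) : adg x f ∈ supported (ZMod p) V := by
  classical
  rw [mem_supported_iff] at hf
  refine supported_sum _ _ fun u hu => monomial_mem_supported fun y hy => ?_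
  have := Finsupp.support_add hy
  rw [Finset.mem_union] at this
  rcases this with h | h
  · exact hf u hu y h
  · have := Finsupp.support_single_subset h
    rw [Finset.mem_singleton] at this
    rw [this]; exact hx

theorem adg_homogeneous {w : σ → ℤ} {N : ℤ}
    {f : MvPolynomial σ (ZMod p)} (hf : IsWeightedHomogeneous w f N) :
    IsWeightedHomogeneous w (adg x f) (N + p * w x) := by
  refine IsWeightedHomogeneous.sum _ _ _ fun u hu => ?_
  refine isWeightedHomogeneous_monomial _ _ _ ?_
  rw [map_add, hf (mem_support_iff.1 hu), Finsupp.weight_apply, Finsupp.sum_single_index]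
  · rw [nsmul_eq_mul]
  · rw [zero_smul]

theorem adg_support {f : MvPolynomial σ (ZMod p)} {v : σ →₀ ℕ} (hv : v ∈ (adg x f).support) :
    ∃ u ∈ f.support, v = u + Finsupp.single x p := by
  classical
  rw [adg] at hv
  have := MvPolynomial.support_sum hv
  rw [Finset.mem_biUnion] at this
  obtain ⟨u, hu, hv⟩ := this
  have := support_monomial_subset hv
  rw [Finset.mem_singleton] at this
  exact ⟨u, hu, this⟩

theorem anti_support {f : MvPolynomial σ (ZMod p)} {v : σ →₀ ℕ} (hv : v ∈ (anti x f).support) :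
    ∃ u ∈ f.support, v = u + Finsupp.single x 1 := by
  classical
  rw [anti] at hv
  have := MvPolynomial.support_sum hv
  rw [Finset.mem_biUnion] at this
  obtain ⟨u, hu, hv⟩ := this
  have := support_monomial_subset hv
  rw [Finset.mem_singleton] at this
  exact ⟨u, hu, this⟩

theorem pow_mul_support {f : MvPolynomial σ (ZMod p)} (k : ℕ) {v : σ →₀ ℕ}
    (hv : v ∈ (X x ^ k * f).support) : ∃ u ∈ f.support, v = u + Finsupp.single x k := by
  classical
  rw [X_pow_eq_monomial, mem_support_iff, coeff_monomial_mul'] at hv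
  split_ifs at hv with h
  · refine ⟨v - Finsupp.single x k, ?_, ?_⟩
    · rw [mem_support_iff]; intro h0; rw [h0, mul_zero] at hv; exact hv rfl
    · rw [tsub_add_cancel_of_le h]
  · exact absurd rfl hv

theorem dg_iter_mul_pow {f : MvPolynomial σ (ZMod p)} (hf : dg p x f = 0) :
    (dg p x)^[p - 1] (X x ^ ((p - 1) * p) * f) = -f := by
  have hp := (Fact.out : p.Prime)
  conv_lhs => rw [f.as_sum, Finset.mul_sum, dg_iter_sum]
  conv_rhs => rw [f.as_sum, ← Finset.sum_neg_distrib]
  refine Finset.sum_congr rfl fun u hu => ?_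
  rw [X_pow_eq_monomial, monomial_mul, one_mul, dg_iter_monomial, add_tsub_cancel_left,
    Finsupp.add_apply, Finsupp.single_eq_same, add_comm, Nat.add_mul_div_right _ _ hp.pos]
  obtain ⟨c, hc⟩ := dvd_of_dg_eq_zero x hf hu
  have h1 : (((u x / p + (p - 1)).descFactorial (p - 1) : ℕ) : ZMod p) = -1 := by
    rw [hc, Nat.descFactorial_eq_prod_range, Nat.cast_prod, ← ZMod.wilsons_lemma,
      ← Finset.prod_range_add_one_eq_factorial, Nat.cast_prod, ← Finset.prod_range_reflect]
    refine Finset.prod_congr rfl fun i hi => ?_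
    rw [Finset.mem_range] at hi
    rw [show p * c + (p - 1) - (p - 1 - 1 - i) = p * c + (i + 1) by omega]
    push_cast
    simp
  rw [h1, mul_neg, mul_one, ← map_neg]

end General

end Vale.Agent.P257.SG
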