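import Vale.Agent.P257.X.Tower

/-! The mirrored cobar complex of `P` with coefficients in the block `0`: the block `i + 1` is on
the left of the block `i`, `t_n (g_i g_(i+1)) = ∑ t_k (g_(i+1)) t_l (g_i) ^ p ^ k`. -/

namespace Vale.Agent.P257.SG

open MvPolynomial Finset Vale.Agent.P257.Q.PC Vale.Agent.P257.X

set_option linter.unusedSectionVars false

variable {p : ℕ} [Fact p.Prime]

/-- The faces. -/
noncomputable def φ (p i : ℕ) : KP p →ₐ[ZMod p] KP p :=
  aeval fun x => if x.1 < i then X x else if x.1 = i then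
    ∑ y ∈ antidiagonal (x.2 + 1), tt p (i + 1) y.1 * tt p i y.2 ^ p ^ y.1
  else X (x.1 + 1, x.2)

theorem φ_X (i : ℕ) (x : ℕ × ℕ) : φ p i (X x) = if x.1 < i then X x else if x.1 = i then
    ∑ y ∈ antidiagonal (x.2 + 1), tt p (i + 1) y.1 * tt p i y.2 ^ p ^ y.1
  else X (x.1 + 1, x.2) := by
  rw [φ, aeval_X]

theorem tt_succ (j n : ℕ) : tt p j (n + 1) = X (j, n) := if_neg (by omega)

theorem tt_zero (j : ℕ) : tt p j 0 = 1 := if_pos rfl

theorem φ_tt (i n : ℕ) : φ p i (tt p i n) =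
    ∑ y ∈ antidiagonal n, tt p (i + 1) y.1 * tt p i y.2 ^ p ^ y.1 := by
  cases n with
  | zero => simp [tt]
  | succ n => rw [tt_succ, φ_X, if_neg (lt_irrefl _), if_pos rfl]

theorem φ_tt_lt {i j : ℕ} (h : j < i) (n : ℕ) : φ p i (tt p j n) = tt p j n := by
  cases n with
  | zero => simp [tt]
  | succ n => rw [tt_succ, φ_X, if_pos h]

theorem φ_tt_gt {i j : ℕ} (h : i < j) (n : ℕ) : φ p i (tt p j n) = tt p (j + 1) n := by
  cases n with
  | zero => simp [tt]
  | succ n =>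
    rw [tt_succ, φ_X, if_neg (by dsimp only; omega), if_neg (by dsimp only; omega), tt_succ]

/-- Coassociativity. -/
theorem φ_coassoc (i n : ℕ) : φ p (i + 1) (φ p i (tt p i n)) = φ p i (φ p i (tt p i n)) := by
  rw [φ_tt, map_sum, map_sum]
  have h1 : ∀ x ∈ antidiagonal n, φ p (i + 1) (tt p (i + 1) x.1 * tt p i x.2 ^ p ^ x.1) =
      ∑ y ∈ antidiagonal x.1, tt p (i + 2) y.1 * (tt p (i + 1) y.2 ^ p ^ y.1 *
        tt p i x.2 ^ p ^ (y.1 + y.2)) := by
    intro x _
    rw [map_mul, map_pow, φ_tt_lt (Nat.lt_succ_self i), φ_tt, Finset.sum_mul]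
    refine Finset.sum_congr rfl fun y hy => ?_
    rw [HasAntidiagonal.mem_antidiagonal.1 hy]
    ring
  have h2 : ∀ x ∈ antidiagonal n, φ p i (tt p (i + 1) x.1 * tt p i x.2 ^ p ^ x.1) =
      ∑ y ∈ antidiagonal x.2, tt p (i + 2) x.1 * (tt p (i + 1) y.1 ^ p ^ x.1 *
        tt p i y.2 ^ p ^ (x.1 + y.1)) := by
    intro x _
    rw [map_mul, map_pow, φ_tt_gt (Nat.lt_succ_self i), φ_tt, pow_sum, Finset.mul_sum]
    refine Finset.sum_congr rfl fun y _ => ?_
    rw [mul_pow, ← pow_mul, ← pow_add, add_comm x.1]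
  rw [Finset.sum_congr rfl h1, Finset.sum_congr rfl h2]
  exact sum_triple n fun a b c => tt p (i + 2) a * (tt p (i + 1) b ^ p ^ a *
    tt p i c ^ p ^ (a + b))

theorem φ_φ {i j : ℕ} (h : i ≤ j) (f : KP p) : φ p (j + 1) (φ p i f) = φ p i (φ p j f) := by
  have : ((φ p (j + 1)).comp (φ p i)) = (φ p i).comp (φ p j) := by
    refine MvPolynomial.algHom_ext fun x => ?_
    obtain ⟨l, n⟩ := x
    simp only [AlgHom.comp_apply]
    rw [← tt_succ]
    rcases lt_trichotomy l i with hl | hl | hl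
    · rw [φ_tt_lt hl, φ_tt_lt (by omega), φ_tt_lt (by omega), φ_tt_lt hl]
    · subst hl
      rcases Nat.eq_or_lt_of_le h with hj | hj
      · subst hj; exact φ_coassoc l (n + 1)
      · rw [φ_tt_lt hj, φ_tt, map_sum]
        refine Finset.sum_congr rfl fun y _ => ?_
        rw [map_mul, map_pow, φ_tt_lt (by omega), φ_tt_lt (by omega)]
    · rw [φ_tt_gt hl]
      rcases lt_trichotomy l j with hj | hj | hj
      · rw [φ_tt_lt (by omega), φ_tt_lt hj, φ_tt_gt hl]
      · subst hj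
        rw [φ_tt, φ_tt, map_sum]
        refine Finset.sum_congr rfl fun y _ => ?_
        rw [map_mul, map_pow, φ_tt_gt hl, φ_tt_gt (by omega)]
      · rw [φ_tt_gt (by omega), φ_tt_gt hj, φ_tt_gt (by omega)]
  exact DFunLike.congr_fun this f

/-- The degree. -/
def W (p : ℕ) (x : ℕ × ℕ) : ℤ := wt p x.2

theorem W_mk (j n : ℕ) : W p (j, n) = wt p n := rfl

/-- The blocks `≤ s`. -/
def Bl (s : ℕ) : Set (ℕ × ℕ) := {x | x.1 ≤ s}

theorem W_tt (j n : ℕ) : IsWeightedHomogeneous (W p) (tt p j n) (nw p n : ℤ) := by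
  cases n with
  | zero => simpa [tt, nw] using isWeightedHomogeneous_one (R := ZMod p) (W p)
  | succ n =>
    rw [tt_succ]
    exact isWeightedHomogeneous_X (ZMod p) (W p) (j, n)

theorem W_φ (i : ℕ) (x : ℕ × ℕ) : IsWeightedHomogeneous (W p) (φ p i (X x)) (W p x) := by
  rw [φ_X]
  split_ifs
  · exact isWeightedHomogeneous_X _ _ _
  · refine IsWeightedHomogeneous.sum _ _ _ fun y hy => ?_
    rw [HasAntidiagonal.mem_antidiagonal] at hy
    have h := (W_tt (p := p) (i + 1) y.1).mul ((W_tt (p := p) i y.2).pow (p ^ y.1))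
    have h2 : (nw p y.1 : ℤ) + (p ^ y.1 : ℕ) • (nw p y.2 : ℤ) = W p x := by
      change _ = ((nw p (x.2 + 1) : ℕ) : ℤ)
      rw [← hy, nw_add, nsmul_eq_mul]; push_cast; ring
    rwa [h2] at h
  · exact isWeightedHomogeneous_X (ZMod p) (W p) (x.1 + 1, x.2)

theorem tt_mem_Bl {j s : ℕ} (h : j ≤ s) (n : ℕ) : tt p j n ∈ supported (ZMod p) (Bl s) := by
  rw [tt]
  split_ifs
  · exact one_mem _
  · exact X_mem_supported.2 h

theorem φ_mem_Bl {i s : ℕ} (hi : i ≤ s + 1) {x : ℕ × ℕ} (hx : x ∈ Bl s) :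
    φ p i (X x) ∈ supported (ZMod p) (Bl (s + 1)) := by
  have hx' : x.1 ≤ s := hx
  rw [φ_X]
  split_ifs
  · exact X_mem_supported.2 (show x.1 ≤ s + 1 by omega)
  · exact supported_sum _ _ fun y _ => mul_mem (tt_mem_Bl (by omega) _)
      (pow_mem (tt_mem_Bl (by omega) _) _)
  · exact X_mem_supported.2 (show x.1 + 1 ≤ s + 1 by omega)

theorem φ_of_lt {s i : ℕ} (hi : s < i) {f : KP p} (hf : f ∈ supported (ZMod p) (Bl s)) :
    φ p i f = f := eqOn_supported (φ p i) (AlgHom.id _ _) (V := Bl s) (fun x hx => by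
    rw [φ_X, if_pos (by have : x.1 ≤ s := hx; omega)]
    rfl) hf

/-- All the cochains of degree `(s, N)`. -/
noncomputable def Co (p s : ℕ) (N : ℤ) : Submodule (ZMod p) (KP p) :=
  weightedHomogeneousSubmodule (ZMod p) (W p) N ⊓
    Subalgebra.toSubmodule (supported (ZMod p) (Bl s))

theorem mem_Co {s : ℕ} {N : ℤ} {f : KP p} :
    f ∈ Co p s N ↔ IsWeightedHomogeneous (W p) f N ∧ f ∈ supported (ZMod p) (Bl s) := Iff.rfl

theorem φ_mem {s : ℕ} {N : ℤ} {i : ℕ} (hi : i ≤ s + 1) {f : KP p} (hf : f ∈ Co p s N) :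
    φ p i f ∈ Co p (s + 1) N :=
  ⟨homogeneous_map _ (fun x _ => W_φ i x) hf.2 hf.1,
    supported_map _ (fun _ hx => φ_mem_Bl hi hx) hf.2⟩

/-- The differential. -/
noncomputable def dd (p s : ℕ) : KP p →ₗ[ZMod p] KP p :=
  ∑ i ∈ range (s + 1), (-1 : ZMod p) ^ i • (φ p i).toLinearMap +
    (-1 : ZMod p) ^ (s + 1) • LinearMap.id

theorem dd_apply (s : ℕ) (f : KP p) : dd p s f =
    ∑ i ∈ range (s + 1), (-1 : ZMod p) ^ i • φ p i f + (-1 : ZMod p) ^ (s + 1) • f := by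
  simp only [dd, LinearMap.add_apply, LinearMap.sum_apply, LinearMap.smul_apply,
    LinearMap.id_apply, AlgHom.toLinearMap_apply]

theorem dd_eq {s : ℕ} {f : KP p} (hf : f ∈ supported (ZMod p) (Bl s)) :
    dd p s f = ∑ i ∈ range (s + 2), (-1 : ZMod p) ^ i • φ p i f := by
  rw [dd_apply, Finset.sum_range_succ _ (s + 1), φ_of_lt (Nat.lt_succ_self s) hf]

theorem dd_mem {s : ℕ} {N : ℤ} {f : KP p} (hf : f ∈ Co p s N) : dd p s f ∈ Co p (s + 1) N := by
  rw [dd_eq hf.2]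
  exact sum_mem fun i hi => Submodule.smul_mem _ _ (φ_mem (by rw [mem_range] at hi; omega) hf)

theorem dd_dd {s : ℕ} {N : ℤ} {f : KP p} (hf : f ∈ Co p s N) : dd p (s + 1) (dd p s f) = 0 := by
  rw [dd_eq (dd_mem hf).2, dd_eq hf.2]
  rw [← alt_sum (p := p) (s + 2) (fun j i => φ p j (φ p i f)) fun i j h => φ_φ h f]
  refine Finset.sum_congr rfl fun j _ => ?_
  rw [map_sum, Finset.smul_sum]
  refine Finset.sum_congr rfl fun i _ => ?_
  rw [map_smul, smul_smul, ← pow_add, add_comm j i]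

/-- The honest partial derivatives in the block `0` commute with the faces. -/
theorem pderiv_φ (n i : ℕ) (f : KP p) :
    pderiv ((0, n) : ℕ × ℕ) (φ p i f) = φ p i (pderiv ((0, n) : ℕ × ℕ) f) := by
  refine pderiv_comm _ _ _ (fun z => ?_) f
  obtain ⟨l, n'⟩ := z
  have key : φ p i (pderiv ((0, n) : ℕ × ℕ) (X (l, n'))) =
      if (l, n') = (0, n) then (1 : KP p) else 0 := by
    split_ifs with h1
    · rw [h1, pderiv_X_self, map_one]
    · rw [pderiv_X_of_ne h1, map_zero]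
  rw [key, φ_X]
  dsimp only
  by_cases h1 : l < i
  · rw [if_pos h1]
    split_ifs with h2
    · rw [h2, pderiv_X_self]
    · rw [pderiv_X_of_ne h2]
  rw [if_neg h1]
  by_cases h2 : l = i
  · subst h2
    rw [if_pos rfl, map_sum, Finset.sum_eq_single (0, n' + 1)]
    · rw [pderiv_mul, pow_zero, pow_one, tt_zero, tt_succ, Derivation.map_one_eq_zero, zero_mul,
        one_mul, zero_add]
      split_ifs with h3
      · rw [h3, pderiv_X_self]
      · rw [pderiv_X_of_ne h3]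
    · rintro ⟨a, b⟩ hab hne
      rw [HasAntidiagonal.mem_antidiagonal] at hab
      have ha : a ≠ 0 := by
        rintro rfl
        apply hne
        rw [Prod.mk.injEq]
        dsimp only at hab
        omega
      rw [pderiv_mul, pderiv_pow_char _ _ _ ha, pderiv_tt _ _ _ (by omega), zero_mul, mul_zero,
        add_zero]
    · intro h3
      exact absurd (HasAntidiagonal.mem_antidiagonal.2 (Nat.zero_add _)) h3
  · rw [if_neg h2, pderiv_X_of_ne, if_neg]
    · rw [Prod.mk.injEq]; omega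
    · rw [Ne, Prod.mk.injEq]; omega

theorem pderiv_dd (n s : ℕ) (f : KP p) :
    pderiv ((0, n) : ℕ × ℕ) (dd p s f) = dd p s (pderiv ((0, n) : ℕ × ℕ) f) := by
  rw [dd_apply, dd_apply]
  simp only [map_add, map_sum, Derivation.map_smul, pderiv_φ]

/-- The cochains with coefficients in `k[t_1, ..., t_m, t_(m+1)^p, ...]`. -/
noncomputable def A (p m s : ℕ) (N : ℤ) : Submodule (ZMod p) (KP p) :=
  Co p s N ⊓ ⨅ n ∈ Set.Ici m,
    ((pderiv ((0, n) : ℕ × ℕ) : Derivation (ZMod p) (KP p) (KP p)) : KP p →ₗ[ZMod p] KP p).ker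

theorem mem_A {m s : ℕ} {N : ℤ} {f : KP p} :
    f ∈ A p m s N ↔ f ∈ Co p s N ∧ ∀ n, m ≤ n → pderiv ((0, n) : ℕ × ℕ) f = 0 := by
  rw [A, Submodule.mem_inf]
  simp only [Submodule.mem_iInf, Set.mem_Ici, LinearMap.mem_ker, Derivation.coeFn_coe]

/-- The complex with coefficients in `k[t_1, ..., t_m, t_(m+1)^p, ...]`. -/
noncomputable def AA (p m : ℕ) [Fact p.Prime] : Cpx (KP p) where
  K s N := (A p m s N).toAddSubgroup
  d s := (dd p s).toAddMonoidHom
  d_mem s N f hf := by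
    obtain ⟨h1, h2⟩ := mem_A.1 hf
    exact mem_A.2 ⟨dd_mem h1, fun n hn => by
      change pderiv _ (dd p s f) = 0
      rw [pderiv_dd, h2 n hn, map_zero]⟩
  d_d s N f hf := dd_dd (mem_A.1 hf).1

theorem mem_AA {m s : ℕ} {N : ℤ} {f : KP p} : f ∈ (AA p m).K s N ↔
    f ∈ Co p s N ∧ ∀ n, m ≤ n → pderiv ((0, n) : ℕ × ℕ) f = 0 := mem_A

theorem AA_d (m s : ℕ) (f : KP p) : (AA p m).d s f = dd p s f := rfl

/-- The degree of `t_(n+1)` is at least `p ^ n`. -/
theorem wt_ge (n : ℕ) : p ^ n ≤ wt p n := by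
  rw [wt, Finset.sum_range_succ]; omega

/-- In the block `0` the variables of large degree do not occur. -/
theorem pderiv_of_lt {s n : ℕ} {N : ℤ} (h : N < wt p n) {f : KP p} (hf : f ∈ Co p s N) (j : ℕ) :
    pderiv ((j, n) : ℕ × ℕ) f = 0 := by
  have hw := hf.1
  have h1 : ∀ u ∈ f.support, u (j, n) = 0 := by
    intro u hu
    by_contra h0
    have h2 : Finsupp.weight (W p) u = N := hw (mem_support_iff.1 hu)
    rw [Finsupp.weight_apply, Finsupp.sum, ← Finset.add_sum_erase _ _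
      (Finsupp.mem_support_iff.2 h0)] at h2
    have h3 : 0 ≤ ∑ x ∈ u.support.erase (j, n), u x • W p x :=
      Finset.sum_nonneg fun x _ => by
        rw [nsmul_eq_mul]; exact mul_nonneg (Int.natCast_nonneg _) (Int.natCast_nonneg _)
    have h4 : (wt p n : ℤ) ≤ u (j, n) • W p (j, n) := by
      rw [nsmul_eq_mul]
      have : (1 : ℤ) ≤ (u (j, n) : ℤ) := by omega
      exact le_mul_of_one_le_left (Int.natCast_nonneg _) this
    omega
  rw [f.as_sum, map_sum]
  refine Finset.sum_eq_zero fun u hu => ?_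
  rw [pderiv_monomial, h1 u hu]
  simp

theorem AA_eq {m m' s : ℕ} {N : ℤ} (hm : m ≤ m') (h : N < wt p m) {f : KP p} :
    f ∈ (AA p m').K s N ↔ f ∈ (AA p m).K s N := by
  rw [mem_AA, mem_AA]
  refine ⟨fun hf => ⟨hf.1, fun n hn => pderiv_of_lt ?_ hf.1 0⟩,
    fun hf => ⟨hf.1, fun n hn => hf.2 n (by omega)⟩⟩
  refine h.trans_le ?_
  have : wt p m ≤ wt p n := by
    rw [wt, wt]
    exact Finset.sum_le_sum_of_subset (by
      intro x hx
      rw [mem_range] at hx ⊢
      omega)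
  exact_mod_cast this

theorem pderiv_swap (x y : ℕ × ℕ) (f : KP p) : pderiv x (pderiv y f) = pderiv y (pderiv x f) := by
  rw [f.as_sum]
  simp only [map_sum]
  refine Finset.sum_congr rfl fun u _ => ?_
  by_cases h : x = y
  · rw [h]
  rw [pderiv_monomial, pderiv_monomial, pderiv_monomial, pderiv_monomial]
  congr 1
  · rw [tsub_right_comm]
  · rw [Finsupp.tsub_apply, Finsupp.tsub_apply, Finsupp.single_eq_of_ne h,
      Finsupp.single_eq_of_ne (Ne.symm h), tsub_zero, tsub_zero]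
    ring

theorem pderiv_anti_ne {x y : ℕ × ℕ} (hxy : x ≠ y) {f : KP p} (hf : pderiv y f = 0) :
    pderiv y (anti x f) = 0 := by
  rw [anti, map_sum]
  refine Finset.sum_eq_zero fun u hu => ?_
  rw [pderiv_monomial, Finsupp.add_apply, Finsupp.single_eq_of_ne (Ne.symm hxy), add_zero,
    (ZMod.natCast_eq_zero_iff (u y) p).2 (dvd_of_pderiv_eq_zero y hf hu), mul_zero, monomial_zero]

/-- `∂ / ∂ t_(m+1)`. -/
theorem der (m : ℕ) : Cpx.Der (AA p (m + 1)) p (wt p m) (DD p m) where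
  mem s N f hf := by
    rw [mem_AA, mem_Co] at hf ⊢
    refine ⟨⟨IsWeightedHomogeneous.pderiv hf.1.1 ?_, pderiv_supported _ hf.1.2⟩, fun n hn => ?_⟩
    · rw [W_mk, sub_add_cancel]
    · rw [DD_apply, pderiv_swap, hf.2 n hn, map_zero]
  comm s N f _ := pderiv_dd m s f
  pow s N f _ := pderiv_iter_p _ f
  ex1 s N f hf h0 := by
    rw [mem_AA, mem_Co] at hf
    have h00 : ((0, m) : ℕ × ℕ) ∈ Bl s := Nat.zero_le s
    refine ⟨anti (0, m) f, mem_AA.2 ⟨mem_Co.2 ⟨?_, ?_⟩, fun n hn => ?_⟩, pderiv_anti _ h0⟩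
    · have := anti_homogeneous (0, m) hf.1.1
      rwa [W_mk] at this
    · exact anti_supported _ h00 hf.1.2
    · exact pderiv_anti_ne (by rw [Ne, Prod.mk.injEq]; omega) (hf.2 n hn)
  ex2 s N f hf h0 := by
    rw [mem_AA, mem_Co] at hf
    have hp := (Fact.out : p.Prime)
    have h00 : ((0, m) : ℕ × ℕ) ∈ Bl s := Nat.zero_le s
    refine ⟨-(X (0, m) ^ (p - 1) * f), mem_AA.2 ⟨mem_Co.2 ⟨?_, ?_⟩, fun n hn => ?_⟩, ?_⟩
    · have h1 := ((isWeightedHomogeneous_X (ZMod p) (W p) (0, m)).pow (p - 1)).mul hf.1.1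
      have h2 : (p - 1) • W p (0, m) + N = N + (p - 1 : ℤ) * (wt p m : ℤ) := by
        rw [nsmul_eq_mul, Nat.cast_sub hp.one_le, W_mk]
        push_cast
        ring
      rw [h2] at h1
      exact h1.neg
    · exact neg_mem (mul_mem (pow_mem (X_mem_supported.2 h00) _) hf.1.2)
    · rw [map_neg, pderiv_mul, pderiv_pow, pderiv_X_of_ne (by rw [Ne, Prod.mk.injEq]; omega),
        hf.2 n hn]
      simp
    · rw [DD_iter]
      have h3 : ∀ (j : ℕ) (g : KP p), (pderiv ((0, m) : ℕ × ℕ))^[j] (-g) =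
          -(pderiv ((0, m) : ℕ × ℕ))^[j] g := by
        intro j g
        induction j with
        | zero => rfl
        | succ j ih => rw [Function.iterate_succ_apply', ih, map_neg, Function.iterate_succ_apply']
      rw [h3, pderiv_iter_mul_pow _ h0, ZMod.wilsons_lemma]
      simp

end Vale.Agent.P257.SG
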