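import Vale.Agent.P257.SG.Two
import Vale.Agent.P257.E.Gam
import Vale.Agent.P257.X.Reach

/-! Leibniz rule, the cocycles `H_n`, `B_n`, the operators `B_n ∪ ` and their cones on the tower
`AA p m` -/

namespace Vale.Agent.P257.SG

open MvPolynomial Finset Vale.Agent.P257.Q.PC Vale.Agent.P257.X Vale.Agent.P257.E

set_option linter.unusedSectionVars false

variable {p : ℕ} [Fact p.Prime]

theorem sgn (n : ℕ) (g : KP p) : (-1 : ZMod p) ^ n • g = (-1) ^ n * g := by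
  rw [smul_eq_C_mul, C_pow, C_neg, C_1]

section Cosimplicial

variable (f : ℕ → (KP p →ₐ[ZMod p] KP p))

/-- The alternating sum of the faces. -/
noncomputable def df (s : ℕ) (x : KP p) : KP p :=
  ∑ i ∈ range (s + 1), (-1 : ZMod p) ^ i • f i x + (-1 : ZMod p) ^ (s + 1) • x

theorem df_dd (s : ℕ) (x : KP p) : df (φ p) s x = dd p s x := (dd_apply s x).symm

theorem df_d2 (s : ℕ) (x : KP p) : df (ψ p) s x = d2 p s x := (d2_apply s x).symm

variable {f} (hf : ∀ i j, i ≤ j → ∀ x, f (j + 1) (f i x) = f i (f j x))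
include hf

/-- Leibniz. -/
theorem leib {r s : ℕ} {a : KP p} (ha : ∀ i, r < i → f i a = a) (x : KP p) :
    df f (s + r) (a * (f 0)^[r] x) =
      df f r a * (f 0)^[r + 1] x + (-1) ^ r * (a * (f 0)^[r] (df f s x)) := by
  have h1 : ∀ r i, i ≤ r → f i ((f 0)^[r] x) = (f 0)^[r + 1] x := by
    intro r
    induction r with
    | zero =>
      intro i hi
      obtain rfl : i = 0 := by omega
      rfl
    | succ r ih =>
      intro i hi
      cases i with
      | zero => rw [Function.iterate_succ_apply' _ (r + 1)]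
      | succ i =>
        rw [Function.iterate_succ_apply', hf 0 i (Nat.zero_le i), ih i (by omega),
          ← Function.iterate_succ_apply' (⇑(f 0)) (r + 1)]
  have h2 : ∀ r j, f (r + j) ((f 0)^[r] x) = (f 0)^[r] (f j x) := by
    intro r j
    induction r with
    | zero => rw [Nat.zero_add]; rfl
    | succ r ih =>
      rw [Function.iterate_succ_apply', show r + 1 + j = r + j + 1 by omega,
        hf 0 _ (Nat.zero_le _), ih, ← Function.iterate_succ_apply' (⇑(f 0)) r]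
  rw [df, df, df, show s + r + 1 = (r + 1) + s by omega, Finset.sum_range_add,
    Finset.sum_range_succ' _ s]
  have h3 : ∑ x_1 ∈ range (r + 1), (-1 : ZMod p) ^ x_1 • f x_1 (a * (f 0)^[r] x) =
      (∑ x ∈ range (r + 1), (-1 : ZMod p) ^ x • f x a) * (f 0)^[r + 1] x := by
    rw [Finset.sum_mul]
    refine Finset.sum_congr rfl fun i hi => ?_
    rw [mem_range] at hi
    rw [map_mul, h1 r i (by omega), smul_mul_assoc]
  have h4 : ∑ i ∈ range s, (-1 : ZMod p) ^ (r + 1 + i) • f (r + 1 + i) (a * (f 0)^[r] x) =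
      (-1) ^ r * (a * ∑ i ∈ range s, (-1 : ZMod p) ^ (i + 1) • (f 0)^[r] (f (i + 1) x)) := by
    rw [Finset.mul_sum, Finset.mul_sum]
    refine Finset.sum_congr rfl fun i hi => ?_
    rw [map_mul, ha _ (by omega), show r + 1 + i = r + (i + 1) by omega, h2, sgn, sgn]
    ring
  have h5 : ∀ (r : ℕ) (g h : KP p), (f 0)^[r] (g + h) = (f 0)^[r] g + (f 0)^[r] h := by
    intro r g h
    induction r with
    | zero => rfl
    | succ r ih => simp only [Function.iterate_succ_apply', ih, map_add]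
  have h6 : ∀ (r : ℕ) (t : Finset ℕ) (g : ℕ → KP p), (f 0)^[r] (∑ i ∈ t, g i) =
      ∑ i ∈ t, (f 0)^[r] (g i) := by
    intro r t g
    induction r with
    | zero => rfl
    | succ r ih => simp only [Function.iterate_succ_apply', ih, map_sum]
  have h7 : ∀ (r : ℕ) (c : ZMod p) (g : KP p), (f 0)^[r] (c • g) = c • (f 0)^[r] g := by
    intro r c g
    induction r with
    | zero => rfl
    | succ r ih => simp only [Function.iterate_succ_apply', ih, map_smul]
  rw [h3, h4, h5, h5, h6, pow_zero, one_smul]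
  simp only [h7]
  have h8 : (f 0)^[r] (f 0 x) = (f 0)^[r + 1] x := (Function.iterate_succ_apply _ _ _).symm
  rw [h8]
  simp only [sgn]
  ring

/-- `y` with `φ_i y = y`, `i ≥ 1`: the coboundary `τ` of `y`. -/
theorem face_one {y : KP p} (hy : ∀ i, 0 < i → f i y = y) :
    f 1 (f 0 y - y) = (f 0 y - y) + f 0 (f 0 y - y) := by
  have h1 : f (0 + 1) (f 0 y) = f 0 (f 0 y) := hf 0 0 le_rfl y
  rw [zero_add] at h1
  rw [map_sub, map_sub, h1, hy 1 Nat.one_pos]
  ring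

theorem face_two {y : KP p} (hy : ∀ i, 0 < i → f i y = y) {i : ℕ} (hi : 1 < i) :
    f i (f 0 y - y) = f 0 y - y := by
  obtain ⟨j, rfl⟩ : ∃ j, i = j + 1 := ⟨i - 1, by omega⟩
  rw [map_sub, hf 0 j (Nat.zero_le j), hy j (by omega), hy (j + 1) (by omega)]

/-- The transpotence. -/
noncomputable def trans (f : ℕ → (KP p →ₐ[ZMod p] KP p)) (y : KP p) : KP p :=
  gam p (f 0 y - y) (f 0 (f 0 y - y))

omit hf in
theorem f_gam (i : ℕ) (x y : KP p) : f i (gam p x y) = gam p (f i x) (f i y) :=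
  map_gam (f i : KP p →+* KP p) x y

theorem df_one_gam {y : KP p} (hy : ∀ i, 0 < i → f i y = y) :
    df f 1 (gam p y (f 0 y - y)) = trans f y := by
  have h := gam_assoc (Fact.out : p.Prime) y (f 0 y - y) (f 0 (f 0 y - y))
  rw [df, trans]
  simp only [Finset.sum_range_succ, Finset.sum_range_zero, f_gam, hy 1 Nat.one_pos,
    face_one hf hy, Nat.reduceAdd, sgn]
  rw [add_sub_cancel] at h
  linear_combination h

end Cosimplicial

/-- `AA p m` is the kernel of `∂ / ∂ t_(m+1)` on `AA p (m + 1)`. -/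
theorem isoA (m : ℕ) : Cpx.Iso (AA p m) ((AA p (m + 1)).Ker (der m)) (AddMonoidHom.id (KP p)) where
  mem s N f hf := by
    rw [mem_AA] at hf
    rw [Cpx.mem_ker, mem_AA]
    exact ⟨⟨hf.1, fun n hn => hf.2 n (by omega)⟩, hf.2 m le_rfl⟩
  comm s N f _ := rfl
  inj := Function.injective_id
  surj s N f hf := by
    rw [Cpx.mem_ker, mem_AA] at hf
    refine ⟨f, mem_AA.2 ⟨hf.1.1, fun n hn => ?_⟩, rfl⟩
    rcases Nat.eq_or_lt_of_le hn with h | h
    · subst h; exact hf.2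
    · exact hf.1.2 n h

/-- `H_(n+1)` -/
noncomputable def hn (p n : ℕ) : KP p := φ p 0 (X (0, n)) - X (0, n)

/-- `B_(n+1)` -/
noncomputable def bn (p n : ℕ) [Fact p.Prime] : KP p := trans (φ p) (X (0, n))

theorem bn_eq (n : ℕ) : bn p n = gam p (hn p n) (φ p 0 (hn p n)) := rfl

theorem φ_y (n i : ℕ) (hi : 0 < i) : φ p i (X (0, n)) = X (0, n) := by
  rw [φ_X, if_pos hi]

theorem gam_mem {s : ℕ} {N : ℤ} {x y : KP p} (hx : x ∈ Co p s N) (hy : y ∈ Co p s N) :
    gam p x y ∈ Co p s (p * N) := by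
  rw [mem_Co] at *
  refine ⟨IsWeightedHomogeneous.sum _ _ _ fun i hi => ?_, supported_sum _ _ fun i _ => mul_mem
    (mul_mem (natCast_mem _ _) (pow_mem hx.2 _)) (pow_mem hy.2 _)⟩
  rw [mem_Ioo] at hi
  have h1 : ((p.choose i / p : ℕ) : KP p) = C ((p.choose i / p : ℕ) : ZMod p) :=
    (map_natCast C _).symm
  have h2 := ((hx.1.pow i).C_mul ((p.choose i / p : ℕ) : ZMod p)).mul (hy.1.pow (p - i))
  rw [h1]
  have h3 : i • N + (p - i) • N = p * N := by
    rw [← add_smul, Nat.add_sub_cancel' hi.2.le, nsmul_eq_mul]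
  rwa [h3] at h2

theorem pderiv_gam {x : ℕ × ℕ} {a b : KP p} (ha : pderiv x a = 0) (hb : pderiv x b = 0) :
    pderiv x (gam p a b) = 0 := by
  rw [derivation_gam (Fact.out : p.Prime), ha, hb]
  ring

theorem X_mem_Co (s n : ℕ) : (X (0, n) : KP p) ∈ Co p s (wt p n) :=
  mem_Co.2 ⟨isWeightedHomogeneous_X (ZMod p) (W p) (0, n),
    X_mem_supported.2 (show (0, n) ∈ Bl s from Nat.zero_le s)⟩

theorem Co_mono {s s' : ℕ} (h : s ≤ s') {N : ℤ} {f : KP p} (hf : f ∈ Co p s N) :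
    f ∈ Co p s' N :=
  ⟨hf.1, supported_mono (show Bl s ⊆ Bl s' from fun x (hx : x.1 ≤ s) => (hx.trans h : x.1 ≤ s'))
    hf.2⟩

theorem hn_mem (n : ℕ) : hn p n ∈ (AA p 0).K 1 (wt p n) := by
  rw [mem_AA]
  refine ⟨sub_mem (φ_mem (Nat.zero_le _) (X_mem_Co 0 n)) (X_mem_Co 1 n), fun k _ => ?_⟩
  rw [hn, map_sub, pderiv_φ, sub_eq_zero]
  by_cases h : n = k
  · subst h
    rw [pderiv_X_self, map_one]
  · rw [pderiv_X_of_ne, map_zero]
    rw [Ne, Prod.mk.injEq]; omega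

theorem φ_mem_AA {m s : ℕ} {N : ℤ} {i : ℕ} (hi : i ≤ s + 1) {f : KP p}
    (hf : f ∈ (AA p m).K s N) : φ p i f ∈ (AA p m).K (s + 1) N := by
  rw [mem_AA] at *
  exact ⟨φ_mem hi hf.1, fun n hn => by rw [pderiv_φ, hf.2 n hn, map_zero]⟩

theorem AA_mono {m m' s s' : ℕ} (hm : m ≤ m') (h : s ≤ s') {N : ℤ} {f : KP p}
    (hf : f ∈ (AA p m).K s N) : f ∈ (AA p m').K s' N := by
  rw [mem_AA] at *
  exact ⟨Co_mono h hf.1, fun n hn => hf.2 n (by omega)⟩

theorem gam_mem_AA {m s : ℕ} {N : ℤ} {x y : KP p} (hx : x ∈ (AA p m).K s N)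
    (hy : y ∈ (AA p m).K s N) : gam p x y ∈ (AA p m).K s (p * N) := by
  rw [mem_AA] at *
  exact ⟨gam_mem hx.1 hy.1, fun n hn => pderiv_gam (hx.2 n hn) (hy.2 n hn)⟩

theorem bn_mem (n : ℕ) : bn p n ∈ (AA p 0).K 2 (p * wt p n) := by
  have h := hn_mem (p := p) n
  exact gam_mem_AA (AA_mono le_rfl (show 1 ≤ 2 by norm_num) h) (φ_mem_AA (by norm_num) h)

theorem dd_bn (n : ℕ) : dd p 2 (bn p n) = 0 := by
  have h1 := df_one_gam (f := φ p) (fun i j h x => φ_φ h x) (y := X (0, n)) (fun i hi => φ_y n i hi)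
  rw [df_dd] at h1
  have h2 : gam p (X (0, n)) (φ p 0 (X (0, n)) - X (0, n)) ∈ Co p 1 (p * wt p n) :=
    gam_mem (X_mem_Co 1 n) (sub_mem (φ_mem (Nat.zero_le _) (X_mem_Co 0 n)) (X_mem_Co 1 n))
  have h3 : dd p 2 (dd p 1 (gam p (X (0, n)) (φ p 0 (X (0, n)) - X (0, n)))) = 0 := dd_dd h2
  rw [h1] at h3
  exact h3

/-- Left multiplication by `-B_(n+1)`. -/
noncomputable def bop (p n : ℕ) [Fact p.Prime] : KP p →+ KP p :=
  -((AddMonoidHom.mulLeft (bn p n)).comp
    (((φ p 0).comp (φ p 0) : KP p →ₐ[ZMod p] KP p) : KP p →+ KP p))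

theorem bop_apply (n : ℕ) (f : KP p) : bop p n f = -(bn p n * φ p 0 (φ p 0 f)) := rfl

theorem mul_mem_AA {m s : ℕ} {N N' : ℤ} {x y : KP p} (hx : x ∈ (AA p m).K s N)
    (hy : y ∈ (AA p m).K s N') : x * y ∈ (AA p m).K s (N + N') := by
  rw [mem_AA] at *
  refine ⟨mem_Co.2 ⟨hx.1.1.mul hy.1.1, mul_mem hx.1.2 hy.1.2⟩, fun n hn => ?_⟩
  rw [pderiv_mul, hx.2 n hn, hy.2 n hn]
  ring

theorem bop_mem {m s n : ℕ} {N : ℤ} {f : KP p} (hf : f ∈ (AA p m).K s N) :
    bop p n f ∈ (AA p m).K (s + 2) (N + p * wt p n) := by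
  rw [bop_apply, add_comm N]
  exact neg_mem (mul_mem_AA (AA_mono (Nat.zero_le _) (by omega) (bn_mem n))
    (φ_mem_AA (Nat.zero_le _) (φ_mem_AA (Nat.zero_le _) hf)))

theorem φ_bn (n i : ℕ) (hi : 2 < i) : φ p i (bn p n) = bn p n := by
  have := (mem_AA.1 (bn_mem (p := p) n)).1.2
  exact φ_of_lt hi this

theorem bop_comm (n s : ℕ) (f : KP p) : bop p n (dd p s f) = dd p (s + 2) (bop p n f) := by
  have h := leib (f := φ p) (fun i j h x => φ_φ h x) (r := 2) (s := s) (a := bn p n)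
    (fun i hi => φ_bn n i hi) f
  rw [df_dd, df_dd, df_dd, dd_bn, zero_mul, zero_add] at h
  rw [bop_apply, bop_apply, map_neg]
  congr 1
  have h1 : (-1 : KP p) ^ 2 = 1 := by ring
  rw [h1, one_mul] at h
  exact h.symm

theorem bop_op (n m : ℕ) : Cpx.Op (AA p m) (p * wt p n) (bop p n) where
  mem _ _ _ hf := bop_mem hf
  comm s _ f _ := bop_comm n s f

theorem DD_bop (k n : ℕ) (f : KP p) : DD p k (bop p n f) = bop p n (DD p k f) := by
  rw [DD_apply, DD_apply, bop_apply, bop_apply, map_neg, pderiv_mul,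
    (mem_AA.1 (bn_mem (p := p) n)).2 k (Nat.zero_le _), zero_mul, zero_add, pderiv_φ, pderiv_φ]

theorem stepA (n m : ℕ) : Cpx.Step (AA p (m + 1)) (AA p m) p (wt p m) (bop p n) (bop p n) :=
  ⟨⟨DD p m, der m, _, isoA m, DD_bop m n, fun _ => rfl⟩⟩

end Vale.Agent.P257.SG
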