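import Vale.Agent.P257.SG.S1A

/-! `Ext_P^(5, 3 + 3 p + 2 p ^ 2) = 0`. -/

namespace Vale.Agent.P257.SG

open MvPolynomial Finset Vale.Agent.P257.Q.PC Vale.Agent.P257.X Vale.Agent.P257.X.Cpx
  Vale.Agent.P257.E

set_option linter.unusedSectionVars false

variable {p : ℕ} [Fact p.Prime]

theorem Bk_mono {r s : ℕ} (h : r ≤ s) : Bk r ⊆ Bk s := fun _ hx => ⟨hx.1, hx.2.trans h⟩

theorem B0.mono {r s : ℕ} (h : r ≤ s) {N : ℤ} {f : KP p} (hf : B0 p r N f) : B0 p s N f :=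
  ⟨hf.1, supported_mono (Bk_mono h) hf.2⟩

theorem B0.mul {s : ℕ} {N N' : ℤ} {f g : KP p} (hf : B0 p s N f) (hg : B0 p s N' g) :
    B0 p s (N + N') (f * g) := ⟨hf.1.mul hg.1, mul_mem hf.2 hg.2⟩

theorem B0.sub {s : ℕ} {N : ℤ} {f g : KP p} (hf : B0 p s N f) (hg : B0 p s N g) :
    B0 p s N (f - g) :=
  ⟨(weightedHomogeneousSubmodule (ZMod p) (W2 p) N).sub_mem hf.1 hg.1, sub_mem hf.2 hg.2⟩

theorem B0.pow {s : ℕ} {N : ℤ} {f : KP p} (hf : B0 p s N f) (k : ℕ) :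
    B0 p s (k * N) (f ^ k) := by
  have := hf.1.pow k
  rw [nsmul_eq_mul] at this
  exact ⟨this, pow_mem hf.2 k⟩

theorem B0.X {s j : ℕ} (h1 : 1 ≤ j) (h2 : j ≤ s) (n : ℕ) : B0 p s (wt p n) (X (j, n)) := by
  have := isWeightedHomogeneous_X (ZMod p) (W2 p) (j, n)
  rw [W2_ne (by omega)] at this
  exact ⟨this, X_mem_supported.2 ⟨h1, h2⟩⟩

theorem B0.ψ {s : ℕ} {N : ℤ} {f : KP p} (hf : B0 p s N f) : B0 p (s + 1) N (ψ p 0 f) := by
  refine ⟨homogeneous_map _ (V := Bk s) (fun x hx => ?_) hf.2 hf.1,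
    supported_map _ (V := Bk s) (fun x hx => ?_) hf.2⟩
  · obtain ⟨h1, h2⟩ : 1 ≤ x.1 ∧ x.1 ≤ s := hx
    rw [ψ_zero_X, if_neg (by omega)]
    have := isWeightedHomogeneous_X (ZMod p) (W2 p) (x.1 + 1, x.2)
    rwa [W2_ne (by omega), ← W2_ne (j := x.1) (by omega) x.2] at this
  · obtain ⟨h1, h2⟩ : 1 ≤ x.1 ∧ x.1 ≤ s := hx
    rw [ψ_zero_X, if_neg (by omega)]
    exact X_mem_supported.2 ⟨by dsimp only; omega, by dsimp only; omega⟩

theorem B0.pderiv {s : ℕ} {N : ℤ} {f : KP p} (hf : B0 p s N f) (n : ℕ) :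
    pderiv ((0, n) : ℕ × ℕ) f = 0 :=
  pderiv_eq_zero_of fun u hu => by rw [(of_no_block0 hf).2 u hu]; exact dvd_zero _

theorem dg_mul_pow {x : ℕ × ℕ} {f : KP p} (hf : ∀ u ∈ f.support, u x = 0) :
    dg p x (X x ^ p * f) = f := by
  conv_lhs => rw [f.as_sum, Finset.mul_sum, map_sum]
  conv_rhs => rw [f.as_sum]
  refine Finset.sum_congr rfl fun u hu => ?_
  rw [X_pow_eq_monomial, monomial_mul, one_mul, dg_monomial, add_tsub_cancel_left,
    Finsupp.add_apply, Finsupp.single_eq_same, hf u hu, add_zero,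
    Nat.div_self (Fact.out : p.Prime).pos, Nat.cast_one, mul_one]

theorem ψ_y : ψ p 0 (X (0, 0)) = X (1, 0) ^ p + X (0, 0) := by
  rw [ψ_zero_X, if_pos rfl]
  simp [Finset.Nat.antidiagonal_succ, tt]
  ring

theorem ψ_y_pos {i : ℕ} (hi : 0 < i) (n : ℕ) : ψ p i (X (0, n)) = X (0, n) := by
  obtain ⟨j, rfl⟩ : ∃ j, i = j + 1 := ⟨i - 1, by omega⟩
  rw [ψ_succ, φ_X, if_pos (Nat.succ_pos j)]

theorem ψ_of_lt {s i : ℕ} (hi : s < i) {f : KP p} (hf : f ∈ supported (ZMod p) (Bl s)) :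
    ψ p i f = f := by
  obtain ⟨j, rfl⟩ : ∃ j, i = j + 1 := ⟨i - 1, by omega⟩
  rw [ψ_succ, φ_of_lt hi hf]

theorem leib2 {r s : ℕ} {a : KP p} (ha : ∀ i, r < i → ψ p i a = a) (x : KP p) :
    d2 p (s + r) (a * (ψ p 0)^[r] x) =
      d2 p r a * (ψ p 0)^[r + 1] x + (-1) ^ r * (a * (ψ p 0)^[r] (d2 p s x)) := by
  have := leib (f := ψ p) (fun i j h x => ψ_ψ h x) ha (s := s) x
  simpa only [df_d2] using this

/-- Multiplication by a coefficient. -/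
theorem d2_coef {s : ℕ} {a : KP p} (ha : ∀ i, 0 < i → ψ p i a = a) {x : KP p}
    (hx : d2 p s x = 0) : d2 p s (a * x) = (ψ p 0 a - a) * ψ p 0 x := by
  have h := leib2 (r := 0) (s := s) ha x
  have h0 : d2 p 0 a = ψ p 0 a - a := by
    rw [d2_apply, Finset.sum_range_one, pow_zero, one_smul, zero_add, pow_one, neg_one_smul,
      sub_eq_add_neg]
  rw [h0, add_zero] at h
  simp only [Function.iterate_zero, id, Function.iterate_one, hx, mul_zero, add_zero,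
    zero_add] at h
  exact h

/-- `h_(1,1) h_(1,2) = 0`. -/
theorem d2_e : d2 p 1 (X (1, 1) ^ p - X (1, 0) ^ p * X (1, 0) ^ p ^ 2 : KP p) =
    X (1, 0) ^ p * X (2, 0) ^ p ^ 2 := by
  have h1 : ψ p 1 (X (1, 1)) = X (1, 1) + X (2, 0) * X (1, 0) ^ p + X (2, 1) := by
    rw [show (1 : ℕ) = 0 + 1 from rfl, ψ_succ, φ_X, if_neg (by norm_num), if_pos rfl]
    simp [Finset.Nat.antidiagonal_succ, tt]
    ring
  have h2 : ψ p 1 (X (1, 0)) = X (1, 0) + X (2, 0) := by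
    rw [show (1 : ℕ) = 0 + 1 from rfl, ψ_succ, φ_X, if_neg (by norm_num), if_pos rfl]
    simp [Finset.Nat.antidiagonal_succ, tt]
  have h3 : ψ p 0 (X (1, 1)) = X (2, 1) := by rw [ψ_zero_X, if_neg (by norm_num)]
  have h4 : ψ p 0 (X (1, 0)) = X (2, 0) := by rw [ψ_zero_X, if_neg (by norm_num)]
  have f1 := fun a b : KP p => add_pow_pp (p := p) a b 1
  simp only [pow_one] at f1
  rw [d2_apply]
  simp only [Finset.sum_range_succ, Finset.sum_range_zero, map_sub, map_mul, map_pow, h1, h2, h3,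
    h4, add_pow_pp, f1, sgn, mul_pow]
  rw [← pow_mul, ← sq]
  ring

/-- The multiplicative part. -/
theorem S1M (hp : 5 ≤ p) {v : KP p} (hv : (K0 p).Z 3 (3 + 2 * p + p ^ 2) v) :
    ∃ a ∈ (K2 p).K 3 (3 + 2 * p + 2 * p ^ 2), DW p a = v ∧ DD p 0 ((FF p).d 3 a) = 0 ∧
      ∃ b ∈ (M1 p).K 4 (3 + 3 * p + 2 * p ^ 2), DD p 0 b = (FF p).d 3 a ∧
        (K0 p).B 5 (3 + 3 * p + 2 * p ^ 2) ((FF p).d 4 b) := by
  have hp0 : (5 : ℤ) ≤ p := by exact_mod_cast hp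
  have q1 : (5 : ℤ) * p ≤ p ^ 2 := by nlinarith
  have q2 : (5 : ℤ) * p ^ 2 ≤ p ^ 3 := by nlinarith
  have hP := (Fact.out : p.Prime)
  have w1 : (wt p 0 : ℤ) = 1 := by rw [E.wt_zero]; norm_num
  have w2 : (wt p 1 : ℤ) = 1 + p := by rw [wt_one]; push_cast; ring
  have hv0 : B0 p 3 (3 + 2 * p + p ^ 2) v := (mem_K0 (by nlinarith)).1 hv.1
  have hvd : d2 p 3 v = 0 := hv.2
  have hvF := (of_no_block0 hv0).1
  have ha : X vy ^ p * v ∈ (K2 p).K 3 (3 + 2 * p + 2 * p ^ 2) := by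
    refine mem_K2.2 ⟨X_mul_mem hvF 0 p ?_, pderiv_z_mul (hv0.pderiv 1) p⟩
    rw [w1]; ring
  have hda : d2 p 3 (X vy ^ p * v) = X (1, 0) ^ p ^ 2 * ψ p 0 v := by
    rw [d2_coef (fun i hi => by rw [map_pow, ψ_y_pos hi]) hvd, map_pow, ψ_y]
    have h := add_pow_pp (p := p) (X (1, 0) ^ p : KP p) (X (0, 0)) 1
    rw [pow_one] at h
    rw [h, add_sub_cancel_right, ← pow_mul, ← sq]
  have hw : B0 p 4 (3 + 2 * p + 2 * p ^ 2) (X (1, 0) ^ p ^ 2 * ψ p 0 v) := by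
    have := ((B0.X (p := p) (s := 4) (j := 1) le_rfl (by norm_num) 0).pow (p ^ 2)).mul hv0.ψ
    rw [w1, show (((p ^ 2 : ℕ) : ℤ) * 1 + (3 + 2 * p + p ^ 2) : ℤ) = 3 + 2 * p + 2 * p ^ 2 by
      push_cast; ring] at this
    exact this
  have hwd : d2 p 4 (X (1, 0) ^ p ^ 2 * ψ p 0 v) = 0 := by
    rw [← hda]
    exact (FF p).d_d _ _ _ ha.1
  have hwF := (of_no_block0 hw).1
  refine ⟨X vy ^ p * v, ha, ?_, ?_, X vy ^ 1 * (X (1, 0) ^ p ^ 2 * ψ p 0 v), ?_, ?_, ?_⟩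
  · rw [DW_apply, Tk_eq_dg (pderiv_z_mul (hv0.pderiv 1) p)]
    exact dg_mul_pow fun u hu => (of_no_block0 hv0).2 u hu 0
  · rw [FF_d, hda]
    exact hw.pderiv 0
  · refine mem_M1'.2 ⟨⟨X_mul_mem hwF 0 1 ?_, pderiv_z_mul (hw.pderiv 1) 1⟩, fun u hu => ?_⟩
    · rw [w1]; push_cast; ring
    · obtain ⟨u', hu', rfl⟩ := pow_mul_support vy _ hu
      rw [Finsupp.add_apply, Finsupp.single_eq_same, (of_no_block0 hw).2 u' hu', zero_add,
        Nat.div_eq_of_lt hP.one_lt]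
      exact dvd_zero _
  · rw [FF_d, hda, DD_apply, pow_one, pderiv_mul, pderiv_X_self, hw.pderiv 0, mul_zero, one_mul,
      add_zero]
  · have he : B0 p 4 (p + p ^ 2) (X (1, 1) ^ p - X (1, 0) ^ p * X (1, 0) ^ p ^ 2 : KP p) := by
      refine B0.sub ?_ ?_
      · have := (B0.X (p := p) (s := 4) (j := 1) le_rfl (by norm_num) 1).pow p
        rwa [w2, show (p : ℤ) * (1 + p) = p + p ^ 2 by ring] at this
      · have := ((B0.X (p := p) (s := 4) (j := 1) le_rfl (by norm_num) 0).pow p).mul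
          ((B0.X (p := p) (s := 4) (j := 1) le_rfl (by norm_num) 0).pow (p ^ 2))
        rwa [w1, show (p : ℤ) * 1 + ((p ^ 2 : ℕ) : ℤ) * 1 = p + p ^ 2 by push_cast; ring] at this
    have hes : (X (1, 1) ^ p - X (1, 0) ^ p * X (1, 0) ^ p ^ 2 : KP p) ∈
        supported (ZMod p) (Bl 1) := by
      have h1 : ∀ n, (X (1, n) : KP p) ∈ supported (ZMod p) (Bl 1) := fun n =>
        X_mem_supported.2 (show (1, n) ∈ Bl 1 from le_refl 1)
      exact sub_mem (pow_mem (h1 1) _) (mul_mem (pow_mem (h1 0) _) (pow_mem (h1 0) _))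
    refine ⟨(X (1, 1) ^ p - X (1, 0) ^ p * X (1, 0) ^ p ^ 2) * ψ p 0 v,
      (mem_K0 (by nlinarith)).2 ?_, ?_⟩
    · have := he.mul hv0.ψ
      rwa [show (p + p ^ 2 + (3 + 2 * p + p ^ 2) : ℤ) = 3 + 3 * p + 2 * p ^ 2 by ring] at this
    · change d2 p 4 _ = d2 p 4 _
      have h1 := leib2 (r := 1) (s := 3) (a := X (1, 1) ^ p - X (1, 0) ^ p * X (1, 0) ^ p ^ 2)
        (fun i hi => ψ_of_lt hi hes) v
      have h2 := d2_coef (p := p) (s := 4) (a := X vy) (fun i hi => ψ_y_pos hi 0) hwd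
      have h3 : ψ p 0 (X (1, 0) ^ p ^ 2 * ψ p 0 v) = X (2, 0) ^ p ^ 2 * ψ p 0 (ψ p 0 v) := by
        rw [map_mul, map_pow, ψ_zero_X, if_neg (by norm_num)]
      rw [pow_one, h2, ψ_y, add_sub_cancel_right, h3]
      simp only [Function.iterate_succ, Function.iterate_zero,
        Function.comp_apply, id, hvd, map_zero, mul_zero, add_zero, d2_e] at h1
      rw [← mul_assoc]
      exact h1

/-- `Ext_P^(5, 3 + 3 p + 2 p ^ 2) = 0`. -/
theorem S1 (hp : 5 ≤ p) (k3 : Van p 3 (3 + 3 * p + p ^ 2)) (k2 : Van p 2 (3 + 2 * p)) :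
    Van p 5 (3 + 3 * p + 2 * p ^ 2) := by
  have hp0 : (5 : ℤ) ≤ p := by exact_mod_cast hp
  have q1 : (5 : ℤ) * p ≤ p ^ 2 := by nlinarith
  have q2 : (5 : ℤ) * p ^ 2 ≤ p ^ 3 := by nlinarith
  rw [van_iff (by push_cast; nlinarith)] at k3 k2 ⊢
  push_cast at k3 k2 ⊢
  refine S1abs hp FF_pos derZ dW dY ?_ ?_ ?_ ?_ ?_ ?_ ?_ k3 k2 (fun z hz hD => S1A hp hz hD)
    (fun v hv => S1M hp hv)
  · exact FF_ex hp (a := 3) (b := 2) (c := 1) (by norm_num) (by norm_num) (by norm_num)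
      (by norm_num) (by intros; omega) (by push_cast; ring)
  · exact FF_ex hp (a := 3) (b := 3) (c := 1) (by norm_num) (by norm_num) (by norm_num)
      (by norm_num) (by intros; omega) (by push_cast; ring)
  · exact FF_ex hp (a := 3) (b := 2) (c := 0) (by norm_num) (by norm_num) (by norm_num)
      (by norm_num) (by intros; omega) (by push_cast; ring)
  · exact FF_ex hp (a := 3) (b := 2) (c := 2) (by norm_num) (by norm_num) (by norm_num)
      (by norm_num) (by intros; omega) (by push_cast; ring)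
  · exact FF_ex hp (a := 3) (b := 1) (c := 1) (by norm_num) (by norm_num) (by norm_num)
      (by norm_num) (by intros; omega) (by push_cast; ring)
  · exact FF_ex hp (a := 3) (b := 0) (c := 0) (by norm_num) (by norm_num) (by norm_num)
      (by norm_num) (by intros; omega) (by push_cast; ring)
  · exact FF_ex hp (a := 3) (b := 1) (c := 0) (by norm_num) (by norm_num) (by norm_num)
      (by norm_num) (by intros; omega) (by push_cast; ring)

end Vale.Agent.P257.SG
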