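import Vale.Agent.P257.SG.S1abs
import Vale.Agent.P257.SG.Bridge
import Vale.Agent.P257.SG.Ops
import Vale.Agent.P257.E.Mon

/-! The classes of degree `(5, 3 + 3 p + 2 p ^ 2)` with coefficients in `k[t_1^p, t_2^p, ...]`. -/

namespace Vale.Agent.P257.SG

open MvPolynomial Finset Vale.Agent.P257.Q.PC Vale.Agent.P257.X Vale.Agent.P257.X.Cpx
  Vale.Agent.P257.E

set_option linter.unusedSectionVars false

variable {p : ℕ} [Fact p.Prime]

theorem of_Ψ_Z {s : ℕ} {N : ℤ} {f : KP p} (h : (AA p 0).Z s N (Ψ p f)) : (FF p).Z s N f := by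
  refine ⟨Ψ_mem.1 h.1, Ψ_injective ?_⟩
  have h2 : dd p s (Ψ p f) = 0 := h.2
  rw [FF_d, Ψ_d2, h2, map_zero]

theorem Ψ_Z {s : ℕ} {N : ℤ} {f : KP p} (h : (FF p).Z s N f) : (AA p 0).Z s N (Ψ p f) := by
  refine ⟨Ψ_mem.2 h.1, ?_⟩
  have h2 : d2 p s f = 0 := h.2
  rw [AA_d, ← Ψ_d2, h2, map_zero]

theorem Ψ_B {s : ℕ} {N : ℤ} {f : KP p} : (AA p 0).B s N (Ψ p f) ↔ (FF p).B s N f := iso.b_iff

theorem FF_van {s N : ℕ} (hN : N < p ^ 3) (h : ¬ HasMon p s N) : (FF p).Ex s N :=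
  iso.ex_iff.1 (AA_van s N hN h)

theorem FF_pos : Pos (FF p) := by
  intro s N f hf hN
  rw [mem_FF] at hf
  by_contra h0
  obtain ⟨u, hu⟩ := MvPolynomial.ne_zero_iff.1 h0
  have h1 := hf.1 hu
  have h2 := le_weight (p := p) u (0, 0)
  rw [h1] at h2
  have h3 : (0 : ℤ) ≤ (u (0, 0) : ℤ) * W2 p (0, 0) := mul_nonneg (by positivity) (W2_nonneg _)
  linarith

/-- `H_1` in the second model. -/
noncomputable def η1 (p : ℕ) : KP p := X (1, 0)

/-- `H_2` in the second model. -/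
noncomputable def η2 (p : ℕ) : KP p := X (1, 1) + X (1, 0) * X (0, 0)

/-- `H_3` in the second model. -/
noncomputable def η3 (p : ℕ) : KP p := X (1, 2) + X (1, 1) * X (0, 0) ^ p + X (1, 0) * X (0, 1)

theorem Ψ_η1 : Ψ p (η1 p) = Hc p 0 := by
  rw [η1, Ψ_X, if_neg (by norm_num), Hc, φ_X, if_neg (by norm_num), if_pos rfl]
  simp [Finset.Nat.antidiagonal_succ, tt]

theorem Ψ_η2 : Ψ p (η2 p) = Hc p 1 := by
  rw [η2, map_add, map_mul, Ψ_X, Ψ_X, Ψ_X, if_neg (by norm_num), if_neg (by norm_num),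
    if_pos rfl, Hc, φ_X, if_neg (by norm_num), if_pos rfl]
  simp [Finset.Nat.antidiagonal_succ, tt]
  ring

theorem Ψ_η3 : Ψ p (η3 p) = Hc p 2 := by
  rw [η3, map_add, map_add, map_mul, map_mul, map_pow, Ψ_X, Ψ_X, Ψ_X, Ψ_X, Ψ_X,
    if_neg (by norm_num), if_neg (by norm_num), if_pos rfl, if_neg (by norm_num), if_pos rfl,
    Hc, φ_X, if_neg (by norm_num), if_pos rfl]
  simp [Finset.Nat.antidiagonal_succ, tt]
  ring

/-- `B_1` in the second model. -/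
noncomputable def β1 (p : ℕ) [Fact p.Prime] : KP p := gam p (η1 p) (ψ p 0 (η1 p))

/-- `B_2` in the second model. -/
noncomputable def β2 (p : ℕ) [Fact p.Prime] : KP p := gam p (η2 p) (ψ p 0 (η2 p))

theorem Ψ_gam (x y : KP p) : Ψ p (gam p x y) = gam p (Ψ p x) (Ψ p y) :=
  map_gam (Ψ p : KP p →+* KP p) x y

theorem Ψ_β1 : Ψ p (β1 p) = Bm p 0 := by
  rw [β1, Ψ_gam, Ψ_ψ, Ψ_η1, Bm]

theorem Ψ_β2 : Ψ p (β2 p) = Bm p 1 := by
  rw [β2, Ψ_gam, Ψ_ψ, Ψ_η2, Bm]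

theorem T_η1 : T p (η1 p) = Polynomial.C (η1 p) := T_ne one_ne_zero 0

theorem T_η2 : T p (η2 p) = Polynomial.C (η2 p) + Polynomial.C (η1 p) * Polynomial.X := by
  rw [η2, η1, map_add, map_mul, T_ne one_ne_zero, T_ne one_ne_zero, T_zero, tt_zero]
  simp only [map_add, map_mul, map_one, pow_zero, pow_one]
  ring

theorem T_η3 : T p (η3 p) = Polynomial.C (η3 p) + Polynomial.C (η2 p) * Polynomial.X ^ p := by
  rw [η3, η2, map_add, map_add, map_mul, map_mul, map_pow, T_ne one_ne_zero, T_ne one_ne_zero,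
    T_ne one_ne_zero, T_zero, T_zero, tt_zero, tt_succ]
  have h := add_pow_pp (p := p) (Polynomial.C (X (0, 0) : KP p))
    (Polynomial.C (1 : KP p) * Polynomial.X ^ p ^ 0) 1
  rw [pow_one] at h
  rw [h]
  simp only [map_add, map_mul, map_one, map_pow, pow_zero, pow_one]
  ring

theorem T_gamma (x y : KP p) : T p (gam p x y) = gam p (T p x) (T p y) :=
  map_gam (T p : KP p →+* Polynomial (KP p)) x y

theorem Tk_β2 : (T p (β2 p)).coeff p = β1 p := by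
  rw [β2, T_gamma, T_ψ, T_η2, map_add, map_mul, ψT_C, ψT_C, ψT_X, gam_top, β1]

/-- The coefficient of `ε ^ p` of `H_1 B_2 H_2 H_3`. -/
theorem Tk_cup : Tk p p (η1 p * ψ p 0 (β2 p * ψ p 0 (ψ p 0 (η2 p * ψ p 0 (η3 p))))) =
    η1 p * ψ p 0 (β1 p * ψ p 0 (ψ p 0 (η2 p * ψ p 0 (η3 p))) +
      Tk p (p - 1) (β2 p) * ψ p 0 (ψ p 0 (η1 p * ψ p 0 (η3 p))) +
      β2 p * ψ p 0 (ψ p 0 (η2 p * ψ p 0 (η2 p)))) := by
  have hp := (Fact.out : p.Prime)
  have h1 : T p (η2 p * ψ p 0 (η3 p)) = Polynomial.C (η2 p * ψ p 0 (η3 p)) +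
      Polynomial.C (η1 p * ψ p 0 (η3 p)) * Polynomial.X ^ 1 +
      Polynomial.C (η2 p * ψ p 0 (η2 p)) * Polynomial.X ^ p +
      Polynomial.C (η1 p * ψ p 0 (η2 p)) * Polynomial.X ^ (p + 1) := by
    rw [map_mul, T_ψ, T_η2, T_η3, map_add, map_mul, map_pow, ψT_C, ψT_C, ψT_X]
    simp only [map_mul, pow_succ]
    ring
  rw [Tk_apply, map_mul, T_η1, Polynomial.coeff_C_mul, T_ψ, coeff_ψT]
  congr 2
  rw [map_mul, T_ψ, T_ψ, h1]
  simp only [map_add, map_mul, map_pow, ψT_C, ψT_X]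
  simp only [← map_mul]
  rw [mul_add, mul_add, mul_add, Polynomial.coeff_add, Polynomial.coeff_add, Polynomial.coeff_add,
    ← mul_assoc, ← mul_assoc, ← mul_assoc, Polynomial.coeff_mul_X_pow', Polynomial.coeff_mul_X_pow',
    Polynomial.coeff_mul_X_pow', if_pos hp.one_le, if_pos le_rfl, if_neg (by omega),
    Polynomial.coeff_mul_C, Polynomial.coeff_mul_C, Polynomial.coeff_mul_C, Tk_β2, Nat.sub_self,
    add_zero]
  have h2 : (T p (β2 p)).coeff 0 = β2 p := Tk_zero _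
  rw [h2]
  rfl

/-- The cup product of a coboundary and a cocycle. -/
theorem cup_B {n r s : ℕ} {M N : ℤ} {e w : KP p} (he : e ∈ (AA p n).K r M)
    (hw : (AA p n).Z s N w) :
    (AA p n).B (r + s + 1) (M + N) (dd p r e * (φ p 0)^[r + 1] w) := by
  have h0 : ∀ k, (φ p 0)^[k] w ∈ (AA p n).K (k + s) N := by
    intro k
    induction k with
    | zero => rw [zero_add]; exact hw.1
    | succ k ih =>
      rw [Function.iterate_succ_apply', show k + 1 + s = k + s + 1 by ring]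
      exact φ_mem_AA (Nat.zero_le _) ih
  refine ⟨e * (φ p 0)^[r] w, mul_mem_AA (AA_mono le_rfl (Nat.le_add_right r s) he) (h0 r), ?_⟩
  have h2 : dd p s w = 0 := hw.2
  have h3 : ∀ k, (φ p 0)^[k] (0 : KP p) = 0 := by
    intro k
    induction k with
    | zero => rfl
    | succ k ih => rw [Function.iterate_succ_apply', ih, map_zero]
  rw [AA_d, dd_cup r s (mem_AA.1 he).1.2 (mem_AA.1 hw.1).1.2, h2, h3, mul_zero, smul_zero, add_zero]

theorem Hc_mem_AA (n m : ℕ) : Hc p m ∈ (AA p n).K 1 (wt p m) :=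
  mem_AA.2 ⟨Hc_mem m, fun k _ => pderiv_Hc m k⟩

theorem Bm_mem_AA (n m : ℕ) : Bm p m ∈ (AA p n).K 2 (p * wt p m) :=
  mem_AA.2 ⟨Bm_mem m, fun k _ => pderiv_Bm m k⟩

/-- `B_1 ∪ H_1` and `H_1 ∪ B_1` agree. -/
theorem dd_BH (m : ℕ) : dd p 2 (Bm p m * (Hc p m + φ p 0 (Hc p m))) =
    Bm p m * φ p 0 (φ p 0 (Hc p m)) - Hc p m * φ p 0 (Bm p m) := by
  have h1 := dd_Bm (p := p) m
  have e1 := φ_one_Hc (p := p) m
  have e2 : φ p 1 (φ p 0 (Hc p m)) = φ p 0 (φ p 0 (Hc p m)) := φ_φ (le_refl 0) _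
  have e3 : φ p 2 (Hc p m) = Hc p m := φ_of_lt (by norm_num) (Hc_mem m).2
  have e4 : φ p 2 (φ p 0 (Hc p m)) = φ p 0 (Hc p m) + φ p 0 (φ p 0 (Hc p m)) := by
    have : φ p 2 (φ p 0 (Hc p m)) = φ p 0 (φ p 1 (Hc p m)) := φ_φ (Nat.zero_le 1) _
    rw [this, e1, map_add]
  rw [dd_apply] at h1 ⊢
  simp only [Finset.sum_range_succ, Finset.sum_range_zero, map_mul, map_add, e1, e2, e3, e4, sgn]
    at h1 ⊢
  linear_combination (Hc p m + φ p 0 (Hc p m) + φ p 0 (φ p 0 (Hc p m))) * h1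

theorem BH {n m s : ℕ} {N : ℤ} {x : KP p} (hx : (AA p n).Z s N x) :
    (AA p n).B (s + 3) (N + (p * wt p m + wt p m))
      (E.bop p m (hop p m x) - hop p m (E.bop p m x)) := by
  have h1 : Bm p m * (Hc p m + φ p 0 (Hc p m)) ∈ (AA p n).K 2 (p * wt p m + wt p m) :=
    mul_mem_AA (Bm_mem_AA n m) (add_mem (AA_mono le_rfl (by norm_num) (Hc_mem_AA n m))
      (φ_mem_AA (by norm_num) (Hc_mem_AA n m)))
  have h2 := cup_B h1 hx
  rw [dd_BH] at h2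
  rw [hop_apply, E.bop_apply, hop_apply, E.bop_apply]
  simp only [map_mul]
  rw [show s + 3 = 2 + s + 1 by ring, add_comm N]
  convert h2 using 1
  simp only [Function.iterate_succ, Function.iterate_zero, Function.comp_apply, id]
  ring

/-- `H ∪ H` is a coboundary. -/
theorem HH (hp : 3 ≤ p) (n m : ℕ) : (AA p n).B 2 (wt p m + wt p m) (hop p m (hop p m 1)) := by
  have h1 : (AA p n).B 2 (wt p m + wt p m) (dd p 1 (Hc p m * Hc p m)) :=
    ⟨_, mul_mem_AA (Hc_mem_AA n m) (Hc_mem_AA n m), rfl⟩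
  have e1 := φ_one_Hc (p := p) m
  have h2 : dd p 1 (Hc p m * Hc p m) = (-2 : ZMod p) • (Hc p m * φ p 0 (Hc p m)) := by
    rw [dd_apply]
    simp only [Finset.sum_range_succ, Finset.sum_range_zero, map_mul, e1, sgn]
    rw [neg_smul, ofNat_smul_eq_nsmul, nsmul_eq_mul]
    push_cast
    ring
  have h3 : (-2 : ZMod p) ≠ 0 := by
    rw [neg_ne_zero]
    intro h
    have h4 : ((2 : ℕ) : ZMod p) = 0 := by exact_mod_cast h
    rw [ZMod.natCast_eq_zero_iff] at h4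
    exact absurd (Nat.le_of_dvd (by norm_num) h4) (by omega)
  have h4 := smul_B ((-2 : ZMod p)⁻¹) h1
  rw [h2, smul_smul, inv_mul_cancel₀ h3, one_smul] at h4
  rw [hop_apply, hop_apply, map_one, mul_one]
  exact h4

theorem digits (hp : 5 ≤ p) {s a b c : ℕ} (hs : s ≤ 6) (ha : a < 5) (hb : b < 5)
    (h : HasMon p s (a + b * p + c * p ^ 2)) : ∃ i j e₁ e₂ e₃ : ℕ, e₁ ≤ 1 ∧ e₂ ≤ 1 ∧ e₃ ≤ 1 ∧
      s = 2 * i + 2 * j + e₁ + e₂ + e₃ ∧ a = e₁ + e₂ + e₃ ∧ b = i + j + e₂ + e₃ ∧ c = j + e₃ :=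
  h.digits hp hs ha hb

theorem bounds (hp : 5 ≤ p) {a b c : ℕ} (ha : a ≤ 4) (hb : b ≤ 4) (hc : c ≤ 3) :
    a + b * p + c * p ^ 2 < p ^ 3 := by
  have h1 : 5 * p ≤ p ^ 2 := by nlinarith
  have h2 : 5 * p ^ 2 ≤ p ^ 3 := by nlinarith
  have h3 : b * p ≤ 4 * p := Nat.mul_le_mul_right _ hb
  have h4 : c * p ^ 2 ≤ 3 * p ^ 2 := Nat.mul_le_mul_right _ hc
  nlinarith

/-- Vanishing of `H(FP)` by counting. -/
theorem FF_ex (hp : 5 ≤ p) {s a b c : ℕ} (hs : s ≤ 6) (ha : a ≤ 4) (hb : b ≤ 4) (hc : c ≤ 3)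
    (h : ∀ i j e₁ e₂ e₃ : ℕ, e₁ ≤ 1 → e₂ ≤ 1 → e₃ ≤ 1 → s = 2 * i + 2 * j + e₁ + e₂ + e₃ →
      a = e₁ + e₂ + e₃ → b = i + j + e₂ + e₃ → c = j + e₃ → False) {N : ℤ}
    (hN : N = a + b * p + c * p ^ 2) : (FF p).Ex s N := by
  have h1 : (FF p).Ex s ((a + b * p + c * p ^ 2 : ℕ) : ℤ) := by
    refine FF_van (by exact_mod_cast bounds hp ha hb hc) fun h2 => ?_
    obtain ⟨i, j, e₁, e₂, e₃, h3, h4, h5, h6, h7, h8, h9⟩ :=
      digits hp hs (by omega) (by omega) h2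
    exact h i j e₁ e₂ e₃ h3 h4 h5 h6 h7 h8 h9
  rw [hN]
  exact_mod_cast h1

/-- The only class of degree `(5, 3 + 3 p + 2 p ^ 2)`. -/
theorem S1A (hp : 5 ≤ p) {z : KP p} (hz : (FF p).Z 5 (3 + 3 * p + 2 * p ^ 2) z)
    (hD : DW p z = 0) : (FF p).B 5 (3 + 3 * p + 2 * p ^ 2) z := by
  have hN : (3 + 3 * p + 2 * p ^ 2 : ℤ) = ((3 + 3 * p + 2 * p ^ 2 : ℕ) : ℤ) := by push_cast; ring
  have hlt := bounds hp (a := 3) (b := 3) (c := 2) (by norm_num) (by norm_num) (by norm_num)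
  have hw3 : ((3 + 3 * p + 2 * p ^ 2 : ℕ) : ℤ) < wt p (0 + 3) := by
    rw [zero_add, wt_three]
    have : 3 + 3 * p + 2 * p ^ 2 < 1 + p + p ^ 2 + p ^ 3 := by omega
    exact_mod_cast this
  have hmz := Ψ_Z hz
  rw [hN] at hmz
  obtain ⟨c, hc⟩ := one_mono 3 0 5 _ hw3 [(0, 1), (1, 1), (0, 1)] (by
    intro L h1 h2 h3 h4
    obtain ⟨i, j, e₁, e₂, e₃, a1, a2, a3, rfl, h5, h6⟩ := mono_small hlt h1 h2 h3 h4
    obtain ⟨i', j', e₁', e₂', e₃', a1', a2', a3', h5', h6', h7', h8'⟩ :=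
      digits (p := p) hp (s := 5) (a := 3) (b := 3) (c := 2) (by norm_num) (by norm_num)
        (by norm_num) ⟨i, j, e₁, e₂, e₃, a1, a2, a3, h5, h6⟩
    obtain ⟨b0, b1, b2⟩ := digits3 (p := p) (c₀ := 3) (c₁ := 3) (c₂ := 2) (d₀ := e₁ + e₂ + e₃)
      (d₁ := i + j + e₂ + e₃) (d₂ := j + e₃) (by omega) (by omega) (by omega) (by omega)
      (by rw [h6]; ring)
    have k1 : e₁ = 1 := by omega
    have k2 : e₂ = 1 := by omega
    have k3 : e₃ = 1 := by omega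
    have k4 : j = 1 := by omega
    have k5 : i = 0 := by omega
    rw [k1, k2, k3, k4, k5]) hmz
  set m : KP p := η1 p * ψ p 0 (β2 p * ψ p 0 (ψ p 0 (η2 p * ψ p 0 (η3 p)))) with hm
  have hm2 : Ψ p m = mono p 0 [(0, 1), (1, 1), (0, 1)] := by
    rw [hm]
    simp only [mono, Function.iterate_one, Function.iterate_zero, id, hop_apply, E.bop_apply,
      map_mul, Ψ_ψ, Ψ_η1, Ψ_η2, Ψ_η3, Ψ_β2, map_one, mul_one]
  have hzb : (FF p).B 5 (3 + 3 * p + 2 * p ^ 2) (z - c • m) := by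
    rw [← Ψ_B, map_sub, map_smul, hm2, hN]
    exact hc
  suffices hc0 : c = 0 by
    rw [hc0, zero_smul, sub_zero] at hzb
    exact hzb
  obtain ⟨Y, hY, hY'⟩ := hzb
  have hD' : Tk p p z = 0 := hD
  have h1 : (FF p).B 5 (3 + 3 * p + 2 * p ^ 2 - p * p) (c • Tk p p m) := by
    refine ⟨-Tk p p Y, neg_mem (Tk_mem hY p), ?_⟩
    have h2 : d2 p 4 Y = z - c • m := hY'
    rw [FF_d, map_neg, ← Tk_d2, h2, map_sub, map_smul, hD']
    simp
  have w1 : (wt p 0 : ℤ) = 1 := by rw [E.wt_zero]; norm_num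
  have w2 : (wt p 1 : ℤ) = 1 + p := by rw [wt_one]; push_cast; ring
  have w3 : (wt p 2 : ℤ) = 1 + p + p ^ 2 := by rw [wt_two]; push_cast; ring
  have z1 : (AA p 0).Z 1 (1 + p + p ^ 2) (hop p 2 1) := by
    convert hop_Z (m := 2) (one_Z (p := p) 0) using 1
    rw [w3]; ring
  have z2 : (AA p 0).Z 2 (2 + 2 * p + p ^ 2) (hop p 1 (hop p 2 1)) := by
    convert hop_Z (m := 1) z1 using 1
    rw [w2]; ring
  have z3 : (AA p 0).Z 2 (2 + p + p ^ 2) (hop p 0 (hop p 2 1)) := by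
    convert hop_Z (m := 0) z1 using 1
    rw [w1]; ring
  -- the coefficient of `ε ^ (p - 1)` of `B_2` is a coboundary
  have hC : (FF p).Z 2 (2 * p) (Tk p (p - 1) (β2 p)) := by
    have h2 : (FF p).Z 2 (p + p ^ 2) (β2 p) := by
      refine of_Ψ_Z ?_
      rw [Ψ_β2]
      refine ⟨?_, dd_Bm 1⟩
      have := Bm_mem_AA (p := p) 0 1
      rwa [w2, show (p : ℤ) * (1 + p) = p + p ^ 2 by ring] at this
    refine ⟨?_, ?_⟩
    · have := Tk_mem h2.1 (p - 1)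
      rwa [Nat.cast_sub (by omega : 1 ≤ p),
        show (p + p ^ 2 - ((p : ℤ) - (1 : ℕ)) * p : ℤ) = 2 * p by push_cast; ring] at this
    · have h3 : d2 p 2 (β2 p) = 0 := h2.2
      rw [FF_d, ← Tk_d2, h3, map_zero]
  have hC' : (FF p).B 2 (2 * p) (Tk p (p - 1) (β2 p)) :=
    FF_ex hp (s := 2) (a := 0) (b := 2) (c := 0) (by norm_num) (by norm_num) (by norm_num)
      (by norm_num) (by intros; omega) (by push_cast; ring) _ hC
  have hR : (AA p 0).B 4 (2 + 3 * p + p ^ 2)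
      (Ψ p (Tk p (p - 1) (β2 p)) * φ p 0 (φ p 0 (hop p 0 (hop p 2 1)))) := by
    obtain ⟨e, he, he'⟩ := hC'
    have h2 : d2 p 1 e = Tk p (p - 1) (β2 p) := he'
    have h3 := cup_B (Ψ_mem.2 he) z3
    rw [← Ψ_d2, h2] at h3
    convert h3 using 1
    · ring
    · rfl
  have hS : (AA p 0).B 4 (2 + 3 * p + p ^ 2) (E.bop p 1 (hop p 1 (hop p 1 1))) := by
    convert bop_B (m := 1) (HH (p := p) (by omega) 0 1) using 1
    rw [w2]; ring
  have key : Ψ p (Tk p p m) = hop p 0 (E.bop p 0 (hop p 1 (hop p 2 1)) +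
      Ψ p (Tk p (p - 1) (β2 p)) * φ p 0 (φ p 0 (hop p 0 (hop p 2 1))) +
      E.bop p 1 (hop p 1 (hop p 1 1))) := by
    rw [hm, Tk_cup]
    simp only [map_mul, map_add, Ψ_ψ, Ψ_η1, Ψ_η2, Ψ_η3, Ψ_β1, Ψ_β2, hop_apply, E.bop_apply,
      map_one, mul_one, mul_add]
  rw [← Ψ_B, map_smul, key, map_add, map_add, smul_add, smul_add,
    show (3 + 3 * p + 2 * p ^ 2 - p * p : ℤ) = 3 + 3 * p + p ^ 2 by ring] at h1
  have hR' := smul_B c (hop_B (m := 0) hR)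
  have hS' := smul_B c (hop_B (m := 0) hS)
  rw [w1, show (2 + 3 * p + p ^ 2 + 1 : ℤ) = 3 + 3 * p + p ^ 2 by ring] at hR' hS'
  have hT := smul_B c (BH (m := 0) z2)
  rw [w1, show (2 + 2 * p + p ^ 2 + (p * 1 + 1) : ℤ) = 3 + 3 * p + p ^ 2 by ring, smul_sub] at hT
  have hfin := ((h1.sub hS').sub hR').add hT
  refine mono_ne [(1, 1), (0, 1), (0, 1)] 0 c (by simp) ?_
  have e1 : mono p 0 [(1, 1), (0, 1), (0, 1)] =
      E.bop p 0 (hop p 0 (hop p 1 (hop p 2 1))) := by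
    simp only [mono, Function.iterate_one, Function.iterate_zero, id]
  rw [e1]
  convert hfin using 1
  · rfl
  · simp only [nd]
    push_cast
    rw [w1, show ((wt p (0 + 1) : ℕ) : ℤ) = 1 + p from w2,
      show ((wt p (0 + 1 + 1) : ℕ) : ℤ) = 1 + p + p ^ 2 from w3]
    ring
  · abel

end Vale.Agent.P257.SG
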