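import Vale.Agent.P257.SG.S2abs

/-! Abstract part of the proof of `Ext_P^(5, 3 + 3 p + 2 p ^ 2) = 0`. -/

namespace Vale.Agent.P257.SG

open Vale.Agent.P257.X Vale.Agent.P257.X.Cpx Vale.Agent.P257.E

variable {A : Type*} [AddCommGroup A]

/-- A cocycle whose derivative is a coboundary comes from the kernel. -/
theorem push {C : Cpx A} {p : ℕ} {e : ℤ} {D : A →+ A} (h : Der C p e D) (hp : 1 ≤ p) {s : ℕ}
    {N : ℤ} {v : A} (hv : C.Z s N v) (hb : C.B s (N - e) (D v))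
    (h3 : ∀ s', s = s' + 1 → (C.Ker h).Ex s' (N - p * e)) :
    ∃ v₂, (C.Ker h).Z s N v₂ ∧ C.B s N (v - v₂) := by
  cases s with
  | zero =>
    refine ⟨v, ⟨(mem_ker h).2 ⟨hv.1, hb⟩, hv.2⟩, ?_⟩
    rw [sub_self]; exact B.zero _ _
  | succ s =>
    obtain ⟨k, hk, hk'⟩ := hb
    have hm := h.iter_mem (p - 1) hk
    have hpe : ((p - 1 : ℕ) : ℤ) = (p - 1 : ℤ) := by push_cast [Nat.cast_sub hp]; ring
    rw [hpe, show N - e - (p - 1 : ℤ) * e = N - p * e by ring] at hm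
    have hz : (C.Ker h).Z s (N - p * e) (D^[p - 1] k) := by
      refine ⟨⟨hm, ?_⟩, ?_⟩
      · change D (D^[p - 1] k) = 0
        rw [iter_pred D hp]
        exact h.pow _ _ _ hk
      · change C.d s _ = 0
        rw [← h.iter_comm _ hk, hk', iter_pred' D hp]
        exact h.pow _ _ _ hv.1
    have hb := h3 s rfl _ hz
    have key : ∃ k' ∈ C.K s N, ∃ k'' ∈ C.K s (N - e), C.d s k'' = D v ∧ D k' = k'' := by
      cases s with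
      | zero =>
        obtain ⟨k', hk'1, hk'2⟩ := h.ex1 _ _ _ hk hb
        rw [sub_add_cancel] at hk'1
        exact ⟨k', hk'1, k, hk, hk', hk'2⟩
      | succ s =>
        obtain ⟨r, hr, hr'⟩ := hb
        obtain ⟨r', hr1, hr2⟩ := h.ex2 _ _ _ hr.1 hr.2
        rw [show N - p * e + (p - 1 : ℤ) * e = N - e by ring] at hr1
        have hk2 : k - C.d s r' ∈ C.K (s + 1) (N - e) := sub_mem hk (C.d_mem _ _ _ hr1)
        obtain ⟨k', hk'1, hk'2⟩ := h.ex1 _ _ _ hk2 (by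
          change C.d s r = _ at hr'
          rw [iter_sub, h.iter_comm _ hr1, hr2, hr', sub_self])
        rw [sub_add_cancel] at hk'1
        refine ⟨k', hk'1, _, hk2, ?_, hk'2⟩
        rw [map_sub, C.d_d _ _ _ hr1, sub_zero, hk']
    obtain ⟨k', hk1, k'', hk2, hk3, hk4⟩ := key
    refine ⟨v - C.d s k', ⟨(mem_ker h).2 ⟨sub_mem hv.1 (C.d_mem _ _ _ hk1), ?_⟩, ?_⟩, ?_⟩
    · rw [map_sub, h.comm _ _ _ hk1, hk4, hk3, sub_self]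
    · change C.d (s + 1) _ = 0
      rw [map_sub, C.d_d _ _ _ hk1, hv.2, sub_zero]
    · rw [sub_sub_cancel]
      exact B.d hk1

/-- A cochain with `D ^ (p - 1)` a coboundary of the kernel. -/
theorem onto {C : Cpx A} {p : ℕ} {e : ℤ} {D : A →+ A} (h : Der C p e D) {s : ℕ}
    {N : ℤ} {G : A} (hG : G ∈ C.K (s + 1) N)
    (hb : (C.Ker h).B (s + 1) (N - (p - 1 : ℤ) * e) (D^[p - 1] G)) :
    ∃ G₂ ∈ C.K (s + 1) (N + e), C.d (s + 1) (D G₂) = C.d (s + 1) G := by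
  obtain ⟨r, hr, hr'⟩ := hb
  obtain ⟨r', hr1, hr2⟩ := h.ex2 _ _ _ hr.1 hr.2
  rw [sub_add_cancel] at hr1
  have hk2 : G - C.d s r' ∈ C.K (s + 1) N := sub_mem hG (C.d_mem _ _ _ hr1)
  obtain ⟨k', hk'1, hk'2⟩ := h.ex1 _ _ _ hk2 (by
    change C.d s r = _ at hr'
    rw [iter_sub, h.iter_comm _ hr1, hr2, hr', sub_self])
  refine ⟨k', hk'1, ?_⟩
  rw [hk'2, map_sub, C.d_d _ _ _ hr1, sub_zero]

theorem B.ker {C : Cpx A} {p : ℕ} {e : ℤ} {D : A →+ A} (h : Der C p e D) {s : ℕ} {N : ℤ} {v : A}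
    (hb : (C.Ker h).B s N v) : C.B s N v := by
  cases s with
  | zero => exact hb
  | succ s => obtain ⟨g, hg, rfl⟩ := hb; exact ⟨g, hg.1, rfl⟩

/-- The abstract form of the proof of `H^(5, 3 + 3 p + 2 p ^ 2)(k) = 0`. -/
theorem S1abs {p : ℕ} (hp : 5 ≤ p) {F : Cpx A} (hF : Pos F) {Dx Dk Dy : A →+ A}
    (hx : Der F p (p + p ^ 2) Dx) (hk : Der (F.Ker hx) p (p ^ 2) Dk)
    (hy : Der ((F.Ker hx).Ker hk) p p Dy)
    -- counting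
    (c1 : F.Ex 4 (3 + 2 * p + p ^ 2)) (c2 : F.Ex 4 (3 + 3 * p + p ^ 2))
    (c3 : F.Ex 3 (3 + 2 * p)) (c4 : F.Ex 4 (3 + 2 * p + 2 * p ^ 2))
    (c5 : F.Ex 3 (3 + p + p ^ 2)) (c6 : F.Ex 2 3) (c7 : F.Ex 2 (3 + p))
    (k3 : (((F.Ker hx).Ker hk).Ker hy).Ex 3 (3 + 3 * p + p ^ 2))
    (k2 : (((F.Ker hx).Ker hk).Ker hy).Ex 2 (3 + 2 * p))
    (hA : ∀ z, F.Z 5 (3 + 3 * p + 2 * p ^ 2) z → Dk z = 0 → F.B 5 (3 + 3 * p + 2 * p ^ 2) z)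
    (hM : ∀ v, (((F.Ker hx).Ker hk).Ker hy).Z 3 (3 + 2 * p + p ^ 2) v →
      ∃ a ∈ (F.Ker hx).K 3 (3 + 2 * p + 2 * p ^ 2), Dk a = v ∧ Dy (F.d 3 a) = 0 ∧
        ∃ b ∈ ((F.Ker hx).Ker hk).K 4 (3 + 3 * p + 2 * p ^ 2), Dy b = F.d 3 a ∧
          (((F.Ker hx).Ker hk).Ker hy).B 5 (3 + 3 * p + 2 * p ^ 2) (F.d 4 b)) :
    (((F.Ker hx).Ker hk).Ker hy).Ex 5 (3 + 3 * p + 2 * p ^ 2) := by
  have hp0 : (5 : ℤ) ≤ p := by exact_mod_cast hp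
  have hp1 : 1 ≤ p := by omega
  have q1 : (5 : ℤ) * p ≤ p ^ 2 := by nlinarith
  have q2 : (5 : ℤ) * p ^ 2 ≤ p ^ 3 := by nlinarith
  have hK2 : Pos (F.Ker hx) := hF.ker hx
  have hM1 : Pos ((F.Ker hx).Ker hk) := hK2.ker hk
  have neg : ∀ {C : Cpx A} (_ : Pos C) (s : ℕ) (N : ℤ), N < 0 → C.Ex s N := by
    intro C hC s N hN f hf
    rw [hC s N f hf.1 hN]
    exact B.zero s N
  -- `H^4(K2)`, `H^3(K2)`
  have e1 : (F.Ker hx).Ex 4 (3 + 3 * p + p ^ 2) := by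
    refine hx.tower_step hp1 c2 ?_ fun s' _ => neg (hF.ker hx) _ _ (by nlinarith)
    intro s' hs
    obtain rfl : s' = 3 := by omega
    rw [show (3 + 3 * p + p ^ 2 - (p + p ^ 2) : ℤ) = 3 + 2 * p by ring]
    exact c3
  have e2 : (F.Ker hx).Ex 4 (3 + 2 * p + 2 * p ^ 2) := by
    refine hx.tower_step hp1 c4 ?_ fun s' _ => neg (hF.ker hx) _ _ (by nlinarith)
    intro s' hs
    obtain rfl : s' = 3 := by omega
    rw [show (3 + 2 * p + 2 * p ^ 2 - (p + p ^ 2) : ℤ) = 3 + p + p ^ 2 by ring]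
    exact c5
  have e3 : (F.Ker hx).Ex 3 (3 + 2 * p) := by
    refine hx.tower_step hp1 c3 (fun s' _ => neg hF _ _ (by nlinarith))
      fun s' _ => neg (hF.ker hx) _ _ (by nlinarith)
  have e4 : (F.Ker hx).Ex 3 (3 + p + p ^ 2) := by
    refine hx.tower_step hp1 c5 ?_ fun s' _ => neg (hF.ker hx) _ _ (by nlinarith)
    intro s' hs
    obtain rfl : s' = 2 := by omega
    rw [show (3 + p + p ^ 2 - (p + p ^ 2) : ℤ) = 3 by ring]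
    exact c6
  have e5 : (F.Ker hx).Ex 2 (3 + p) := by
    refine hx.tower_step hp1 c7 (fun s' _ => neg hF _ _ (by nlinarith))
      fun s' _ => neg (hF.ker hx) _ _ (by nlinarith)
  -- `H^3(M1)`
  have e6 : ((F.Ker hx).Ker hk).Ex 3 (3 + p + p ^ 2) := by
    refine hk.tower_step hp1 e4 ?_ fun s' _ => neg (hK2.ker hk) _ _ (by nlinarith)
    intro s' hs
    obtain rfl : s' = 2 := by omega
    rw [show (3 + p + p ^ 2 - p ^ 2 : ℤ) = 3 + p by ring]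
    exact e5
  -- `H^5(M1)`
  have e7 : ((F.Ker hx).Ker hk).Ex 5 (3 + 3 * p + 2 * p ^ 2) := by
    refine step hk hp1 ?_ ?_ fun s' _ => ex_neg hk hK2 (by nlinarith)
    · intro z hz hDz
      obtain ⟨Y, hY, hY1, hY2, hY3⟩ := lift_ker hx hp1 hF (by nlinarith) hz
        (hA z ⟨hz.1.1, hz.2⟩ hDz)
      refine hY3 ?_
      rw [show (3 + 3 * p + 2 * p ^ 2 - (p + p ^ 2) : ℤ) = 3 + 2 * p + p ^ 2 by ring] at hY2 ⊢
      exact c1 _ hY2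
    · rintro s' hs u hu -
      obtain rfl : s' = 4 := by omega
      refine ⟨0, Z.zero _ _, ?_⟩
      rw [map_zero, sub_zero]
      rw [show (3 + 3 * p + 2 * p ^ 2 - p ^ 2 : ℤ) = 3 + 3 * p + p ^ 2 by ring] at hu ⊢
      exact e1 u hu
  intro z hz
  obtain ⟨Y, hY, hYz⟩ : ((F.Ker hx).Ker hk).B 5 (3 + 3 * p + 2 * p ^ 2) z :=
    e7 z ⟨hz.1.1, hz.2⟩
  change F.d 4 Y = z at hYz
  have hη : Dy Y ∈ ((F.Ker hx).Ker hk).K 4 (3 + 2 * p + 2 * p ^ 2) := by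
    have := hy.mem _ _ _ hY
    rwa [show (3 + 3 * p + 2 * p ^ 2 - p : ℤ) = 3 + 2 * p + 2 * p ^ 2 by ring] at this
  have hηd : F.d 4 (Dy Y) = 0 := by
    have h1 : Dy (F.d 4 Y) = F.d 4 (Dy Y) := hy.comm _ _ _ hY
    rw [← h1, hYz]
    exact hz.1.2
  obtain ⟨G, hG, hG'⟩ : (F.Ker hx).B 4 (3 + 2 * p + 2 * p ^ 2) (Dy Y) := e2 _ ⟨hη.1, hηd⟩
  change F.d 3 G = Dy Y at hG'
  have hv : (F.Ker hx).Z 3 (3 + 2 * p + p ^ 2) (Dk G) := by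
    refine ⟨?_, ?_⟩
    · have := hk.mem _ _ _ hG
      rwa [show (3 + 2 * p + 2 * p ^ 2 - p ^ 2 : ℤ) = 3 + 2 * p + p ^ 2 by ring] at this
    · have h1 : Dk (F.d 3 G) = F.d 3 (Dk G) := hk.comm _ _ _ hG
      change F.d 3 (Dk G) = 0
      rw [← h1, hG']
      exact hη.2
  have hDv : (F.Ker hx).B 3 (3 + 2 * p + p ^ 2 - p ^ 2) (Dk (Dk G)) := by
    rw [show (3 + 2 * p + p ^ 2 - p ^ 2 : ℤ) = 3 + 2 * p by ring]
    refine e3 _ ⟨?_, ?_⟩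
    · have := hk.mem _ _ _ hv.1
      rwa [show (3 + 2 * p + p ^ 2 - p ^ 2 : ℤ) = 3 + 2 * p by ring] at this
    · have h1 : Dk ((F.Ker hx).d 3 (Dk G)) = (F.Ker hx).d 3 (Dk (Dk G)) := hk.comm _ _ _ hv.1
      rw [← h1, hv.2, map_zero]
  obtain ⟨v', hv', hb'⟩ := push hk hp1 hv hDv fun s' _ => neg (hK2.ker hk) _ _ (by nlinarith)
  have hDv' : ((F.Ker hx).Ker hk).B 3 (3 + 2 * p + p ^ 2 - p) (Dy v') := by
    rw [show (3 + 2 * p + p ^ 2 - p : ℤ) = 3 + p + p ^ 2 by ring]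
    refine e6 _ ⟨?_, ?_⟩
    · have := hy.mem _ _ _ hv'.1
      rwa [show (3 + 2 * p + p ^ 2 - p : ℤ) = 3 + p + p ^ 2 by ring] at this
    · have h1 := hy.comm _ _ _ hv'.1
      rw [← h1, hv'.2, map_zero]
  obtain ⟨v₂, hv₂, hb₂⟩ := push hy hp1 hv' hDv' (by
    intro s' hs
    obtain rfl : s' = 2 := by omega
    rw [show (3 + 2 * p + p ^ 2 - p * p : ℤ) = 3 + 2 * p by ring]
    exact k2)
  have hb3 : (F.Ker hx).B 3 (3 + 2 * p + p ^ 2) (Dk G - v₂) := by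
    rw [← sub_add_sub_cancel _ v' _]
    exact hb'.add (B.ker hk hb₂)
  obtain ⟨U, hU, hU'⟩ := hb3
  change F.d 2 U = _ at hU'
  obtain ⟨V, hV, hV'⟩ := surj hk hp1 hK2 (by nlinarith) hU
  rw [show (3 + 2 * p + p ^ 2 + p ^ 2 : ℤ) = 3 + 2 * p + 2 * p ^ 2 by ring] at hV
  obtain ⟨a, ha, haD, hay, b, hb, hbD, hbB⟩ := hM v₂ hv₂
  have hG0 : G - a - F.d 2 V ∈ ((F.Ker hx).Ker hk).K 3 (3 + 2 * p + 2 * p ^ 2) := by
    refine (mem_ker hk).2 ⟨sub_mem (sub_mem hG ha) ((F.Ker hx).d_mem _ _ _ hV), ?_⟩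
    have h1 : Dk (F.d 2 V) = F.d 2 (Dk V) := hk.comm _ _ _ hV
    rw [map_sub, map_sub, h1, hV', hU', haD, sub_self]
  have hdG0 : F.d 3 (G - a - F.d 2 V) = Dy Y - F.d 3 a := by
    have h1 : F.d 3 (F.d 2 V) = 0 := (F.Ker hx).d_d _ _ _ hV
    rw [map_sub, map_sub, h1, hG', sub_zero]
  have hit : ∀ k : ℕ, Dy^[k] (0 : A) = 0 := by
    intro k
    induction k with
    | zero => rfl
    | succ k ih => rw [Function.iterate_succ_apply', ih, map_zero]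
  have hz0 : (((F.Ker hx).Ker hk).Ker hy).Z 3 (3 + 3 * p + p ^ 2) (Dy^[p - 1] (G - a - F.d 2 V)) := by
    have hm := hy.iter_mem (p - 1) hG0
    have hpe : ((p - 1 : ℕ) : ℤ) = (p - 1 : ℤ) := by push_cast [Nat.cast_sub hp1]; ring
    rw [hpe, show (3 + 2 * p + 2 * p ^ 2 - (p - 1) * p : ℤ) = 3 + 3 * p + p ^ 2 by ring] at hm
    refine ⟨(mem_ker hy).2 ⟨hm, ?_⟩, ?_⟩
    · rw [iter_pred Dy hp1]
      exact hy.pow _ _ _ hG0
    · change F.d 3 _ = 0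
      have h1 : Dy^[p - 1] (F.d 3 (G - a - F.d 2 V)) = F.d 3 (Dy^[p - 1] (G - a - F.d 2 V)) :=
        hy.iter_comm _ hG0
      rw [← h1, hdG0, iter_sub, iter_pred' Dy hp1, hy.pow _ _ _ hY, zero_sub, neg_eq_zero]
      obtain ⟨q, hq⟩ : ∃ q, p - 1 = q + 1 := ⟨p - 2, by omega⟩
      rw [hq, Function.iterate_succ_apply, hay, hit]
  have hB0 := k3 _ hz0
  obtain ⟨G₂, hG₂, hG₂'⟩ := onto hy hG0 (by
    rwa [show (3 + 2 * p + 2 * p ^ 2 - (p - 1) * p : ℤ) = 3 + 3 * p + p ^ 2 by ring])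
  rw [show (3 + 2 * p + 2 * p ^ 2 + p : ℤ) = 3 + 3 * p + 2 * p ^ 2 by ring] at hG₂
  change F.d 3 (Dy G₂) = F.d 3 _ at hG₂'
  have hY' : Y - F.d 3 G₂ - b ∈ (((F.Ker hx).Ker hk).Ker hy).K 4 (3 + 3 * p + 2 * p ^ 2) := by
    refine (mem_ker hy).2 ⟨sub_mem (sub_mem hY (((F.Ker hx).Ker hk).d_mem _ _ _ hG₂)) hb, ?_⟩
    have h1 : Dy (F.d 3 G₂) = F.d 3 (Dy G₂) := hy.comm _ _ _ hG₂
    rw [map_sub, map_sub, h1, hG₂', hdG0, hbD]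
    abel
  have hfin : z = F.d 4 (Y - F.d 3 G₂ - b) + F.d 4 b := by
    have h1 : F.d 4 (F.d 3 G₂) = 0 := ((F.Ker hx).Ker hk).d_d _ _ _ hG₂
    rw [map_sub, map_sub, h1, hYz]
    abel
  rw [hfin]
  exact B.add ⟨_, hY', rfl⟩ hbB

end Vale.Agent.P257.SG
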