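import Vale.Agent.P257.E.S3abs

/-! Abstract part of the proof of `Ext_P^(6, 4 p + 3 p ^ 2) = 0`, `Ext_P^(7, 4 p + 3 p ^ 2) = 0`. -/

namespace Vale.Agent.P257.SG

open Vale.Agent.P257.X Vale.Agent.P257.X.Cpx Vale.Agent.P257.E

variable {A : Type*} [AddCommGroup A]

/-- A cocycle of the kernel which is a coboundary upstairs. -/
theorem lift_ker {C : Cpx A} {p : ℕ} {e : ℤ} {D : A →+ A} (h : Der C p e D) (hp : 1 ≤ p)
    (hC : Pos C) {s : ℕ} {N : ℤ} (hN : N - e < (p - 1 : ℤ) * e) {z : A}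
    (hz : (C.Ker h).Z (s + 1) N z) (hb : C.B (s + 1) N z) :
    ∃ Y ∈ C.K s N, C.d s Y = z ∧ C.Z s (N - e) (D Y) ∧
      (C.B s (N - e) (D Y) → (C.Ker h).B (s + 1) N z) := by
  obtain ⟨Y, hY, rfl⟩ := hb
  have hDz : D (C.d s Y) = 0 := hz.1.2
  refine ⟨Y, hY, rfl, ⟨h.mem _ _ _ hY, by rw [← h.comm _ _ _ hY, hDz]⟩, fun hb => ?_⟩
  cases s with
  | zero => exact ⟨Y, (mem_ker h).2 ⟨hY, hb⟩, rfl⟩
  | succ s =>
    obtain ⟨U, hU, hU'⟩ := hb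
    obtain ⟨V, hV, hV'⟩ := surj h hp hC hN hU
    rw [sub_add_cancel] at hV
    refine ⟨Y - C.d s V, (mem_ker h).2 ⟨sub_mem hY (C.d_mem _ _ _ hV), ?_⟩, ?_⟩
    · rw [map_sub, h.comm _ _ _ hV, hV', hU', sub_self]
    · change C.d (s + 1) _ = _
      rw [map_sub, C.d_d _ _ _ hV, sub_zero]

/-- The setting. -/
structure Set2 (p : ℕ) (F : Cpx A) (Dx Dk Dy : A →+ A) where
  hp : 5 ≤ p
  pos : Pos F
  hx : Der F p (p + p ^ 2) Dx
  hk : Der (F.Ker hx) p (p ^ 2) Dk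
  hy : Der ((F.Ker hx).Ker hk) p p Dy
  kmem : ∀ s N, ∀ f ∈ F.K s N, Dk f ∈ F.K s (N - p ^ 2)
  kcomm : ∀ s N, ∀ f ∈ F.K s N, Dk (F.d s f) = F.d s (Dk f)
  kx : ∀ s N, ∀ f ∈ F.K s N, Dx (Dk f) = Dk (Dx f)
  cnt : ∀ s a b : ℕ, s ≤ 7 → s ≠ 2 * a → a ≤ 4 → b ≤ 3 → F.Ex s (a * p + b * p ^ 2)

variable {p : ℕ} {F : Cpx A} {Dx Dk Dy : A →+ A}

/-- One step of the descent. -/
theorem Set2.down (S : Set2 p F Dx Dk Dy) {s a b : ℕ} (h7 : s ≤ 7) (hs : s ≠ 2 * a) (ha : a ≤ 4) (hb : b ≤ 3)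
    (hs' : s ≠ 2 * (a - 1) + 1) (ha' : 1 ≤ a) (hb' : 1 ≤ b) :
    (F.Ker S.hx).Ex s (a * p + b * p ^ 2) := by
  have hp0 : (5 : ℤ) ≤ p := by exact_mod_cast S.hp
  have q1 : (5 : ℤ) * p ≤ p ^ 2 := by nlinarith
  have q2 : (5 : ℤ) * p ^ 2 ≤ p ^ 3 := by nlinarith
  refine step S.hx (by have := S.hp; omega) (fun z hz _ => S.cnt s a b h7 hs ha hb z hz) ?_ ?_
  · rintro s' hs1 u hu -
    refine ⟨0, Z.zero _ _, ?_⟩
    rw [map_zero, sub_zero]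
    have h1 : (a * p + b * p ^ 2 - (p + p ^ 2) : ℤ) = (a - 1 : ℕ) * p + (b - 1 : ℕ) * p ^ 2 := by
      push_cast [Nat.cast_sub ha', Nat.cast_sub hb']; ring
    rw [h1] at hu ⊢
    exact S.cnt s' (a - 1) (b - 1) (by omega) (by omega) (by omega) (by omega) u hu
  · intro s' _
    refine ex_neg S.hx S.pos ?_
    have h1 : (a : ℤ) ≤ 4 := by exact_mod_cast ha
    have h2 : (b : ℤ) ≤ 3 := by exact_mod_cast hb
    nlinarith

theorem Set2.kB (S : Set2 p F Dx Dk Dy) {s : ℕ} {N N' : ℤ} (hN : N' = N - p ^ 2) {z : A}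
    (hz : F.B s N z) : F.B s N' (Dk z) := by
  subst hN
  cases s with
  | zero =>
    simp only [Cpx.B] at *
    rw [hz, map_zero]
  | succ s =>
    obtain ⟨g, hg, rfl⟩ := hz
    exact ⟨Dk g, S.kmem _ _ _ hg, (S.kcomm _ _ _ hg).symm⟩

theorem Set2.xB (S : Set2 p F Dx Dk Dy) {s : ℕ} {N N' : ℤ} (hN : N' = N - (p + p ^ 2)) {z : A}
    (hz : F.B s N z) : F.B s N' (Dx z) := by
  subst hN
  cases s with
  | zero =>
    simp only [Cpx.B] at *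
    rw [hz, map_zero]
  | succ s =>
    obtain ⟨g, hg, rfl⟩ := hz
    exact ⟨Dx g, S.hx.mem _ _ _ hg, (S.hx.comm _ _ _ hg).symm⟩

/-- Cocycles of `M2` killed by `Dk`. -/
theorem Set2.zk (S : Set2 p F Dx Dk Dy) {s a b : ℕ} (ha : a + 1 ≤ 4) (hb : b + 1 ≤ 3)
    (h1 : F.Ex s ((a + 1 : ℕ) * p + (b : ℕ) * p ^ 2))
    (H : ∀ ω, F.Z s (a * p + b * p ^ 2) ω → F.B s (a * p + b * p ^ 2 - p ^ 2) (Dk ω) →
      F.B s (a * p + b * p ^ 2) ω) {z : A}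
    (hz : (F.Ker S.hx).Z (s + 1) ((a + 1 : ℕ) * p + (b + 1 : ℕ) * p ^ 2) z)
    (hzb : F.B (s + 1) ((a + 1 : ℕ) * p + (b + 1 : ℕ) * p ^ 2) z) (hk : Dk z = 0) :
    (F.Ker S.hx).B (s + 1) ((a + 1 : ℕ) * p + (b + 1 : ℕ) * p ^ 2) z := by
  have hp0 : (5 : ℤ) ≤ p := by exact_mod_cast S.hp
  have q1 : (5 : ℤ) * p ≤ p ^ 2 := by nlinarith
  have h2 : (a : ℤ) + 1 ≤ 4 := by exact_mod_cast ha
  have h3 : (b : ℤ) + 1 ≤ 3 := by exact_mod_cast hb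
  have hne : ((a + 1 : ℕ) * p + (b + 1 : ℕ) * p ^ 2 - (p + p ^ 2) : ℤ) = a * p + b * p ^ 2 := by
    push_cast; ring
  obtain ⟨Y, hY, hY1, hY2, hY3⟩ := lift_ker S.hx (by have := S.hp; omega) S.pos (by
    rw [hne]; nlinarith) hz hzb
  refine hY3 ?_
  rw [hne] at hY2 ⊢
  refine H _ hY2 ?_
  have h4 : F.Z s ((a + 1 : ℕ) * p + (b : ℕ) * p ^ 2) (Dk Y) := by
    have := S.kmem _ _ _ hY
    rw [show ((a + 1 : ℕ) * p + (b + 1 : ℕ) * p ^ 2 - p ^ 2 : ℤ) =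
      (a + 1 : ℕ) * p + (b : ℕ) * p ^ 2 by push_cast; ring] at this
    exact ⟨this, by rw [← S.kcomm _ _ _ hY, hY1, hk]⟩
  have h5 := S.xB (N' := a * p + b * p ^ 2 - p ^ 2) (by push_cast; ring) (h1 _ h4)
  rwa [S.kx _ _ _ hY] at h5

variable (S : Set2 p F Dx Dk Dy)
  (hβ : ∀ ω, F.Z 4 (2 * p + 2 * p ^ 2) ω → F.B 4 (2 * p + p ^ 2) (Dk ω) →
    F.B 4 (2 * p + 2 * p ^ 2) ω)

include hβ in
theorem Set2.ex6 (hc : (((F.Ker S.hx).Ker S.hk).Ker S.hy).Ex 4 (4 * p + 2 * p ^ 2)) :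
    (((F.Ker S.hx).Ker S.hk).Ker S.hy).Ex 6 (4 * p + 3 * p ^ 2) := by
  have hp0 : (5 : ℤ) ≤ p := by exact_mod_cast S.hp
  have hp1 : 1 ≤ p := by have := S.hp; omega
  have q1 : (5 : ℤ) * p ≤ p ^ 2 := by nlinarith
  have q2 : (5 : ℤ) * p ^ 2 ≤ p ^ 3 := by nlinarith
  have hK2 : Pos (F.Ker S.hx) := S.pos.ker S.hx
  have a1 := S.down (s := 6) (a := 4) (b := 3) (by norm_num) (by norm_num) (by norm_num) (by norm_num)
    (by norm_num) (by norm_num) (by norm_num)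
  have a2 := S.down (s := 5) (a := 4) (b := 2) (by norm_num) (by norm_num) (by norm_num) (by norm_num)
    (by norm_num) (by norm_num) (by norm_num)
  have a3 := S.down (s := 4) (a := 3) (b := 2) (by norm_num) (by norm_num) (by norm_num) (by norm_num)
    (by norm_num) (by norm_num) (by norm_num)
  push_cast at a1 a2 a3
  have e1 : ((F.Ker S.hx).Ker S.hk).Ex 6 (4 * p + 3 * p ^ 2) := by
    refine step S.hk hp1 (fun z hz _ => a1 z hz) ?_ ?_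
    · rintro s' hs u hu -
      obtain rfl : s' = 5 := by omega
      refine ⟨0, Z.zero _ _, ?_⟩
      rw [map_zero, sub_zero]
      rw [show (4 * p + 3 * p ^ 2 - p ^ 2 : ℤ) = 4 * p + 2 * p ^ 2 by ring] at hu ⊢
      exact a2 u hu
    · intro s' _
      exact ex_neg S.hk hK2 (by nlinarith)
  have e2 : ((F.Ker S.hx).Ker S.hk).Ex 5 (3 * p + 3 * p ^ 2) := by
    refine step S.hk hp1 ?_ ?_ ?_
    · intro z hz hk
      have h1 := S.cnt 5 3 3 (by norm_num) (by norm_num) (by norm_num) (by norm_num)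
      have h2 := S.cnt 4 3 2 (by norm_num) (by norm_num) (by norm_num) (by norm_num)
      have h3 := S.zk (s := 4) (a := 2) (b := 2) (by norm_num) (by norm_num) h2 (by
        intro ω h3 h4
        push_cast at h3 h4 ⊢
        refine hβ ω h3 ?_
        rwa [show (2 * p + 2 * p ^ 2 - p ^ 2 : ℤ) = 2 * p + p ^ 2 by ring] at h4) (z := z)
      push_cast at h1 h2 h3
      exact h3 hz (h1 z ⟨hz.1.1, hz.2⟩) hk
    · rintro s' hs u hu -
      obtain rfl : s' = 4 := by omega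
      refine ⟨0, Z.zero _ _, ?_⟩
      rw [map_zero, sub_zero]
      rw [show (3 * p + 3 * p ^ 2 - p ^ 2 : ℤ) = 3 * p + 2 * p ^ 2 by ring] at hu ⊢
      exact a3 u hu
    · intro s' _
      exact ex_neg S.hk hK2 (by nlinarith)
  refine step S.hy hp1 (fun z hz _ => e1 z hz) ?_ ?_
  · rintro s' hs u hu -
    obtain rfl : s' = 5 := by omega
    refine ⟨0, Z.zero _ _, ?_⟩
    rw [map_zero, sub_zero]
    rw [show (4 * p + 3 * p ^ 2 - p : ℤ) = 3 * p + 3 * p ^ 2 by ring] at hu ⊢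
    exact e2 u hu
  · intro s' hs
    obtain rfl : s' = 4 := by omega
    rw [show (4 * p + 3 * p ^ 2 - p * p : ℤ) = 4 * p + 2 * p ^ 2 by ring]
    exact hc

theorem Set2.ex7 (hγ : ∀ ω, F.Z 6 (3 * p + 2 * p ^ 2) ω → F.B 6 (3 * p + p ^ 2) (Dk ω) →
      F.B 6 (3 * p + 2 * p ^ 2) ω)
    (hδ : ∀ ω, F.Z 6 (3 * p + 3 * p ^ 2) ω → F.B 6 (3 * p + 2 * p ^ 2) (Dk ω) →
      F.B 6 (3 * p + 3 * p ^ 2) ω)
    (hε : ∀ ω, F.Z 4 (2 * p + p ^ 2) ω → ∃ ν, F.Z 4 (2 * p + 2 * p ^ 2) ν ∧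
      F.B 4 (2 * p + p ^ 2) (ω - Dk ν))
    (hc : (((F.Ker S.hx).Ker S.hk).Ker S.hy).Ex 5 (4 * p + 2 * p ^ 2)) :
    (((F.Ker S.hx).Ker S.hk).Ker S.hy).Ex 7 (4 * p + 3 * p ^ 2) := by
  have hp0 : (5 : ℤ) ≤ p := by exact_mod_cast S.hp
  have hp1 : 1 ≤ p := by have := S.hp; omega
  have q1 : (5 : ℤ) * p ≤ p ^ 2 := by nlinarith
  have q2 : (5 : ℤ) * p ^ 2 ≤ p ^ 3 := by nlinarith
  have hK2 : Pos (F.Ker S.hx) := S.pos.ker S.hx
  have a1 := S.down (s := 6) (a := 4) (b := 2) (by norm_num) (by norm_num) (by norm_num) (by norm_num)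
    (by norm_num) (by norm_num) (by norm_num)
  push_cast at a1
  have e1 : ((F.Ker S.hx).Ker S.hk).Ex 7 (4 * p + 3 * p ^ 2) := by
    refine step S.hk hp1 ?_ ?_ ?_
    · intro z hz hk
      have h1 := S.cnt 7 4 3 (by norm_num) (by norm_num) (by norm_num) (by norm_num)
      have h2 := S.cnt 6 4 2 (by norm_num) (by norm_num) (by norm_num) (by norm_num)
      have h3 := S.zk (s := 6) (a := 3) (b := 2) (by norm_num) (by norm_num) h2 (by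
        intro ω h3 h4
        push_cast at h3 h4 ⊢
        refine hγ ω h3 ?_
        rwa [show (3 * p + 2 * p ^ 2 - p ^ 2 : ℤ) = 3 * p + p ^ 2 by ring] at h4) (z := z)
      push_cast at h1 h2 h3
      exact h3 hz (h1 z ⟨hz.1.1, hz.2⟩) hk
    · rintro s' hs u hu -
      obtain rfl : s' = 6 := by omega
      refine ⟨0, Z.zero _ _, ?_⟩
      rw [map_zero, sub_zero]
      rw [show (4 * p + 3 * p ^ 2 - p ^ 2 : ℤ) = 4 * p + 2 * p ^ 2 by ring] at hu ⊢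
      exact a1 u hu
    · intro s' _
      exact ex_neg S.hk hK2 (by nlinarith)
  have e2 : ((F.Ker S.hx).Ker S.hk).Ex 6 (3 * p + 3 * p ^ 2) := by
    refine step S.hk hp1 ?_ ?_ ?_
    · intro z hz hk
      obtain ⟨Y, hY, hY1, hY2, hY3⟩ := lift_ker S.hx hp1 S.pos (by nlinarith) hz
        (hδ z ⟨hz.1.1, hz.2⟩ (by rw [hk]; exact B.zero _ _))
      refine hY3 ?_
      have h1 := S.cnt 5 2 2 (by norm_num) (by norm_num) (by norm_num) (by norm_num)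
      push_cast at h1
      rw [show (3 * p + 3 * p ^ 2 - (p + p ^ 2) : ℤ) = 2 * p + 2 * p ^ 2 by ring] at hY2 ⊢
      exact h1 _ hY2
    · rintro s' hs u hu -
      obtain rfl : s' = 5 := by omega
      rw [show (3 * p + 3 * p ^ 2 - p ^ 2 : ℤ) = 3 * p + 2 * p ^ 2 by ring] at hu ⊢
      have huD : Dx u = 0 := hu.1.2
      have h1 := S.cnt 5 3 2 (by norm_num) (by norm_num) (by norm_num) (by norm_num)
      push_cast at h1
      obtain ⟨Y, hY, rfl⟩ := h1 u ⟨hu.1.1, hu.2⟩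
      have hz : F.Z 4 (2 * p + p ^ 2) (Dx Y) := by
        refine ⟨?_, ?_⟩
        · have := S.hx.mem _ _ _ hY
          rwa [show (3 * p + 2 * p ^ 2 - (p + p ^ 2) : ℤ) = 2 * p + p ^ 2 by ring] at this
        · rw [← S.hx.comm _ _ _ hY, huD]
      obtain ⟨ν, hν, U, hU, hU'⟩ := hε _ hz
      obtain ⟨V, hV, hV'⟩ := surj S.hx hp1 S.pos (by nlinarith) hν.1
      obtain ⟨V', hV1, hV2⟩ := surj S.hx hp1 S.pos (by nlinarith) hU
      rw [show (2 * p + 2 * p ^ 2 + (p + p ^ 2) : ℤ) = 3 * p + 3 * p ^ 2 by ring] at hV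
      rw [show (2 * p + p ^ 2 + (p + p ^ 2) : ℤ) = 3 * p + 2 * p ^ 2 by ring] at hV1
      have hkV : Dk V ∈ F.K 4 (3 * p + 2 * p ^ 2) := by
        have := S.kmem _ _ _ hV
        rwa [show (3 * p + 3 * p ^ 2 - p ^ 2 : ℤ) = 3 * p + 2 * p ^ 2 by ring] at this
      refine ⟨F.d 4 V, ⟨⟨F.d_mem _ _ _ hV, ?_⟩, F.d_d _ _ _ hV⟩, Y - Dk V - F.d 3 V',
        (mem_ker S.hx).2 ⟨sub_mem (sub_mem hY hkV) (F.d_mem _ _ _ hV1), ?_⟩, ?_⟩
      · change Dx (F.d 4 V) = 0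
        rw [S.hx.comm _ _ _ hV, hV', hν.2]
      · rw [map_sub, map_sub, S.kx _ _ _ hV, hV', S.hx.comm _ _ _ hV1, hV2, hU', sub_self]
      · change F.d 4 _ = _
        rw [map_sub, map_sub, F.d_d _ _ _ hV1, S.kcomm _ _ _ hV, sub_zero]
    · intro s' _
      exact ex_neg S.hk hK2 (by nlinarith)
  refine step S.hy hp1 (fun z hz _ => e1 z hz) ?_ ?_
  · rintro s' hs u hu -
    obtain rfl : s' = 6 := by omega
    refine ⟨0, Z.zero _ _, ?_⟩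
    rw [map_zero, sub_zero]
    rw [show (4 * p + 3 * p ^ 2 - p : ℤ) = 3 * p + 3 * p ^ 2 by ring] at hu ⊢
    exact e2 u hu
  · intro s' hs
    obtain rfl : s' = 5 := by omega
    rw [show (4 * p + 3 * p ^ 2 - p * p : ℤ) = 4 * p + 2 * p ^ 2 by ring]
    exact hc

end Vale.Agent.P257.SG
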