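import Vale.Agent.P257.SG.S2ops
import Vale.Agent.P257.SG.S2abs

/-! `Ext_P^(6, 4 p + 3 p ^ 2) = 0` and `Ext_P^(7, 4 p + 3 p ^ 2) = 0`. -/

namespace Vale.Agent.P257.SG

open MvPolynomial Finset Vale.Agent.P257.Q.PC Vale.Agent.P257.X Vale.Agent.P257.E

set_option linter.unusedSectionVars false

variable {p : ℕ} [Fact p.Prime]

theorem wt0 : wt p 0 = 1 := by simp [wt]

theorem wt1 : wt p 1 = 1 + p := by simp [wt, Finset.sum_range_succ]

theorem wt2 : wt p 2 = 1 + p + p ^ 2 := by simp [wt, Finset.sum_range_succ]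

theorem wt3 : wt p 3 = 1 + p + p ^ 2 + p ^ 3 := by simp [wt, Finset.sum_range_succ]

/-! ### Counting -/

theorem mon1 {s n : ℕ} (h : Vale.Agent.P257.N.Mon p (LA 1) s n) (hn : n < p ^ 3) :
    (s = 0 ∧ n = 0) ∨ (s = 1 ∧ n = 1 + p + p ^ 2) := by
  obtain ⟨ε, m, s', N', hε, hs, hN, hs', hN'⟩ := h
  subst hs' hN'
  rw [Vale.Agent.P257.N.lw] at hN
  dsimp only at hN
  rw [wt2, pow_zero, one_mul, add_zero] at hN
  have hm : m = 0 := by
    rcases Nat.eq_zero_or_pos m with h | h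
    · exact h
    · exfalso
      nlinarith [Nat.zero_le ε, Nat.zero_le p, Nat.zero_le (p ^ 2), Nat.zero_le (m * p),
        mul_le_mul h (le_refl (p * (1 + p + p ^ 2))) (Nat.zero_le _) (Nat.zero_le _)]
  subst hm
  interval_cases ε
  · left; omega
  · right
    refine ⟨by omega, ?_⟩
    rw [hN]; ring

theorem mon2 {s n : ℕ} (h : Vale.Agent.P257.N.Mon p (LA 2) s n) (hn : n < p ^ 3) :
    ∃ e m : ℕ, e ≤ 2 ∧ s = e + 2 * m ∧ ∃ x, n = e + p * x ∧ (e = 0 → x = m * (1 + p)) := by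
  obtain ⟨ε, m, s', N', hε, hs, hN, h⟩ := h
  rw [Vale.Agent.P257.N.lw] at hN
  dsimp only at hN
  rw [wt1, pow_zero, one_mul] at hN
  rcases mon1 h (by omega) with ⟨rfl, rfl⟩ | ⟨rfl, rfl⟩
  · refine ⟨ε, m, by omega, by omega, ε + m * (1 + p), ?_, ?_⟩
    · rw [hN]; ring
    · rintro rfl; ring
  · refine ⟨ε + 1, m, by omega, by omega, ε + m * (1 + p) + 1 + p, ?_, ?_⟩
    · rw [hN]; ring
    · intro h; omega

theorem mon3 {s n : ℕ} (h : Vale.Agent.P257.N.Mon p (LA 3) s n) (hn : n < p ^ 3) :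
    ∃ e m m' : ℕ, e ≤ 3 ∧ s = e + 2 * (m + m') ∧
      ∃ x, n = e + p * x ∧ (e = 0 → x = m' + m * (1 + p)) := by
  obtain ⟨ε, m', s', N', hε, hs, hN, h⟩ := h
  rw [Vale.Agent.P257.N.lw] at hN
  dsimp only at hN
  rw [wt0, pow_zero, one_mul, mul_one] at hN
  obtain ⟨e, m, he, hs', x, hx, hx'⟩ := mon2 h (by omega)
  refine ⟨ε + e, m, m', by omega, by omega, m' + x, ?_, ?_⟩
  · rw [hN, hx]; ring
  · intro h
    rw [hx' (by omega)]

theorem small_zero {k y : ℤ} (h : k = p * y) (h1 : -(p : ℤ) < k) (h2 : k < p) : k = 0 ∧ y = 0 := by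
  have hp : (0 : ℤ) < p := by exact_mod_cast (Fact.out : p.Prime).pos
  have hy : y = 0 := by
    have h3 : y < 1 := by
      by_contra h4
      have : (p : ℤ) * 1 ≤ p * y := mul_le_mul_of_nonneg_left (not_lt.1 h4) hp.le
      omega
    have h4 : -1 < y := by
      by_contra h4
      have : (p : ℤ) * y ≤ p * (-1) := mul_le_mul_of_nonneg_left (not_lt.1 h4) hp.le
      omega
    omega
  exact ⟨by rw [h, hy, mul_zero], hy⟩

section Count

variable (hp : 5 ≤ p)
include hp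

theorem no2_neg {s : ℕ} {N y : ℤ} (hN : N = p * y - 1) (hN3 : N < p ^ 3) :
    NoM p (LA 2) s N := by
  intro n hn h
  have hp' : (5 : ℤ) ≤ p := by exact_mod_cast hp
  have hn3 : n < p ^ 3 := by
    have : (n : ℤ) < p ^ 3 := by rw [hn]; exact hN3
    exact_mod_cast this
  obtain ⟨e, m, he, hs, x, hx, -⟩ := mon2 h hn3
  have h1 : (n : ℤ) = e + p * x := by rw [hx]; push_cast; ring
  have he' : (e : ℤ) ≤ 2 := by exact_mod_cast he
  have h2 : ((e : ℤ) + 1) = p * (y - x) := by linarith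
  have := small_zero h2 (by omega) (by omega)
  omega

theorem no2 {s : ℕ} {N y : ℤ} (hN : N = p * y) (hN3 : N < p ^ 3)
    (H : ∀ m : ℕ, s = 2 * m → y = m * (1 + p) → False) : NoM p (LA 2) s N := by
  intro n hn h
  have hp' : (5 : ℤ) ≤ p := by exact_mod_cast hp
  have hn3 : n < p ^ 3 := by
    have : (n : ℤ) < p ^ 3 := by rw [hn]; exact hN3
    exact_mod_cast this
  obtain ⟨e, m, he, hs, x, hx, hx'⟩ := mon2 h hn3
  have h1 : (n : ℤ) = e + p * x := by rw [hx]; push_cast; ring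
  have he' : (e : ℤ) ≤ 2 := by exact_mod_cast he
  have h2 : (e : ℤ) = p * (y - x) := by linarith
  obtain ⟨h3, h4⟩ := small_zero h2 (by omega) (by omega)
  have h5 : e = 0 := by exact_mod_cast h3
  have h6 := hx' h5
  refine H m (by omega) ?_
  have : y = x := by omega
  rw [this, h6]; push_cast; ring

theorem no3 {s : ℕ} {N y : ℤ} (hN : N = p * y) (hN3 : N < p ^ 3)
    (H : ∀ m m' : ℕ, s = 2 * (m + m') → y = m' + m * (1 + p) → False) : NoM p (LA 3) s N := by
  intro n hn h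
  have hp' : (5 : ℤ) ≤ p := by exact_mod_cast hp
  have hn3 : n < p ^ 3 := by
    have : (n : ℤ) < p ^ 3 := by rw [hn]; exact hN3
    exact_mod_cast this
  obtain ⟨e, m, m', he, hs, x, hx, hx'⟩ := mon3 h hn3
  have h1 : (n : ℤ) = e + p * x := by rw [hx]; push_cast; ring
  have he' : (e : ℤ) ≤ 3 := by exact_mod_cast he
  have h2 : (e : ℤ) = p * (y - x) := by linarith
  obtain ⟨h3, h4⟩ := small_zero h2 (by omega) (by omega)
  have h5 : e = 0 := by exact_mod_cast h3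
  have h6 := hx' h5
  refine H m m' (by omega) ?_
  have : y = x := by omega
  rw [this, h6]; push_cast; ring

/-- The letter `h_30` alone. -/
theorem no1 {s : ℕ} {N y : ℤ} {r : ℤ} (hN : N = p * y - r) (hN3 : N < p ^ 3)
    (hr : 0 ≤ r) (hr' : r ≤ 3) (H : s = 0 → r = 0 → y = 0 → False) : NoM p (LA 1) s N := by
  intro n hn h
  have hp' : (5 : ℤ) ≤ p := by exact_mod_cast hp
  have hn3 : n < p ^ 3 := by
    have : (n : ℤ) < p ^ 3 := by rw [hn]; exact hN3
    exact_mod_cast this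
  rcases mon1 h hn3 with ⟨rfl, rfl⟩ | ⟨rfl, rfl⟩
  · have h2 : r = p * y := by
      rw [hN] at hn
      push_cast at hn
      linarith
    obtain ⟨h3, h4⟩ := small_zero h2 (by omega) (by omega)
    exact H rfl h3 h4
  · have h2 : r + 1 = p * (y - 1 - p) := by
      rw [hN] at hn
      push_cast at hn
      linarith
    obtain ⟨h3, h4⟩ := small_zero h2 (by omega) (by omega)
    omega

theorem ex_FF {s a b : ℕ} (h7 : s ≤ 7) (hs : s ≠ 2 * a) (ha : a ≤ 4) (hb : b ≤ 3) :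
    (FF p).Ex s (a * p + b * p ^ 2) := by
  have hp' : (5 : ℤ) ≤ p := by exact_mod_cast hp
  have q1 : (5 : ℤ) * p ≤ p ^ 2 := by nlinarith
  have q2 : (5 : ℤ) * p ^ 2 ≤ p ^ 3 := by nlinarith
  have ha' : (a : ℤ) ≤ 4 := by exact_mod_cast ha
  have hb' : (b : ℤ) ≤ 3 := by exact_mod_cast hb
  have hN3 : (a * p + b * p ^ 2 : ℤ) < p ^ 3 := by nlinarith
  refine iso.ex_iff.1 ?_
  refine exA 3 le_rfl ?_ (no3 hp (y := a + b * p) (by ring) hN3 ?_)
  · rw [wt3]; push_cast; nlinarith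
  · intro m m' h1 h2
    have h3 : ((m + m' : ℕ) : ℤ) - a = p * (b - m) := by push_cast; linarith
    have h4 : ((m + m' : ℕ) : ℤ) ≤ 3 := by
      have : m + m' ≤ 3 := by omega
      exact_mod_cast this
    have := (small_zero h3 (by omega) (by omega)).1
    have : m + m' = a := by omega
    omega

end Count

/-! ### Linearity -/

theorem mb_smul (n : ℕ) (c : ZMod p) (f : KP p) : mb p n (c • f) = c • mb p n f := by
  rw [mb_apply, mb_apply, map_smul, map_smul, mul_smul_comm]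

theorem DW_smul (c : ZMod p) (f : KP p) : DW p (c • f) = c • DW p f := map_smul (Tk p p) c f

theorem B_smul {s : ℕ} {N : ℤ} (c : ZMod p) {f : KP p} (hf : (FF p).B s N f) :
    (FF p).B s N (c • f) := by
  cases s with
  | zero =>
    have h : f = 0 := hf
    rw [h, smul_zero]
    exact Cpx.B.zero _ _
  | succ s =>
    obtain ⟨g, hg, rfl⟩ := hf
    have hg' : g ∈ Co2 p s N := hg
    exact ⟨c • g, (show c • g ∈ Co2 p s N from Submodule.smul_mem _ c hg'), map_smul (d2 p s) c g⟩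

theorem Z_smul {s : ℕ} {N : ℤ} (c : ZMod p) {f : KP p} (hf : (FF p).Z s N f) :
    (FF p).Z s N (c • f) := by
  have h1 : f ∈ Co2 p s N := hf.1
  refine ⟨(show c • f ∈ Co2 p s N from Submodule.smul_mem _ c h1), ?_⟩
  have h2 : d2 p s f = 0 := hf.2
  change d2 p s (c • f) = 0
  rw [map_smul, h2, smul_zero]

theorem DW_mem {s : ℕ} {N M : ℤ} (hM : M = N - p ^ 2) {f : KP p} (hf : f ∈ (FF p).K s N) :
    DW p f ∈ (FF p).K s M := by
  have := Tk_mem hf p
  rw [← sq] at this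
  rw [hM]
  exact this

theorem DW_comm (s : ℕ) (f : KP p) : DW p ((FF p).d s f) = (FF p).d s (DW p f) := Tk_d2 p s f

theorem DW_B {s : ℕ} {N M : ℤ} (hM : M = N - p ^ 2) {f : KP p} (hf : (FF p).B s N f) :
    (FF p).B s M (DW p f) := by
  cases s with
  | zero =>
    have h : f = 0 := hf
    rw [h, map_zero]
    exact Cpx.B.zero _ _
  | succ s =>
    obtain ⟨g, hg, rfl⟩ := hf
    exact ⟨DW p g, DW_mem hM hg, (DW_comm s g).symm⟩

theorem DW_Z {s : ℕ} {N M : ℤ} (hM : M = N - p ^ 2) {f : KP p} (hf : (FF p).Z s N f) :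
    (FF p).Z s M (DW p f) :=
  ⟨DW_mem hM hf.1, by rw [← DW_comm, hf.2, map_zero]⟩

theorem DW_iter_B {s : ℕ} (k : ℕ) {N M : ℤ} (hM : M = N - k * p ^ 2) {f : KP p}
    (hf : (FF p).B s N f) : (FF p).B s M ((DW p)^[k] f) := by
  subst hM
  induction k with
  | zero => simpa using hf
  | succ k ih =>
    rw [Function.iterate_succ_apply']
    exact DW_B (by push_cast; ring) ih

theorem DW_iter_smul (k : ℕ) (c : ZMod p) (f : KP p) :
    (DW p)^[k] (c • f) = c • (DW p)^[k] f := by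
  induction k with
  | zero => rfl
  | succ k ih => rw [Function.iterate_succ_apply', ih, DW_smul, Function.iterate_succ_apply']

theorem Z_zero_zero {f : KP p} (hf : (FF p).Z 0 0 f) : ∃ c : ZMod p, f = c • (1 : KP p) := by
  refine ⟨constantCoeff f, ?_⟩
  have h1 := (mem_FF.1 hf.1).1
  ext u
  rw [coeff_smul, coeff_one]
  by_cases h : 0 = u
  · subst h
    rw [if_pos rfl, smul_eq_mul, mul_one]
    rfl
  · rw [if_neg h, smul_zero]
    by_contra h0
    have h2 := h1 h0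
    rw [Finsupp.weight_apply, Finsupp.sum] at h2
    obtain ⟨x, hx⟩ : ∃ x, u x ≠ 0 := by
      by_contra h3
      exact h (Finsupp.ext fun x => (not_not.1 fun h4 => h3 ⟨x, h4⟩).symm)
    have h3 : ∀ x ∈ u.support, 0 ≤ u x • W2 p x := fun x _ => by
      rw [nsmul_eq_mul, W2]
      split_ifs <;> positivity
    have h4 := (Finset.sum_eq_zero_iff_of_nonneg h3).1 h2 x (Finsupp.mem_support_iff.2 hx)
    rw [nsmul_eq_mul] at h4
    have h5 : 0 < W2 p x := by
      have h6 := wt_pos (p := p) x.2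
      have h7 := (Fact.out : p.Prime).pos
      rw [W2]
      split_ifs <;> positivity
    rcases mul_eq_zero.1 h4 with h6 | h6
    · exact hx (by exact_mod_cast h6)
    · omega

theorem Tk_one (k : ℕ) : Tk p k (1 : KP p) = if k = 0 then 1 else 0 := by
  rw [Tk_apply, map_one, Polynomial.coeff_one]

theorem Tk_X (k : ℕ) (x : ℕ × ℕ) : Tk p k (X x) = (if k = 0 then X x else 0) +
    if x.1 = 0 then (if k = p ^ x.2 then tt p 0 x.2 else 0) else 0 := by
  rw [Tk_apply, T_X]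
  split_ifs <;> simp_all [Polynomial.coeff_C, Polynomial.coeff_X_pow]

theorem pderiv_Tk_X {k : ℕ} (hk : k < p ^ 2) (x : ℕ × ℕ) :
    pderiv vz (Tk p k (X x)) = Tk p k (pderiv vz (X x)) := by
  have key : Tk p k (pderiv vz (X x)) = if x = vz then (if k = 0 then 1 else 0) else 0 := by
    by_cases h1 : x = vz
    · rw [if_pos h1, h1, pderiv_X_self, Tk_one]
    · rw [if_neg h1, pderiv_X_of_ne h1, map_zero]
  rw [key, Tk_X, map_add]
  have h3 : pderiv vz (if x.1 = 0 then (if k = p ^ x.2 then tt p 0 x.2 else 0) else 0 : KP p) =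
      0 := by
    split_ifs with h4 h5
    · obtain ⟨l, n⟩ := x
      dsimp only at h4 h5 ⊢
      rw [tt]
      split_ifs with h6
      · exact Derivation.map_one_eq_zero _
      · rw [pderiv_X_of_ne]
        intro h7
        rw [Prod.mk.injEq] at h7
        have : n = 2 := by omega
        subst this
        omega
    · exact map_zero _
    · exact map_zero _
  rw [h3, add_zero]
  split_ifs with h4 h5 h5
  · rw [h5, pderiv_X_self]
  · rw [pderiv_X_of_ne h5]
  · exact map_zero _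
  · exact map_zero _

theorem pderiv_Tk {k : ℕ} (hk : k < p ^ 2) (f : KP p) :
    pderiv vz (Tk p k f) = Tk p k (pderiv vz f) := by
  induction f using MvPolynomial.induction_on generalizing k with
  | C a =>
    have h1 : (C a : KP p) = a • 1 := by rw [smul_eq_C_mul, mul_one]
    rw [h1, map_smul, Derivation.map_smul, Derivation.map_smul, Derivation.map_one_eq_zero,
      smul_zero, map_zero, Tk_one]
    split_ifs
    · rw [Derivation.map_one_eq_zero, smul_zero]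
    · rw [map_zero, smul_zero]
  | add f g hf hg => rw [map_add, map_add, map_add, map_add, hf hk, hg hk]
  | mul_X f x hf =>
    rw [Tk_mul, map_sum, pderiv_mul, map_add, Tk_mul, Tk_mul, ← Finset.sum_add_distrib]
    refine Finset.sum_congr rfl fun y hy => ?_
    rw [HasAntidiagonal.mem_antidiagonal] at hy
    rw [pderiv_mul, hf (by omega), pderiv_Tk_X (by omega)]

theorem one_Z : (FF p).Z 0 0 (1 : KP p) := by
  refine ⟨mem_FF.2 ⟨isWeightedHomogeneous_one _ _, one_mem _⟩, ?_⟩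
  change d2 p 0 1 = 0
  rw [d2_apply]
  simp

theorem pw_Z_zero (j : ℕ) : (FF p).Z (2 * j) (j * p) (pw p 0 j) := by
  induction j with
  | zero => simpa [pw] using one_Z (p := p)
  | succ j ih =>
    rw [pw_succ, show 2 * (j + 1) = 2 * j + 2 by ring]
    refine mb_Z (by norm_num) ?_ ih
    rw [wt0]; push_cast; ring

theorem pw_Z_one (j : ℕ) : (FF p).Z (2 * j) (j * (p + p ^ 2)) (pw p 1 j) := by
  induction j with
  | zero => simpa [pw] using one_Z (p := p)
  | succ j ih =>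
    rw [pw_succ, show 2 * (j + 1) = 2 * j + 2 by ring]
    refine mb_Z le_rfl ?_ ih
    rw [wt1]; push_cast; ring

section Main

variable (hp : 5 ≤ p)
include hp

theorem epi2 {k : ℕ} (hk : k ≤ 2) {ω : KP p}
    (hω : (FF p).Z (2 * (k + 1)) ((k + 1 : ℕ) * (p + p ^ 2)) ω) :
    ∃ g, (FF p).Z (2 * k) (k * (p + p ^ 2)) g ∧
      (FF p).B (2 * (k + 1)) ((k + 1 : ℕ) * (p + p ^ 2)) (ω - mb p 1 g) := by
  have hp' : (5 : ℤ) ≤ p := by exact_mod_cast hp
  have q1 : (5 : ℤ) * p ≤ p ^ 2 := by nlinarith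
  have q2 : (5 : ℤ) * p ^ 2 ≤ p ^ 3 := by nlinarith
  have hk' : (k : ℤ) ≤ 2 := by exact_mod_cast hk
  have hN : (((k + 1 : ℕ) : ℤ) * (p + p ^ 2)) = (k * (p + p ^ 2)) + p * wt p 1 := by
    rw [wt1]; push_cast; ring
  have hN3 : (((k + 1 : ℕ) : ℤ) * (p + p ^ 2)) < p ^ 3 := by push_cast; nlinarith
  rw [hN] at hω ⊢
  refine mb_epi le_rfl (cone2 ?_ ?_ ?_) hω
  · rw [← hN, wt3]; push_cast at hN3 ⊢; nlinarith
  · intro s' ε j hε hs
    rw [← hN]
    have hε' : (ε : ℤ) ≤ 1 := by exact_mod_cast hε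
    have h0 : (0 : ℤ) ≤ (ε : ℤ) + p * j := by positivity
    refine no1 hp (y := (k + 1) * (1 + p) - j) (r := ε) (by push_cast; ring) (by omega)
      (by positivity) (by omega) ?_
    intro h1 h2 h3
    have h4 : j = k + 1 := by
      have : ε = 0 := by exact_mod_cast h2
      omega
    subst h4
    push_cast at h3
    have h5 : ((k : ℤ) + 1) * p = 0 := by linarith
    have h6 : 0 < ((k : ℤ) + 1) * p := by positivity
    omega
  · intro s' ε j hε hs
    rw [← hN]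
    have hε' : (ε : ℤ) ≤ 1 := by exact_mod_cast hε
    have h0 : (0 : ℤ) ≤ (ε : ℤ) + p * j := by positivity
    have h1 : (0 : ℤ) ≤ wt p 1 := by positivity
    refine no1 hp (y := (k + 1) * (1 + p) - j - 1) (r := ε + 1) (by rw [wt1]; push_cast; ring)
      (by omega) (by positivity) (by omega) ?_
    intro h1 h2 h3
    have : (0 : ℤ) ≤ ε := by positivity
    omega

theorem span2 {k : ℕ} (hk : k ≤ 3) {ω : KP p}
    (hω : (FF p).Z (2 * k) (k * (p + p ^ 2)) ω) : ∃ c : ZMod p,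
      (FF p).B (2 * k) (k * (p + p ^ 2)) (ω - c • pw p 1 k) := by
  induction k generalizing ω with
  | zero =>
    rw [Nat.cast_zero, zero_mul, mul_zero] at hω
    obtain ⟨c, hc⟩ := Z_zero_zero hω
    refine ⟨c, ?_⟩
    rw [hc, pw, Function.iterate_zero, id_eq, sub_self]
    exact Cpx.B.zero _ _
  | succ k ih =>
    obtain ⟨g, hg, hg'⟩ := epi2 hp (by omega) hω
    obtain ⟨c, hc⟩ := ih (by omega) hg
    refine ⟨c, ?_⟩
    have h1 := mb_B (n := 1) le_rfl (M := ((k + 1 : ℕ) : ℤ) * (p + p ^ 2)) (by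
      rw [wt1]; push_cast; ring) hc
    have h2 := hg'.add h1
    rw [map_sub, mb_smul, ← pw_succ, sub_add_sub_cancel] at h2
    exact h2

/-- `B_1` is onto. -/
theorem epi1 {s : ℕ} {N y : ℤ} (hN : N + p = p * y) (hN3 : N + p < p ^ 3)
    (H : ∀ m : ℕ, s + 2 = 2 * m → y = m * (1 + p) → False) {ω : KP p}
    (hω : (FF p).Z (s + 2) (N + p) ω) :
    ∃ g, (FF p).Z s N g ∧ (FF p).B (s + 2) (N + p) (ω - mb p 0 g) := by
  have h0 : (N + p : ℤ) = N + p * wt p 0 := by rw [wt0]; push_cast; ring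
  rw [h0] at hω ⊢
  refine mb_epi (by norm_num) (cone1 ?_ ?_ ?_) hω
  · rw [← h0, wt3]; push_cast; nlinarith [Nat.zero_le p]
  · rw [← h0]
    exact no2 hp hN hN3 H
  · intro s' _
    rw [← h0]
    exact no2_neg hp (y := y) (by rw [hN]) (by omega)

/-- `B_1` is injective. -/
theorem mono1 {s : ℕ} {N y : ℤ} (hN : N + p = p * y) (hN3 : N + p < p ^ 3)
    (H : ∀ m : ℕ, s + 1 = 2 * m → y = m * (1 + p) → False) {g : KP p}
    (hg : (FF p).Z s N g) (hb : (FF p).B (s + 2) (N + p) (mb p 0 g)) : (FF p).B s N g := by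
  have h0 : (N + p : ℤ) = N + p * wt p 0 := by rw [wt0]; push_cast; ring
  rw [h0] at hb
  refine mb_mono (by norm_num) (cone1 ?_ ?_ ?_) hg hb
  · rw [← h0, wt3]; push_cast; nlinarith [Nat.zero_le p]
  · rw [← h0]
    exact no2 hp hN hN3 H
  · intro s' _
    rw [← h0]
    exact no2_neg hp (y := y) (by rw [hN]) (by omega)

theorem nonzero {j : ℕ} (hj : j ≤ 3) {c : ZMod p}
    (h : (FF p).B (2 * j) (j * p) (c • pw p 0 j)) : c = 0 := by
  have hp' : (5 : ℤ) ≤ p := by exact_mod_cast hp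
  have q1 : (5 : ℤ) * p ≤ p ^ 2 := by nlinarith
  have q2 : (5 : ℤ) * p ^ 2 ≤ p ^ 3 := by nlinarith
  induction j with
  | zero =>
    have h1 : c • (1 : KP p) = 0 := h
    rw [smul_eq_C_mul, mul_one] at h1
    exact (C_injective _ _) (by rw [h1, C_0])
  | succ j ih =>
    have hj' : (j : ℤ) + 1 ≤ 3 := by exact_mod_cast hj
    rw [pw_succ, ← mb_smul, show 2 * (j + 1) = 2 * j + 2 by ring,
      show (((j + 1 : ℕ) : ℤ) * p) = j * p + p by push_cast; ring] at h
    refine ih (by omega) (mono1 hp (y := j + 1) (by ring) (by nlinarith) ?_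
      (Z_smul c (pw_Z_zero j)) h)
    intro m hm _
    omega

theorem fact_ne_zero {j : ℕ} (hj : j ≤ 3) : ((j.factorial : ℕ) : ZMod p) ≠ 0 := by
  rw [Ne, ZMod.natCast_eq_zero_iff, (Fact.out : p.Prime).dvd_factorial]
  omega

theorem inj2 {j : ℕ} (hj : j ≤ 2) {ω : KP p}
    (hω : (FF p).Z (2 * (j + 1)) ((j + 1 : ℕ) * (p + p ^ 2)) ω)
    (hb : (FF p).B (2 * (j + 1)) ((j + 1 : ℕ) * (p + p ^ 2) - p ^ 2) (DW p ω)) :
    (FF p).B (2 * (j + 1)) ((j + 1 : ℕ) * (p + p ^ 2)) ω := by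
  obtain ⟨c, hc⟩ := span2 hp (by omega) hω
  have h1 := DW_B rfl hc
  have h2 := hb.sub h1
  rw [map_sub, sub_sub_cancel] at h2
  have h3 := DW_iter_B j (M := ((j + 1 : ℕ) : ℤ) * p) (by push_cast; ring) h2
  rw [← Function.iterate_succ_apply, DW_iter_smul, DW_pw, smul_smul] at h3
  have h4 := nonzero hp (by omega) h3
  have h5 : c = 0 := (mul_eq_zero.1 h4).resolve_right (fact_ne_zero hp (by omega))
  rw [h5, zero_smul, sub_zero] at hc
  exact hc

theorem DW_pw_one : DW p (pw p 1 1) = pw p 0 1 := by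
  have := DW_pw (p := p) 1
  rw [Function.iterate_one, Nat.factorial_one, Nat.cast_one, one_smul] at this
  exact this

theorem hγ (ω : KP p) (hω : (FF p).Z 6 (3 * p + 2 * p ^ 2) ω)
    (hb : (FF p).B 6 (3 * p + p ^ 2) (DW p ω)) : (FF p).B 6 (3 * p + 2 * p ^ 2) ω := by
  have hp' : (5 : ℤ) ≤ p := by exact_mod_cast hp
  have q1 : (5 : ℤ) * p ≤ p ^ 2 := by nlinarith
  have q2 : (5 : ℤ) * p ^ 2 ≤ p ^ 3 := by nlinarith
  have e1 : (3 * p + 2 * p ^ 2 : ℤ) = (2 : ℕ) * (p + p ^ 2) + p := by push_cast; ring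
  rw [e1] at hω ⊢
  obtain ⟨g, hg, hg'⟩ := epi1 hp (s := 4) (y := 3 + 2 * p) (by push_cast; ring)
    (by push_cast; nlinarith) (by
      intro m hm h
      obtain rfl : m = 3 := by omega
      push_cast at h
      nlinarith) hω
  obtain ⟨c, hc⟩ := span2 hp (k := 2) (by norm_num) hg
  have h1 := mb_B (n := 0) (by norm_num) (M := (2 : ℕ) * (p + p ^ 2) + p) (by
    rw [wt0]; push_cast; ring) hc
  have h2 := hg'.add h1
  rw [map_sub, mb_smul, sub_add_sub_cancel] at h2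
  have h3 := DW_B (M := 3 * p + p ^ 2) (by push_cast; ring) h2
  have h4 := hb.sub h3
  rw [map_sub, sub_sub_cancel] at h4
  have h5 := DW_B (M := (3 : ℕ) * p) (by push_cast; ring) h4
  rw [DW_smul, DW_smul, DW_mb_zero, DW_mb_zero] at h5
  have h6 : DW p (DW p (pw p 1 2)) = ((2 : ℕ).factorial : ZMod p) • pw p 0 2 := DW_pw 2
  rw [h6, mb_smul, ← pw_succ, smul_smul] at h5
  have h7 := nonzero hp (j := 3) le_rfl h5
  have h8 : c = 0 := (mul_eq_zero.1 h7).resolve_right (fact_ne_zero hp (by norm_num))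
  rw [h8, zero_smul, sub_zero] at h2
  exact h2

theorem span21 {ω : KP p} (hω : (FF p).Z 4 (2 * p + p ^ 2) ω) :
    ∃ c : ZMod p, (FF p).B 4 (2 * p + p ^ 2) (ω - c • mb p 0 (pw p 1 1)) := by
  have hp' : (5 : ℤ) ≤ p := by exact_mod_cast hp
  have q1 : (5 : ℤ) * p ≤ p ^ 2 := by nlinarith
  have q2 : (5 : ℤ) * p ^ 2 ≤ p ^ 3 := by nlinarith
  have e1 : (2 * p + p ^ 2 : ℤ) = (1 : ℕ) * (p + p ^ 2) + p := by push_cast; ring
  rw [e1] at hω ⊢
  obtain ⟨g, hg, hg'⟩ := epi1 hp (s := 2) (y := 2 + p) (by push_cast; ring)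
    (by push_cast; nlinarith) (by
      intro m hm h
      obtain rfl : m = 2 := by omega
      push_cast at h
      nlinarith) hω
  obtain ⟨c, hc⟩ := span2 hp (k := 1) (by norm_num) hg
  refine ⟨c, ?_⟩
  have h1 := mb_B (n := 0) (by norm_num) (M := (1 : ℕ) * (p + p ^ 2) + p) (by
    rw [wt0]; push_cast; ring) hc
  have h2 := hg'.add h1
  rw [map_sub, mb_smul, sub_add_sub_cancel] at h2
  exact h2

theorem hε (ω : KP p) (hω : (FF p).Z 4 (2 * p + p ^ 2) ω) :
    ∃ ν, (FF p).Z 4 (2 * p + 2 * p ^ 2) ν ∧ (FF p).B 4 (2 * p + p ^ 2) (ω - DW p ν) := by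
  obtain ⟨c, hc⟩ := span21 hp hω
  have hP := pw_Z_one (p := p) 2
  have e1 : (((2 : ℕ) : ℤ) * (p + p ^ 2)) = 2 * p + 2 * p ^ 2 := by push_cast; ring
  rw [e1] at hP
  have hκ := DW_Z (M := 2 * p + p ^ 2) (by ring) hP
  obtain ⟨c', hc'⟩ := span21 hp hκ
  -- `c' = 2`
  have h1 := DW_B (M := (2 : ℕ) * p) (by push_cast; ring) hc'
  have h6 : DW p (DW p (pw p 1 2)) = ((2 : ℕ).factorial : ZMod p) • pw p 0 2 := DW_pw 2
  rw [map_sub, h6, DW_smul, DW_mb_zero, DW_pw_one hp, ← pw_succ, ← sub_smul] at h1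
  have h2 := nonzero hp (j := 2) (by norm_num) h1
  have h3 : c' = ((2 : ℕ).factorial : ZMod p) := (sub_eq_zero.1 h2).symm
  have h4 : c' ≠ 0 := by rw [h3]; exact fact_ne_zero hp (by norm_num)
  refine ⟨(c * c'⁻¹) • pw p 1 2, Z_smul _ hP, ?_⟩
  have h5 := hc.sub (B_smul (c * c'⁻¹) hc')
  rw [smul_sub, smul_smul, mul_assoc, inv_mul_cancel₀ h4, mul_one, ← DW_smul,
    sub_sub_sub_cancel_right] at h5
  exact h5

/-- The setting of `S2abs`. -/
theorem set2 : Set2 p (FF p) (DD p 1) (DW p) (DD p 0) where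
  hp := hp
  pos := by
    intro s N f hf hN
    have h1 := (mem_FF.1 hf).1
    by_contra h0
    obtain ⟨u, hu⟩ := exists_coeff_ne_zero h0
    have h2 := h1 hu
    rw [Finsupp.weight_apply, Finsupp.sum] at h2
    have h3 : 0 ≤ ∑ x ∈ u.support, u x • W2 p x := Finset.sum_nonneg fun x _ => by
      rw [nsmul_eq_mul, W2]
      split_ifs <;> positivity
    omega
  hx := derZ
  hk := dW
  hy := dY
  kmem s N f hf := DW_mem rfl hf
  kcomm s N f _ := DW_comm s f
  kx s N f _ := pderiv_Tk (by nlinarith) f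
  cnt s a b h7 hs ha hb := ex_FF hp h7 hs ha hb

theorem K0_ex6 (hc : (K0 p).Ex 4 (4 * p + 2 * p ^ 2)) : (K0 p).Ex 6 (4 * p + 3 * p ^ 2) := by
  refine (set2 hp).ex6 (fun ω h1 h2 => ?_) hc
  have := inj2 hp (j := 1) (by norm_num) (ω := ω)
  norm_num at this
  rw [show (2 * (p + p ^ 2) : ℤ) = 2 * p + 2 * p ^ 2 by ring,
    show (2 * p + 2 * p ^ 2 - p ^ 2 : ℤ) = 2 * p + p ^ 2 by ring] at this
  exact this h1 h2

theorem K0_ex7 (hc : (K0 p).Ex 5 (4 * p + 2 * p ^ 2)) : (K0 p).Ex 7 (4 * p + 3 * p ^ 2) := by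
  refine (set2 hp).ex7 (hγ hp) (fun ω h1 h2 => ?_) (hε hp) hc
  have := inj2 hp (j := 2) (by norm_num) (ω := ω)
  norm_num at this
  rw [show (3 * (p + p ^ 2) : ℤ) = 3 * p + 3 * p ^ 2 by ring,
    show (3 * p + 3 * p ^ 2 - p ^ 2 : ℤ) = 3 * p + 2 * p ^ 2 by ring] at this
  exact this h1 h2

end Main

end Vale.Agent.P257.SG
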