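import Vale.Agent.P257.SG.S2
import Vale.Agent.P257.SG.Bridge

/-! The small groups `S2`, `S2'`. -/

namespace Vale.Agent.P257.SG

open Vale.Agent.P257.Q.PC Vale.Agent.P257.X Vale.Agent.P257.N

theorem nm45_aux {p s h10 h20 h30 h40 h11 h21 h31 h12 h22 h13 b10 b20 b30 b11 b21 b12 : ℕ}
    (hp : 11 ≤ p) (hs5 : s ≤ 5) (l11 : h11 ≤ 1) (l21 : h21 ≤ 1)
    (hs : s = h10 + h20 + h30 + h40 + h11 + h21 + h31 + h12 + h22 + h13 +
      2 * (b10 + b20 + b30 + b11 + b21 + b12))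
    (hN : (h10 + h20 + h30 + h40) + p * ((h11 + h21 + h31 + h20 + h30 + h40 + b10 + b20 + b30) +
      p * ((h12 + h22 + h21 + h31 + h30 + h40 + b20 + b30 + b11 + b21) +
        p * (h13 + h22 + h31 + h40 + b30 + b21 + b12))) = 0 + p * (4 + p * (2 + p * 0))) :
    False := by
  have w1 : h10 + h20 + h30 + h40 ≤ 5 := by linarith
  have w2 : h11 + h21 + h31 + h20 + h30 + h40 + b10 + b20 + b30 ≤ 5 := by linarith
  have w3 : h12 + h22 + h21 + h31 + h30 + h40 + b20 + b30 + b11 + b21 ≤ 5 := by linarith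
  obtain ⟨a1, a2⟩ := digit (lt_of_le_of_lt w1 (by omega)) (by omega) hN
  obtain ⟨b1, b2⟩ := digit (lt_of_le_of_lt w2 (by omega)) (by omega) a2
  obtain ⟨c1, c2⟩ := digit (lt_of_le_of_lt w3 (by omega)) (by omega) b2
  have z : h31 = 0 := by
    clear hN a2 b2
    linarith [Nat.zero_le h31, Nat.zero_le h13, Nat.zero_le h22, Nat.zero_le h40,
      Nat.zero_le b30, Nat.zero_le b21, Nat.zero_le b12]
  subst z
  linarith

theorem nm45 {p : ℕ} (hp : 11 ≤ p) {s : ℕ} (hs : s ≤ 5) : NM p s (4 * p + 2 * p ^ 2) := by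
  intro L hL h
  have h1 : 11 * p ≤ p ^ 2 := by nlinarith
  have h2 : 11 * p ^ 2 ≤ p ^ 3 := by nlinarith
  have h3 : 11 * p ^ 3 ≤ p ^ 4 := by nlinarith
  obtain ⟨n⟩ := h.nf (by omega) hL (by omega)
  have e : 4 * p + 2 * p ^ 2 = 0 + p * (4 + p * (2 + p * 0)) := by ring
  exact nm45_aux hp hs n.l11 n.l21 n.hs (n.hN.symm.trans e)

theorem lt_p3 {p : ℕ} (hp : 11 ≤ p) {a b : ℕ} (ha : a ≤ 4) (hb : b ≤ 3) :
    ((a * p + b * p ^ 2 : ℕ) : ℤ) < p ^ 3 := by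
  have h1 : 11 * p ≤ p ^ 2 := by nlinarith
  have h2 : 11 * p ^ 2 ≤ p ^ 3 := by nlinarith
  have : a * p + b * p ^ 2 < p ^ 3 := by nlinarith
  exact_mod_cast this

/-- `Ext_P^(6, 4 p + 3 p ^ 2) = 0`. -/
theorem S2' {p : ℕ} [Fact p.Prime] (hp : 11 ≤ p) : Van p 6 (4 * p + 3 * p ^ 2) := by
  rw [van_iff (lt_p3 hp le_rfl le_rfl)]
  push_cast
  refine K0_ex6 (by omega) ?_
  have h := (van_iff (lt_p3 hp (a := 4) (b := 2) le_rfl (by norm_num))).1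
    ((towerOut p).van 4 _ (nm45 hp (by norm_num)))
  push_cast at h
  exact h

/-- `Ext_P^(7, 4 p + 3 p ^ 2) = 0`. -/
theorem S2 {p : ℕ} [Fact p.Prime] (hp : 11 ≤ p) : Van p 7 (4 * p + 3 * p ^ 2) := by
  rw [van_iff (lt_p3 hp le_rfl le_rfl)]
  push_cast
  refine K0_ex7 (by omega) ?_
  have h := (van_iff (lt_p3 hp (a := 4) (b := 2) le_rfl (by norm_num))).1
    ((towerOut p).van 5 _ (nm45 hp (by norm_num)))
  push_cast at h
  exact h

end Vale.Agent.P257.SG
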