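import Vale.Agent.P257.SG.Cones
import Vale.Agent.P257.SG.Low

/-! The cocycles `B_1`, `B_2` in the second model, their multiplication operators, and the
top coefficients of the translation. -/

namespace Vale.Agent.P257.SG

open MvPolynomial Finset Vale.Agent.P257.Q.PC Vale.Agent.P257.X Vale.Agent.P257.E

set_option linter.unusedSectionVars false

variable {p : ℕ} [Fact p.Prime]

/-- `H_1`, `H_2` in the second model. -/
noncomputable def h2 (p : ℕ) : ℕ → KP p
  | 0 => X (1, 0)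
  | _ + 1 => X (1, 1) + X (1, 0) * X (0, 0)

/-- `B_1`, `B_2` in the second model. -/
noncomputable def b2 (p n : ℕ) [Fact p.Prime] : KP p := gam p (h2 p n) (ψ p 0 (h2 p n))

theorem Ψ_h2_zero : Ψ p (h2 p 0) = hn p 0 := by
  rw [h2, Ψ_X, if_neg (by norm_num), hn, φ_X, if_neg (lt_irrefl _), if_pos rfl,
    Finset.Nat.sum_antidiagonal_eq_sum_range_succ_mk]
  simp [Finset.sum_range_succ, tt]

theorem Ψ_h2_one : Ψ p (h2 p 1) = hn p 1 := by
  rw [h2, map_add, map_mul, Ψ_X, Ψ_X, Ψ_X, if_neg (by norm_num), if_neg (by norm_num), if_pos rfl,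
    hn, φ_X, if_neg (lt_irrefl _), if_pos rfl, Finset.Nat.sum_antidiagonal_eq_sum_range_succ_mk]
  simp [Finset.sum_range_succ, tt]
  ring

theorem Ψ_gam (x y : KP p) : Ψ p (gam p x y) = gam p (Ψ p x) (Ψ p y) :=
  map_gam (Ψ p : KP p →+* KP p) x y

theorem Ψ_h2 {n : ℕ} (hn1 : n ≤ 1) : Ψ p (h2 p n) = hn p n := by
  interval_cases n
  · exact Ψ_h2_zero
  · exact Ψ_h2_one

theorem Ψ_b2 {n : ℕ} (hn1 : n ≤ 1) : Ψ p (b2 p n) = bn p n := by
  rw [b2, Ψ_gam, Ψ_ψ, Ψ_h2 hn1, bn_eq]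

/-- Left multiplication by `B_(n+1)` in the second model. -/
noncomputable def mb (p n : ℕ) [Fact p.Prime] : KP p →+ KP p :=
  (AddMonoidHom.mulLeft (b2 p n)).comp
    (((ψ p 0).comp (ψ p 0) : KP p →ₐ[ZMod p] KP p) : KP p →+ KP p)

theorem mb_apply (n : ℕ) (f : KP p) : mb p n f = b2 p n * ψ p 0 (ψ p 0 f) := rfl

theorem Ψ_mb {n : ℕ} (hn1 : n ≤ 1) (f : KP p) : Ψ p (-mb p n f) = bop p n (Ψ p f) := by
  rw [map_neg, mb_apply, map_mul, Ψ_ψ, Ψ_ψ, Ψ_b2 hn1, bop_apply]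

theorem mb_op {n : ℕ} (hn1 : n ≤ 1) : Cpx.Op (FF p) (p * wt p n) (-mb p n) where
  mem s N f hf := by
    have h1 := (bop_op (p := p) n 0).mem _ _ _ (iso.mem s N f hf)
    change bop p n (Ψ p f) ∈ _ at h1
    rw [← Ψ_mb hn1] at h1
    exact Ψ_mem.1 h1
  comm s N f hf := by
    apply Ψ_injective
    have h1 := (bop_op (p := p) n 0).comm _ _ _ (iso.mem s N f hf)
    change bop p n (dd p s (Ψ p f)) = dd p (s + 2) (bop p n (Ψ p f)) at h1
    change Ψ p (-mb p n (d2 p s f)) = Ψ p (d2 p (s + 2) (-mb p n f))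
    rw [Ψ_mb hn1, Ψ_d2, h1, Ψ_d2, Ψ_mb hn1]

/-- The cones in the two models. -/
theorem cone_iff {n : ℕ} (hn1 : n ≤ 1) {s : ℕ} {N : ℤ}
    (h : ((AA p 0).Cone (bop_op n 0)).Ex s N) : ((FF p).Cone (mb_op hn1)).Ex s N :=
  (iso.cone (mb_op hn1) (bop_op n 0) (fun f => Ψ_mb hn1 f)).ex_iff.1 h

theorem mb_epi {n : ℕ} (hn1 : n ≤ 1) {s : ℕ} {N : ℤ}
    (hE : ((AA p 0).Cone (bop_op n 0)).Ex (s + 2) (N + p * wt p n)) {f : KP p}
    (hf : (FF p).Z (s + 2) (N + p * wt p n) f) :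
    ∃ g, (FF p).Z s N g ∧ (FF p).B (s + 2) (N + p * wt p n) (f - mb p n g) := by
  obtain ⟨g, hg, hg'⟩ := (mb_op hn1).epi (cone_iff hn1 hE) hf
  refine ⟨-g, hg.neg, ?_⟩
  rw [map_neg]
  exact hg'

theorem mb_mono {n : ℕ} (hn1 : n ≤ 1) {s : ℕ} {N : ℤ}
    (hE : ((AA p 0).Cone (bop_op n 0)).Ex (s + 1) (N + p * wt p n)) {g : KP p}
    (hg : (FF p).Z s N g) (hb : (FF p).B (s + 2) (N + p * wt p n) (mb p n g)) :
    (FF p).B s N g :=
  (mb_op hn1).mono (cone_iff hn1 hE) hg hb.neg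

theorem mb_Z {n : ℕ} (hn1 : n ≤ 1) {s : ℕ} {N M : ℤ} (hM : M = N + p * wt p n) {g : KP p}
    (hg : (FF p).Z s N g) : (FF p).Z (s + 2) M (mb p n g) := by
  subst hM
  have h := Cpx.Z.neg (C := FF p) ⟨(mb_op hn1).mem _ _ _ hg.1, by
    rw [← (mb_op hn1).comm _ _ _ hg.1, hg.2, map_zero]⟩
  have h1 : -((-mb p n) g) = mb p n g := neg_neg _
  rwa [h1] at h

theorem mb_B {n : ℕ} (hn1 : n ≤ 1) {s : ℕ} {N M : ℤ} (hM : M = N + p * wt p n) {g : KP p}
    (hg : (FF p).B s N g) : (FF p).B (s + 2) M (mb p n g) := by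
  subst hM
  have h1 : ∀ g, -((-mb p n) g) = mb p n g := fun g => neg_neg _
  rw [← h1]
  refine Cpx.B.neg ?_
  cases s with
  | zero =>
    have h2 : g = 0 := hg
    rw [h2, map_zero]
    exact Cpx.B.zero _ _
  | succ s =>
    obtain ⟨x, hx, rfl⟩ := hg
    rw [(mb_op hn1).comm _ _ _ hx]
    exact Cpx.B.d ((mb_op hn1).mem _ _ _ hx)

/-! ### Top coefficients -/

/-- `T f` has degree `≤ a` in `ε`, with top coefficient `g`. -/
def TL (a : ℕ) (f g : KP p) : Prop := (T p f).natDegree ≤ a ∧ (T p f).coeff a = g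

theorem TL.mul {a a' : ℕ} {f g f' g' : KP p} (h : TL a f g) (h' : TL a' f' g') :
    TL (a + a') (f * f') (g * g') := by
  refine ⟨?_, ?_⟩
  · rw [map_mul]
    exact Polynomial.natDegree_mul_le_of_le h.1 h'.1
  · rw [map_mul, Polynomial.coeff_mul_add_eq_of_natDegree_le h.1 h'.1, h.2, h'.2]

theorem TL.ψ {a : ℕ} {f g : KP p} (h : TL a f g) (i : ℕ) : TL a (ψ p i f) (ψ p i g) := by
  refine ⟨?_, ?_⟩
  · rw [T_ψ, ψT, Polynomial.coe_mapRingHom]
    exact (Polynomial.natDegree_map_le).trans h.1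
  · rw [T_ψ, coeff_ψT, h.2]

theorem TL.one : TL 0 (1 : KP p) 1 := by
  refine ⟨?_, ?_⟩
  · rw [map_one, Polynomial.natDegree_one]
  · rw [map_one, Polynomial.coeff_one_zero]

theorem T_gam (x y : KP p) : T p (gam p x y) = gam p (T p x) (T p y) :=
  map_gam (T p : KP p →+* Polynomial (KP p)) x y

theorem T_h2_one : T p (h2 p 1) = Polynomial.C (h2 p 1) + Polynomial.C (h2 p 0) * Polynomial.X := by
  rw [h2, h2, map_add, map_mul, T_ne one_ne_zero, T_ne one_ne_zero, T_zero, tt_zero,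
    Polynomial.C_1, Polynomial.C_add, Polynomial.C_mul]
  ring

theorem natDegree_lin (a b : KP p) :
    (Polynomial.C a + Polynomial.C b * Polynomial.X).natDegree ≤ 1 := by
  rw [add_comm]
  exact Polynomial.natDegree_linear_le

theorem natDegree_gam {f g : Polynomial (KP p)} (hf : f.natDegree ≤ 1) (hg : g.natDegree ≤ 1) :
    (gam p f g).natDegree ≤ p := by
  unfold gam
  refine Polynomial.natDegree_sum_le_of_forall_le _ _ fun i hi => ?_
  rw [mem_Ioo] at hi
  have h1 : ((p.choose i / p : ℕ) : Polynomial (KP p)) =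
      Polynomial.C ((p.choose i / p : ℕ) : KP p) := by simp
  rw [h1, mul_assoc]
  refine (Polynomial.natDegree_C_mul_le _ _).trans ?_
  have h2 := Polynomial.natDegree_mul_le_of_le (Polynomial.natDegree_pow_le_of_le i hf)
    (Polynomial.natDegree_pow_le_of_le (p - i) hg)
  refine h2.trans ?_
  omega

theorem TL_b2_one : TL p (b2 p 1) (b2 p 0) := by
  have h1 : T p (ψ p 0 (h2 p 1)) =
      Polynomial.C (ψ p 0 (h2 p 1)) + Polynomial.C (ψ p 0 (h2 p 0)) * Polynomial.X := by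
    rw [T_ψ, T_h2_one, map_add, map_mul, ψT_C, ψT_C, ψT_X]
  refine ⟨?_, ?_⟩
  · rw [b2, T_gam, T_h2_one, h1]
    exact natDegree_gam (natDegree_lin _ _) (natDegree_lin _ _)
  · rw [b2, T_gam, T_h2_one, h1, gam_top, b2]

theorem TL_mb {a : ℕ} {f g : KP p} (h : TL a f g) : TL (p + a) (mb p 1 f) (mb p 0 g) := by
  rw [mb_apply, mb_apply]
  exact TL_b2_one.mul ((h.ψ 0).ψ 0)

/-- `B_2 ^ j` and `B_1 ^ j`. -/
noncomputable def pw (p n j : ℕ) [Fact p.Prime] : KP p := (mb p n)^[j] 1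

theorem pw_succ (n j : ℕ) : pw p n (j + 1) = mb p n (pw p n j) := by
  rw [pw, Function.iterate_succ_apply', pw]

theorem TL_pw (j : ℕ) : TL (j * p) (pw p 1 j) (pw p 0 j) := by
  induction j with
  | zero =>
    rw [Nat.zero_mul]
    exact TL.one
  | succ j ih =>
    rw [pw_succ, pw_succ, Nat.succ_mul, add_comm]
    exact TL_mb ih

/-- The variables without `t_2 ^ p, t_3 ^ p, ...` -/
def Vy : Set (ℕ × ℕ) := {x | x.1 = 0 → x.2 = 0}

theorem vz_notMem : vz ∉ Vy := fun h => absurd (h rfl) one_ne_zero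

theorem pderiv_z_of_Vy {f : KP p} (hf : f ∈ supported (ZMod p) Vy) : pderiv vz f = 0 := by
  rw [mem_supported_iff] at hf
  refine pderiv_eq_zero_of fun u hu => ?_
  have h1 : u vz = 0 := by
    by_contra h
    exact vz_notMem (hf u hu vz (Finsupp.mem_support_iff.2 h))
  rw [h1]
  exact dvd_zero p

theorem T_monomial {u : ℕ × ℕ →₀ ℕ} (hu : ∀ x ∈ u.support, x ∈ Vy) (c : ZMod p) :
    T p (monomial u c) = Polynomial.C (monomial (u.erase vy) c) *
      (Polynomial.X + Polynomial.C (X vy)) ^ u vy := by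
  have h1 : ∀ v : ℕ × ℕ →₀ ℕ, (∀ x ∈ v.support, x.1 ≠ 0) →
      T p (monomial v c) = Polynomial.C (monomial v c) := by
    intro v hv
    have h4 : T p (monomial v c) = Polynomial.C (C c) * ∏ x ∈ v.support, T p (X x) ^ v x := by
      rw [monomial_eq, map_mul, Finsupp.prod, map_prod, ← algebraMap_eq, AlgHom.commutes]
      simp only [map_pow]
      rfl
    have h5 : ∀ x ∈ v.support, T p (X x) ^ v x = Polynomial.C (X x ^ v x) := by
      intro x hx
      obtain ⟨l, n⟩ := x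
      rw [T_ne (hv _ hx), Polynomial.C_pow]
    rw [h4, Finset.prod_congr rfl h5, ← map_prod, ← Polynomial.C_mul]
    congr 1
    rw [monomial_eq, Finsupp.prod]
  have h2 : (monomial u c : KP p) = X vy ^ u vy * monomial (u.erase vy) c := by
    rw [X_pow_eq_monomial, monomial_mul, one_mul, Finsupp.single_add_erase]
  conv_lhs => rw [h2]
  rw [map_mul, map_pow, h1 (u.erase vy), T_zero, pow_zero, pow_one, tt_zero, Polynomial.C_1,
    one_mul, add_comm (Polynomial.C _), mul_comm]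
  intro x hx h0
  rw [Finsupp.support_erase, Finset.mem_erase] at hx
  have h3 := hu x hx.2 h0
  exact hx.1 (Prod.ext h0 h3)

theorem Tk_mono {u : ℕ × ℕ →₀ ℕ} (hu : ∀ x ∈ u.support, x ∈ Vy) (c : ZMod p) (k : ℕ) :
    Tk p k (monomial u c) = monomial (u - Finsupp.single vy k) (c * ((u vy).choose k : ℕ)) := by
  rw [Tk_apply, T_monomial hu, Polynomial.coeff_C_mul, Polynomial.coeff_X_add_C_pow]
  by_cases h5 : k ≤ u vy
  · have h6 : u.erase vy + Finsupp.single vy (u vy - k) = u - Finsupp.single vy k := by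
      ext x
      rw [Finsupp.add_apply, Finsupp.tsub_apply]
      by_cases hx : x = vy
      · subst hx
        rw [Finsupp.single_eq_same, Finsupp.single_eq_same, Finsupp.erase_same, zero_add]
      · rw [Finsupp.single_eq_of_ne hx, Finsupp.single_eq_of_ne hx, Finsupp.erase_ne hx, add_zero,
          tsub_zero]
    rw [X_pow_eq_monomial, show ((u vy).choose k : KP p) = C ((u vy).choose k : ZMod p) by simp,
      ← mul_assoc, monomial_mul, mul_comm (monomial _ _) (C _), C_mul_monomial, mul_one, h6,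
      mul_comm c]
  · rw [Nat.choose_eq_zero_of_lt (by omega)]
    simp

theorem choose_jp (n j : ℕ) :
    ((j.factorial : ℕ) : ZMod p) * ((n.choose (j * p) : ℕ) : ZMod p) =
      (((n / p).descFactorial j : ℕ) : ZMod p) := by
  have hp := (Fact.out : p.Prime)
  have h := Choose.choose_modEq_choose_mod_mul_choose_div_nat (n := n) (k := j * p) (p := p)
  rw [Nat.mul_mod_left, Nat.choose_zero_right, one_mul, Nat.mul_div_cancel _ hp.pos] at h
  have h1 : ((n.choose (j * p) : ℕ) : ZMod p) = (((n / p).choose j : ℕ) : ZMod p) :=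
    (ZMod.natCast_eq_natCast_iff _ _ _).2 h
  rw [h1, Nat.descFactorial_eq_factorial_mul_choose]
  push_cast
  ring

theorem dg_iter_eq {f : KP p} (hf : f ∈ supported (ZMod p) Vy) (j : ℕ) :
    (dg p vy)^[j] f = ((j.factorial : ℕ) : ZMod p) • Tk p (j * p) f := by
  rw [mem_supported_iff] at hf
  conv_lhs => rw [f.as_sum]
  conv_rhs => rw [f.as_sum]
  rw [dg_iter_sum, map_sum, Finset.smul_sum]
  refine Finset.sum_congr rfl fun u hu => ?_
  rw [dg_iter_monomial, Tk_mono (hf u hu), smul_monomial, smul_eq_mul, ← choose_jp]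
  congr 1
  ring

/-- `DW ^ j` on `f`, if `T f` has degree `≤ j p` in `ε`. -/
theorem DW_iter_TL {f g : KP p} (hf : f ∈ supported (ZMod p) Vy) {j : ℕ} (h : TL (j * p) f g) :
    (DW p)^[j] f = ((j.factorial : ℕ) : ZMod p) • g := by
  rw [(DW_iter (pderiv_z_of_Vy hf) j).1, dg_iter_eq hf, Tk_apply, h.2]

theorem X_Vy {x : ℕ × ℕ} (hx : x ∈ Vy) : (X x : KP p) ∈ supported (ZMod p) Vy :=
  X_mem_supported.2 hx

theorem ψ_Vy {f : KP p} (hf : f ∈ supported (ZMod p) Vy) :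
    ψ p 0 f ∈ supported (ZMod p) Vy := by
  refine supported_map _ (fun x hx => ?_) hf
  obtain ⟨l, n⟩ := x
  rw [ψ_zero_X]
  split_ifs with h
  · have hn : n = 0 := hx h
    subst hn
    have h1 : ∀ j, tt p 1 j ∈ supported (ZMod p) Vy := by
      intro j
      rw [tt]
      split_ifs
      · exact one_mem _
      · exact X_Vy fun h => absurd h one_ne_zero
    rw [Finset.Nat.sum_antidiagonal_eq_sum_range_succ_mk]
    refine supported_sum _ _ fun j hj => mul_mem (pow_mem (h1 _) _) (pow_mem ?_ _)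
    rw [tt]
    split_ifs with h2
    · exact one_mem _
    · refine X_Vy fun _ => ?_
      dsimp only
      omega
  · exact X_Vy fun h => absurd h (by dsimp only; omega)

theorem gam_Vy {x y : KP p} (hx : x ∈ supported (ZMod p) Vy) (hy : y ∈ supported (ZMod p) Vy) :
    gam p x y ∈ supported (ZMod p) Vy :=
  supported_sum _ _ fun _ _ => mul_mem (mul_mem (natCast_mem _ _) (pow_mem hx _)) (pow_mem hy _)

theorem h2_Vy (n : ℕ) : h2 p n ∈ supported (ZMod p) Vy := by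
  cases n with
  | zero => exact X_Vy fun h => absurd h one_ne_zero
  | succ n =>
    have h1 : ∀ n, (X (1, n) : KP p) ∈ supported (ZMod p) Vy := fun n =>
      X_Vy fun h => absurd h one_ne_zero
    have h3 : (X (0, 0) : KP p) ∈ supported (ZMod p) Vy := X_Vy fun _ => rfl
    exact add_mem (h1 1) (mul_mem (h1 0) h3)

theorem mb_Vy (n : ℕ) {f : KP p} (hf : f ∈ supported (ZMod p) Vy) :
    mb p n f ∈ supported (ZMod p) Vy :=
  mul_mem (gam_Vy (h2_Vy n) (ψ_Vy (h2_Vy n))) (ψ_Vy (ψ_Vy hf))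

theorem pw_Vy (n j : ℕ) : pw p n j ∈ supported (ZMod p) Vy := by
  induction j with
  | zero => exact one_mem _
  | succ j ih => rw [pw_succ]; exact mb_Vy n ih

theorem DW_pw (j : ℕ) : (DW p)^[j] (pw p 1 j) = ((j.factorial : ℕ) : ZMod p) • pw p 0 j :=
  DW_iter_TL (pw_Vy 1 j) (TL_pw j)

/-- `DW` commutes with `B_1`. -/
theorem DW_mb_zero (f : KP p) : DW p (mb p 0 f) = mb p 0 (DW p f) := by
  have h1 : T p (b2 p 0) = Polynomial.C (b2 p 0) := by
    have h2 : T p (h2 p 0) = Polynomial.C (h2 p 0) := T_ne one_ne_zero 0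
    rw [b2, T_gam, T_ψ, h2, ψT_C]
    exact (map_gam (Polynomial.C : KP p →+* Polynomial (KP p)) _ _).symm
  rw [mb_apply, mb_apply, DW_apply, DW_apply, Tk_apply, map_mul, h1, Polynomial.coeff_C_mul,
    ← Tk_apply, Tk_ψ, Tk_ψ]

end Vale.Agent.P257.SG
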