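import Vale.Agent.P257.SG.S1
import Vale.Agent.P257.SG.S2fin
import Vale.Agent.P257.E.S3fin
import Vale.Agent.P257.N.CountS

/-! The four small groups. -/

namespace Vale.Agent.P257.SG

open Vale.Agent.P257.Q.PC Vale.Agent.P257.X Vale.Agent.P257.N

theorem nm2_aux {p s h10 h20 h30 h40 h11 h21 h31 h12 h22 h13 b10 b20 b30 b11 b21 b12 : ℕ}
    (hp : 11 ≤ p) (hs5 : s = 2)
    (hs : s = h10 + h20 + h30 + h40 + h11 + h21 + h31 + h12 + h22 + h13 +
      2 * (b10 + b20 + b30 + b11 + b21 + b12))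
    (hN : (h10 + h20 + h30 + h40) + p * ((h11 + h21 + h31 + h20 + h30 + h40 + b10 + b20 + b30) +
      p * ((h12 + h22 + h21 + h31 + h30 + h40 + b20 + b30 + b11 + b21) +
        p * (h13 + h22 + h31 + h40 + b30 + b21 + b12))) = 3 + p * (2 + p * (0 + p * 0))) :
    False := by
  have w1 : h10 + h20 + h30 + h40 ≤ 5 := by linarith
  obtain ⟨a1, a2⟩ := digit (lt_of_le_of_lt w1 (by omega)) (by omega) hN
  linarith

theorem nm2 {p : ℕ} (hp : 11 ≤ p) : NM p 2 (3 + 2 * p) := by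
  intro L hL h
  have h1 : 11 * p ≤ p ^ 2 := by nlinarith
  have h2 : 11 * p ^ 2 ≤ p ^ 3 := by nlinarith
  have h3 : 11 * p ^ 3 ≤ p ^ 4 := by nlinarith
  obtain ⟨n⟩ := h.nf (by omega) hL (by omega)
  have e : 3 + 2 * p = 3 + p * (2 + p * (0 + p * 0)) := by ring
  exact nm2_aux hp rfl n.hs (n.hN.symm.trans e)

/-- The four small groups. -/
theorem small {p : ℕ} [Fact p.Prime] (hp : 11 ≤ p) : Small p where
  S1 := S1 (by omega) ((towerOut p).van 3 _ (S1k hp)) ((towerOut p).van 2 _ (nm2 hp))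
  S2 := S2 hp
  S2' := S2' hp
  S3 := E.S3 (by omega)

end Vale.Agent.P257.SG
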