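import Vale.Agent.P257.SG.Two

/-! The right translation `y_n ↦ y_n + y_(n-1) ε ^ (p ^ n)` in the block `0` of the second model,
and its coefficients. -/

namespace Vale.Agent.P257.SG

open MvPolynomial Finset Vale.Agent.P257.Q.PC Vale.Agent.P257.X

set_option linter.unusedSectionVars false

variable {p : ℕ} [Fact p.Prime]

/-- The translation. -/
noncomputable def T (p : ℕ) : KP p →ₐ[ZMod p] Polynomial (KP p) :=
  aeval fun x => if x.1 = 0 then Polynomial.C (X x) + Polynomial.C (tt p 0 x.2) *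
    Polynomial.X ^ p ^ x.2 else Polynomial.C (X x)

theorem T_X (x : ℕ × ℕ) : T p (X x) = if x.1 = 0 then Polynomial.C (X x) +
    Polynomial.C (tt p 0 x.2) * Polynomial.X ^ p ^ x.2 else Polynomial.C (X x) := by
  rw [T, aeval_X]

theorem T_zero (n : ℕ) : T p (X (0, n)) = Polynomial.C (X (0, n)) +
    Polynomial.C (tt p 0 n) * Polynomial.X ^ p ^ n := by
  rw [T_X, if_pos rfl]

theorem T_ne {j : ℕ} (hj : j ≠ 0) (n : ℕ) : T p (X (j, n)) = Polynomial.C (X (j, n)) := by
  rw [T_X, if_neg hj]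

theorem T_tt_ne {j : ℕ} (hj : j ≠ 0) (n : ℕ) : T p (tt p j n) = Polynomial.C (tt p j n) := by
  cases n with
  | zero => simp [tt]
  | succ n => rw [tt_succ, T_ne hj]

theorem T_tt_zero : T p (tt p 0 0) = 1 := by simp [tt]

theorem T_tt_succ (n : ℕ) : T p (tt p 0 (n + 1)) = Polynomial.C (tt p 0 (n + 1)) +
    Polynomial.C (tt p 0 n) * Polynomial.X ^ p ^ n := by
  rw [tt_succ, T_zero]

theorem C_scalar (a : ZMod p) : algebraMap (ZMod p) (Polynomial (KP p)) a =
    Polynomial.C (C a) := rfl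

/-- The faces, on the coefficients of a polynomial in `ε`. -/
noncomputable def ψT (p i : ℕ) : Polynomial (KP p) →+* Polynomial (KP p) :=
  Polynomial.mapRingHom (ψ p i : KP p →+* KP p)

theorem ψT_C (i : ℕ) (f : KP p) : ψT p i (Polynomial.C f) = Polynomial.C (ψ p i f) := by
  rw [ψT, Polynomial.coe_mapRingHom, Polynomial.map_C]; rfl

theorem ψT_X (i : ℕ) : ψT p i Polynomial.X = Polynomial.X := by
  rw [ψT, Polynomial.coe_mapRingHom, Polynomial.map_X]

theorem coeff_ψT (i k : ℕ) (f : Polynomial (KP p)) : (ψT p i f).coeff k = ψ p i (f.coeff k) := by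
  rw [ψT, Polynomial.coe_mapRingHom, Polynomial.coeff_map]; rfl

/-- Freshman's dream for two terms. -/
theorem add_pow_pp {R : Type*} [CommRing R] [CharP R p] (a b : R) (k : ℕ) :
    (a + b) ^ p ^ k = a ^ p ^ k + b ^ p ^ k := add_pow_char_pow a b p k

theorem trans_aux {R : Type*} [CommRing R] [CharP R p] (a t : ℕ → R) (τ : ℕ → Polynomial R)
    (h0 : τ 0 = 1) (ht : t 0 = 1)
    (h1 : ∀ n, τ (n + 1) = Polynomial.C (t (n + 1)) + Polynomial.C (t n) * Polynomial.X ^ p ^ n)
    (n : ℕ) : ∑ y ∈ antidiagonal (n + 1), Polynomial.C (a y.1) * τ y.2 ^ p ^ y.1 =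
      Polynomial.C (∑ y ∈ antidiagonal (n + 1), a y.1 * t y.2 ^ p ^ y.1) +
      Polynomial.C (∑ y ∈ antidiagonal n, a y.1 * t y.2 ^ p ^ y.1) * Polynomial.X ^ p ^ n := by
  rw [Finset.Nat.sum_antidiagonal_succ', Finset.Nat.sum_antidiagonal_succ']
  dsimp only
  rw [h0, ht, one_pow, one_pow, mul_one, mul_one, Polynomial.C_add, map_sum, map_sum,
    Finset.sum_mul, add_assoc, ← Finset.sum_add_distrib]
  congr 1
  refine Finset.sum_congr rfl fun y hy => ?_
  have hy' : y.2 + y.1 = n := by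
    rw [HasAntidiagonal.mem_antidiagonal] at hy
    omega
  rw [h1, add_pow_pp, mul_pow, ← pow_mul, ← pow_add, hy', ← Polynomial.C_pow,
    ← Polynomial.C_pow, Polynomial.C_mul, Polynomial.C_mul]
  ring

theorem T_ψ_zero (n : ℕ) : T p (ψ p 0 (tt p 0 (n + 1))) = ψT p 0 (T p (tt p 0 (n + 1))) := by
  rw [T_tt_succ, map_add, map_mul, map_pow, ψT_X, ψT_C, ψT_C, ψ_zero_tt, ψ_zero_tt,
    ← trans_aux (fun k => tt p 1 k ^ p) (fun k => tt p 0 k) (fun k => T p (tt p 0 k))
      T_tt_zero (tt_zero 0) T_tt_succ, map_sum]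
  refine Finset.sum_congr rfl fun y _ => ?_
  rw [map_mul, map_pow, map_pow, T_tt_ne one_ne_zero, Polynomial.C_pow]

theorem T_ψ (i : ℕ) (f : KP p) : T p (ψ p i f) = ψT p i (T p f) := by
  have h : ((T p : KP p →+* Polynomial (KP p)).comp (ψ p i : KP p →+* KP p)) =
      (ψT p i).comp (T p : KP p →+* Polynomial (KP p)) := by
    refine MvPolynomial.ringHom_ext (fun a => ?_) (fun x => ?_)
    · simp only [RingHom.comp_apply, RingHom.coe_coe]
      have h1 : ∀ a : ZMod p, ψ p i (C a) = C a := fun a => by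
        rw [← algebraMap_eq, AlgHom.commutes]
      have h2 : T p (C a) = Polynomial.C (C a) := by
        rw [← algebraMap_eq, AlgHom.commutes]; rfl
      rw [h1, h2, ψT_C, h1]
    · simp only [RingHom.comp_apply, RingHom.coe_coe]
      obtain ⟨l, n⟩ := x
      rw [← tt_succ]
      by_cases hl : l = 0
      · subst hl
        cases i with
        | zero => exact T_ψ_zero n
        | succ i =>
          rw [ψ_succ, φ_tt_lt (Nat.succ_pos i), T_tt_succ, map_add, map_mul, map_pow, ψT_X, ψT_C,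
            ψT_C, ψ_succ, φ_tt_lt (Nat.succ_pos i), φ_tt_lt (Nat.succ_pos i)]
      · rw [T_tt_ne hl, ψT_C]
        cases i with
        | zero => rw [ψ_zero_tt_ne hl, T_tt_ne (by omega)]
        | succ i =>
          rw [ψ_succ]
          rcases lt_trichotomy l (i + 1) with h | h | h
          · rw [φ_tt_lt h, T_tt_ne hl]
          · subst h
            rw [φ_tt, map_sum, map_sum]
            refine Finset.sum_congr rfl fun y _ => ?_
            rw [map_mul, map_pow, T_tt_ne (by omega), T_tt_ne (by omega), map_mul, map_pow]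
          · rw [φ_tt_gt h, T_tt_ne (by omega)]
  exact DFunLike.congr_fun h f

/-- The coefficient of `ε ^ k` of the translation. -/
noncomputable def Tk (p k : ℕ) : KP p →ₗ[ZMod p] KP p where
  toFun f := (T p f).coeff k
  map_add' f g := by rw [map_add, Polynomial.coeff_add]
  map_smul' a f := by rw [map_smul, Polynomial.coeff_smul]; rfl

theorem Tk_apply (k : ℕ) (f : KP p) : Tk p k f = (T p f).coeff k := rfl

theorem Tk_ψ (k i : ℕ) (f : KP p) : Tk p k (ψ p i f) = ψ p i (Tk p k f) := by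
  rw [Tk_apply, T_ψ, coeff_ψT, Tk_apply]

theorem Tk_d2 (k s : ℕ) (f : KP p) : Tk p k (d2 p s f) = d2 p s (Tk p k f) := by
  rw [d2_apply, d2_apply]
  simp only [map_add, map_sum, map_smul, Tk_ψ]

/-- The product formula. -/
theorem Tk_mul (k : ℕ) (f g : KP p) :
    Tk p k (f * g) = ∑ x ∈ antidiagonal k, Tk p x.1 f * Tk p x.2 g := by
  rw [Tk_apply, map_mul, Polynomial.coeff_mul]; rfl

theorem Tk_zero (f : KP p) : Tk p 0 f = f := by
  have h : ((Polynomial.constantCoeff : Polynomial (KP p) →+* KP p).comp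
      (T p : KP p →+* Polynomial (KP p))) = RingHom.id (KP p) := by
    refine MvPolynomial.ringHom_ext (fun a => ?_) (fun x => ?_)
    · simp only [RingHom.comp_apply, RingHom.coe_coe, RingHom.id_apply]
      rw [← algebraMap_eq, AlgHom.commutes]
      exact Polynomial.coeff_C_zero
    · simp only [RingHom.comp_apply, RingHom.coe_coe, RingHom.id_apply]
      rw [T_X]
      have h0 : ∀ n, 0 ≠ p ^ n := fun n => (pow_pos (Fact.out : p.Prime).pos n).ne
      split_ifs
      · simp [h0]
      · simp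
  have := DFunLike.congr_fun h f
  simpa [Tk_apply] using this

/-- Good polynomials in `ε`: the coefficient of `ε ^ k` has degree `N - k p`. -/
def Good (p s : ℕ) (N : ℤ) (g : Polynomial (KP p)) : Prop :=
  ∀ k : ℕ, g.coeff k ∈ Co2 p s (N - k * p)

theorem Good.mul {s : ℕ} {N N' : ℤ} {f g : Polynomial (KP p)} (hf : Good p s N f)
    (hg : Good p s N' g) : Good p s (N + N') (f * g) := by
  intro k
  rw [Polynomial.coeff_mul]
  refine sum_mem fun x hx => ?_
  rw [HasAntidiagonal.mem_antidiagonal] at hx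
  have h1 := hf x.1
  have h2 := hg x.2
  rw [mem_Co2] at h1 h2 ⊢
  refine ⟨?_, mul_mem h1.2 h2.2⟩
  have := h1.1.mul h2.1
  rwa [show N - x.1 * p + (N' - x.2 * p) = N + N' - k * p by rw [← hx]; push_cast; ring] at this

theorem Good.C {s : ℕ} {N : ℤ} {f : KP p} (hf : f ∈ Co2 p s N) : Good p s N (Polynomial.C f) := by
  intro k
  rw [Polynomial.coeff_C]
  split_ifs with h
  · subst h; simpa using hf
  · exact zero_mem _

theorem Good.one (s : ℕ) : Good p s 0 (1 : Polynomial (KP p)) := by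
  have : (1 : KP p) ∈ Co2 p s 0 := mem_Co2.2 ⟨isWeightedHomogeneous_one _ _, one_mem _⟩
  exact Good.C this

theorem Good.pow {s : ℕ} {N : ℤ} {f : Polynomial (KP p)} (hf : Good p s N f) (n : ℕ) :
    Good p s (n * N) (f ^ n) := by
  induction n with
  | zero => simpa using Good.one s
  | succ n ih =>
    rw [pow_succ]
    have := ih.mul hf
    rwa [show (n : ℤ) * N + N = ((n + 1 : ℕ) : ℤ) * N by push_cast; ring] at this

theorem Good.prod {ι : Type*} {s : ℕ} (S : Finset ι) (N : ι → ℤ) (f : ι → Polynomial (KP p))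
    (hf : ∀ i ∈ S, Good p s (N i) (f i)) : Good p s (∑ i ∈ S, N i) (∏ i ∈ S, f i) := by
  classical
  induction S using Finset.induction_on with
  | empty => simpa using Good.one s
  | insert a S ha ih =>
    rw [Finset.sum_insert ha, Finset.prod_insert ha]
    exact (hf a (Finset.mem_insert_self a S)).mul (ih fun i hi => hf i (Finset.mem_insert_of_mem hi))

theorem X_mem_Co2 {s : ℕ} {x : ℕ × ℕ} (hx : x ∈ Bl s) : (X x : KP p) ∈ Co2 p s (W2 p x) :=
  mem_Co2.2 ⟨isWeightedHomogeneous_X _ _ _, X_mem_supported.2 hx⟩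

theorem wt_pred (n : ℕ) : (wt p n : ℤ) = nw p n + p ^ n := by
  rw [wt, Finset.sum_range_succ, nw]; push_cast; rfl

theorem tt_mem_Co2 (s n : ℕ) : (tt p 0 n : KP p) ∈ Co2 p s (p * nw p n) := by
  cases n with
  | zero =>
    rw [tt_zero]
    refine mem_Co2.2 ⟨?_, one_mem _⟩
    simpa [nw] using isWeightedHomogeneous_one (R := ZMod p) (W2 p)
  | succ n =>
    rw [tt_succ]
    have := X_mem_Co2 (p := p) (s := s) (x := (0, n)) (Nat.zero_le s)
    rw [W2_zero] at this
    exact this

theorem T_X_good {s : ℕ} {x : ℕ × ℕ} (hx : x ∈ Bl s) : Good p s (W2 p x) (T p (X x)) := by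
  obtain ⟨l, n⟩ := x
  by_cases hl : l = 0
  · subst hl
    rw [T_zero]
    intro k
    rw [Polynomial.coeff_add, Polynomial.coeff_C_mul, Polynomial.coeff_X_pow]
    refine add_mem (Good.C (X_mem_Co2 hx) k) ?_
    split_ifs with h
    · rw [mul_one, h, W2_zero]
      have := tt_mem_Co2 (p := p) s n
      rwa [show (p : ℤ) * nw p n = p * wt p n - (p ^ n : ℕ) * p by rw [wt_pred]; push_cast; ring]
        at this
    · rw [mul_zero]; exact zero_mem _
  · rw [T_ne hl]
    exact Good.C (X_mem_Co2 hx)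

theorem T_good {s : ℕ} {N : ℤ} {f : KP p} (hf : f ∈ Co2 p s N) : Good p s N (T p f) := by
  have h := mem_Co2.1 hf
  obtain ⟨h1, h2⟩ := h
  rw [mem_supported_iff] at h2
  intro k
  rw [f.as_sum, map_sum, Polynomial.finsetSum_coeff]
  refine sum_mem fun u hu => ?_
  have h3 : Finsupp.weight (W2 p) u = N := h1 (mem_support_iff.1 hu)
  rw [Finsupp.weight_apply, Finsupp.sum] at h3
  have h4 : T p (monomial u (coeff u f)) = Polynomial.C (C (coeff u f)) *
      ∏ x ∈ u.support, T p (X x) ^ u x := by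
    rw [monomial_eq, map_mul, Finsupp.prod, map_prod, ← algebraMap_eq, AlgHom.commutes]
    simp only [map_pow]
    rfl
  rw [h4, Polynomial.coeff_C_mul, ← smul_eq_C_mul]
  refine Submodule.smul_mem _ _ ?_
  have h5 := Good.prod (p := p) (s := s) u.support (fun x => (u x : ℤ) * W2 p x)
    (fun x => T p (X x) ^ u x) (fun x hx => (T_X_good (h2 u hu x hx)).pow _)
  have h6 : ∑ x ∈ u.support, (u x : ℤ) * W2 p x = N := by
    rw [← h3]
    refine Finset.sum_congr rfl fun x _ => ?_
    rw [nsmul_eq_mul]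
  rw [h6] at h5
  exact h5 k

theorem Tk_mem {s : ℕ} {N : ℤ} {f : KP p} (hf : f ∈ (FF p).K s N) (k : ℕ) :
    Tk p k f ∈ (FF p).K s (N - k * p) := T_good hf k

end Vale.Agent.P257.SG
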