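import Vale.Agent.P257.SG.Model

/-! The second model of the complex with coefficients in `k[t_1^p, t_2^p, ...]`: the variable
`(0, n)` is `t_(n+1)^p`. -/

namespace Vale.Agent.P257.SG

open MvPolynomial Finset Vale.Agent.P257.Q.PC Vale.Agent.P257.X

set_option linter.unusedSectionVars false

variable {p : ℕ} [Fact p.Prime]

/-- Multiply the exponents of the block `0` by `p`. -/
noncomputable def ex (p : ℕ) (u : ℕ × ℕ →₀ ℕ) : ℕ × ℕ →₀ ℕ :=
  Finsupp.onFinset u.support (fun x => if x.1 = 0 then p * u x else u x) (by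
    intro x hx
    rw [Finsupp.mem_support_iff]
    intro h
    apply hx
    rw [h, mul_zero, ite_self])

/-- Divide the exponents of the block `0` by `p`. -/
noncomputable def un (p : ℕ) (u : ℕ × ℕ →₀ ℕ) : ℕ × ℕ →₀ ℕ :=
  Finsupp.onFinset u.support (fun x => if x.1 = 0 then u x / p else u x) (by
    intro x hx
    rw [Finsupp.mem_support_iff]
    intro h
    apply hx
    rw [h, Nat.zero_div, ite_self])

theorem ex_apply (u : ℕ × ℕ →₀ ℕ) (x : ℕ × ℕ) :
    ex p u x = if x.1 = 0 then p * u x else u x := rfl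

theorem un_apply (u : ℕ × ℕ →₀ ℕ) (x : ℕ × ℕ) :
    un p u x = if x.1 = 0 then u x / p else u x := rfl

theorem ex_inj {u v : ℕ × ℕ →₀ ℕ} (h : ex p u = ex p v) : u = v := by
  ext x
  have := DFunLike.congr_fun h x
  rw [ex_apply, ex_apply] at this
  split_ifs at this
  · exact Nat.eq_of_mul_eq_mul_left (Fact.out : p.Prime).pos this
  · exact this

/-- `X (0, n) ↦ X (0, n) ^ p`. -/
noncomputable def Ψ (p : ℕ) : KP p →ₐ[ZMod p] KP p :=
  aeval fun x => if x.1 = 0 then X x ^ p else X x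

theorem Ψ_X (x : ℕ × ℕ) : Ψ p (X x) = if x.1 = 0 then X x ^ p else X x := by
  rw [Ψ, aeval_X]

theorem Ψ_tt (n : ℕ) : Ψ p (tt p 0 n) = tt p 0 n ^ p := by
  cases n with
  | zero => simp [tt]
  | succ n => rw [tt_succ, Ψ_X, if_pos rfl]

theorem Ψ_tt_ne {j : ℕ} (hj : j ≠ 0) (n : ℕ) : Ψ p (tt p j n) = tt p j n := by
  cases n with
  | zero => simp [tt]
  | succ n => rw [tt_succ, Ψ_X, if_neg hj]

theorem Ψ_monomial (u : ℕ × ℕ →₀ ℕ) (c : ZMod p) : Ψ p (monomial u c) = monomial (ex p u) c := by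
  rw [Ψ, aeval_monomial, monomial_eq, algebraMap_eq, ex, Finsupp.onFinset_prod _ (by simp),
    Finsupp.prod]
  congr 1
  refine Finset.prod_congr rfl fun x _ => ?_
  split_ifs
  · rw [pow_mul]
  · rfl

theorem coeff_Ψ (f : KP p) (u : ℕ × ℕ →₀ ℕ) : coeff (ex p u) (Ψ p f) = coeff u f := by
  conv_lhs => rw [f.as_sum, map_sum, coeff_sum]
  rw [Finset.sum_eq_single u]
  · rw [Ψ_monomial, coeff_monomial, if_pos rfl]
  · intro v _ hv
    rw [Ψ_monomial, coeff_monomial, if_neg fun h => hv (ex_inj h)]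
  · intro hu
    rw [notMem_support_iff] at hu
    rw [hu, monomial_zero, map_zero, coeff_zero]

theorem Ψ_injective : Function.Injective (Ψ p) := by
  intro f g h
  ext u
  rw [← coeff_Ψ f, ← coeff_Ψ g, h]

/-- A preimage under `Ψ`. -/
noncomputable def unΨ (f : KP p) : KP p := ∑ u ∈ f.support, monomial (un p u) (coeff u f)

theorem Ψ_unΨ {f : KP p} (hf : ∀ n, pderiv ((0, n) : ℕ × ℕ) f = 0) : Ψ p (unΨ f) = f := by
  rw [unΨ, map_sum]
  conv_rhs => rw [f.as_sum]
  refine Finset.sum_congr rfl fun u hu => ?_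
  rw [Ψ_monomial]
  have : ex p (un p u) = u := by
    ext ⟨l, n⟩
    rw [ex_apply, un_apply]
    dsimp only
    split_ifs with h
    · subst h
      rw [Nat.mul_div_cancel' (dvd_of_pderiv_eq_zero _ (hf n) hu)]
    · rfl
  rw [this]

/-- The faces. -/
noncomputable def ψ (p : ℕ) : ℕ → (KP p →ₐ[ZMod p] KP p)
  | 0 => aeval fun x => if x.1 = 0 then
      ∑ y ∈ antidiagonal (x.2 + 1), tt p 1 y.1 ^ p * tt p 0 y.2 ^ p ^ y.1 else X (x.1 + 1, x.2)
  | i + 1 => φ p (i + 1)

theorem ψ_succ (i : ℕ) : ψ p (i + 1) = φ p (i + 1) := rfl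

theorem ψ_zero_X (x : ℕ × ℕ) : ψ p 0 (X x) = if x.1 = 0 then
    ∑ y ∈ antidiagonal (x.2 + 1), tt p 1 y.1 ^ p * tt p 0 y.2 ^ p ^ y.1 else X (x.1 + 1, x.2) := by
  rw [ψ, aeval_X]

theorem ψ_zero_tt (n : ℕ) : ψ p 0 (tt p 0 n) =
    ∑ y ∈ antidiagonal n, tt p 1 y.1 ^ p * tt p 0 y.2 ^ p ^ y.1 := by
  cases n with
  | zero => simp [tt]
  | succ n => rw [tt_succ, ψ_zero_X, if_pos rfl]

theorem ψ_zero_tt_ne {j : ℕ} (hj : j ≠ 0) (n : ℕ) : ψ p 0 (tt p j n) = tt p (j + 1) n := by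
  cases n with
  | zero => simp [tt]
  | succ n => rw [tt_succ, ψ_zero_X, if_neg hj, tt_succ]

theorem Ψ_ψ (i : ℕ) (f : KP p) : Ψ p (ψ p i f) = φ p i (Ψ p f) := by
  have : (Ψ p).comp (ψ p i) = (φ p i).comp (Ψ p) := by
    refine MvPolynomial.algHom_ext fun x => ?_
    obtain ⟨l, n⟩ := x
    simp only [AlgHom.comp_apply]
    rw [← tt_succ]
    by_cases hl : l = 0
    · subst hl
      cases i with
      | zero =>
        rw [ψ_zero_tt, Ψ_tt, map_pow, φ_tt, map_sum]
        have := pow_sum p (antidiagonal (n + 1))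
          (fun y => tt p (0 + 1) y.1 * tt p 0 y.2 ^ p ^ y.1) 1
        rw [pow_one] at this
        rw [this]
        refine Finset.sum_congr rfl fun y _ => ?_
        rw [map_mul, map_pow, map_pow, Ψ_tt_ne one_ne_zero, Ψ_tt, mul_pow, ← pow_mul, ← pow_mul,
          mul_comm p, zero_add]
      | succ i =>
        rw [ψ_succ, φ_tt_lt (Nat.succ_pos i), Ψ_tt, map_pow, φ_tt_lt (Nat.succ_pos i)]
    · cases i with
      | zero => rw [ψ_zero_tt_ne hl, Ψ_tt_ne hl, Ψ_tt_ne (by omega), φ_tt_gt (by omega)]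
      | succ i =>
        rw [ψ_succ, Ψ_tt_ne hl]
        rcases lt_trichotomy l (i + 1) with h | h | h
        · rw [φ_tt_lt h, Ψ_tt_ne hl]
        · subst h
          rw [φ_tt, map_sum]
          refine Finset.sum_congr rfl fun y _ => ?_
          rw [map_mul, map_pow, Ψ_tt_ne (by omega), Ψ_tt_ne (by omega)]
        · rw [φ_tt_gt h, Ψ_tt_ne (by omega)]
  exact DFunLike.congr_fun this f

theorem ψ_ψ {i j : ℕ} (h : i ≤ j) (f : KP p) : ψ p (j + 1) (ψ p i f) = ψ p i (ψ p j f) := by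
  apply Ψ_injective
  rw [Ψ_ψ, Ψ_ψ, Ψ_ψ, Ψ_ψ, φ_φ h]

/-- The degree. -/
def W2 (p : ℕ) (x : ℕ × ℕ) : ℤ := if x.1 = 0 then p * wt p x.2 else wt p x.2

/-- The cochains of degree `(s, N)`. -/
noncomputable def Co2 (p s : ℕ) (N : ℤ) : Submodule (ZMod p) (KP p) :=
  weightedHomogeneousSubmodule (ZMod p) (W2 p) N ⊓
    Subalgebra.toSubmodule (supported (ZMod p) (Bl s))

theorem mem_Co2 {s : ℕ} {N : ℤ} {f : KP p} :
    f ∈ Co2 p s N ↔ IsWeightedHomogeneous (W2 p) f N ∧ f ∈ supported (ZMod p) (Bl s) := Iff.rfl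

theorem weight_ex (u : ℕ × ℕ →₀ ℕ) : Finsupp.weight (W p) (ex p u) = Finsupp.weight (W2 p) u := by
  rw [Finsupp.weight_apply, Finsupp.weight_apply, ex, Finsupp.onFinset_sum _ (by simp),
    Finsupp.sum]
  refine Finset.sum_congr rfl fun x _ => ?_
  rw [W, W2]
  split_ifs
  · push_cast [nsmul_eq_mul]; ring
  · rfl

theorem mem_Co2_iff {s : ℕ} {N : ℤ} {f : KP p} : f ∈ Co2 p s N ↔ Ψ p f ∈ Co p s N := by
  rw [mem_Co2, mem_Co]
  constructor
  · rintro ⟨h1, h2⟩
    refine ⟨homogeneous_map (Ψ p) (V := Set.univ) (fun x _ => ?_) (by simp) h1,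
      supported_map (Ψ p) (V := Bl s) (fun x hx => ?_) h2⟩
    · rw [Ψ_X]
      split_ifs with h
      · have := (isWeightedHomogeneous_X (ZMod p) (W p) x).pow p
        rw [W2, if_pos h]
        rwa [nsmul_eq_mul] at this
      · rw [W2, if_neg h]
        exact isWeightedHomogeneous_X _ _ _
    · rw [Ψ_X]
      split_ifs with h
      · exact pow_mem (X_mem_supported.2 hx) _
      · exact X_mem_supported.2 hx
  · rintro ⟨h1, h2⟩
    constructor
    · intro u hu
      rw [← coeff_Ψ] at hu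
      have := h1 hu
      rwa [weight_ex] at this
    · rw [mem_supported_iff] at h2 ⊢
      intro u hu x hx
      refine h2 (ex p u) ?_ x ?_
      · rw [mem_support_iff, coeff_Ψ]
        exact mem_support_iff.1 hu
      · rw [Finsupp.mem_support_iff] at hx ⊢
        rw [ex_apply]
        split_ifs
        · exact Nat.mul_ne_zero (Fact.out : p.Prime).ne_zero hx
        · exact hx

/-- The differential. -/
noncomputable def d2 (p s : ℕ) : KP p →ₗ[ZMod p] KP p :=
  ∑ i ∈ range (s + 1), (-1 : ZMod p) ^ i • (ψ p i).toLinearMap +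
    (-1 : ZMod p) ^ (s + 1) • LinearMap.id

theorem d2_apply (s : ℕ) (f : KP p) : d2 p s f =
    ∑ i ∈ range (s + 1), (-1 : ZMod p) ^ i • ψ p i f + (-1 : ZMod p) ^ (s + 1) • f := by
  simp only [d2, LinearMap.add_apply, LinearMap.sum_apply, LinearMap.smul_apply,
    LinearMap.id_apply, AlgHom.toLinearMap_apply]

theorem Ψ_d2 (s : ℕ) (f : KP p) : Ψ p (d2 p s f) = dd p s (Ψ p f) := by
  rw [d2_apply, dd_apply, map_add, map_sum, map_smul]
  simp only [map_smul, Ψ_ψ]

theorem pderiv_Ψ (n : ℕ) (f : KP p) : pderiv ((0, n) : ℕ × ℕ) (Ψ p f) = 0 := by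
  rw [f.as_sum, map_sum, map_sum]
  refine Finset.sum_eq_zero fun u _ => ?_
  rw [Ψ_monomial, pderiv_monomial, ex_apply, if_pos rfl, Nat.cast_mul, CharP.cast_eq_zero,
    zero_mul, mul_zero, monomial_zero]

theorem Ψ_mem {s : ℕ} {N : ℤ} {f : KP p} : Ψ p f ∈ (AA p 0).K s N ↔ f ∈ Co2 p s N := by
  rw [mem_AA, mem_Co2_iff]
  exact ⟨fun h => h.1, fun h => ⟨h, fun n _ => pderiv_Ψ n f⟩⟩

/-- The complex with coefficients in `k[t_1^p, t_2^p, ...]`, second model. -/
noncomputable def FF (p : ℕ) [Fact p.Prime] : Cpx (KP p) where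
  K s N := (Co2 p s N).toAddSubgroup
  d s := (d2 p s).toAddMonoidHom
  d_mem s N f hf := by
    change d2 p s f ∈ Co2 p (s + 1) N
    change f ∈ Co2 p s N at hf
    rw [mem_Co2_iff] at hf ⊢
    rw [Ψ_d2]
    exact dd_mem hf
  d_d s N f hf := by
    change d2 p (s + 1) (d2 p s f) = 0
    change f ∈ Co2 p s N at hf
    rw [mem_Co2_iff] at hf
    apply Ψ_injective
    rw [Ψ_d2, Ψ_d2, dd_dd hf, map_zero]

theorem mem_FF {s : ℕ} {N : ℤ} {f : KP p} : f ∈ (FF p).K s N ↔
    IsWeightedHomogeneous (W2 p) f N ∧ f ∈ supported (ZMod p) (Bl s) := Iff.rfl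

theorem FF_d (s : ℕ) (f : KP p) : (FF p).d s f = d2 p s f := rfl

/-- The two models agree. -/
theorem iso : Cpx.Iso (FF p) (AA p 0) (Ψ p).toLinearMap.toAddMonoidHom where
  mem s N f hf := Ψ_mem.2 hf
  comm s N f _ := Ψ_d2 s f
  inj := Ψ_injective
  surj s N f hf := by
    have h := Ψ_unΨ (p := p) (f := f) fun n => (mem_AA.1 hf).2 n (Nat.zero_le n)
    refine ⟨unΨ f, ?_, h⟩
    have h2 : Ψ p (unΨ f) ∈ (AA p 0).K s N := by rw [h]; exact hf
    exact Ψ_mem.1 h2

/-- The partial derivatives in the block `0` commute with the faces. -/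
theorem pderiv_ψ (n i : ℕ) (f : KP p) :
    pderiv ((0, n) : ℕ × ℕ) (ψ p i f) = ψ p i (pderiv ((0, n) : ℕ × ℕ) f) := by
  cases i with
  | succ i => exact pderiv_φ n (i + 1) f
  | zero =>
    refine pderiv_comm _ _ _ (fun z => ?_) f
    obtain ⟨l, n'⟩ := z
    have key : ψ p 0 (pderiv ((0, n) : ℕ × ℕ) (X (l, n'))) =
        if (l, n') = (0, n) then (1 : KP p) else 0 := by
      split_ifs with h1
      · rw [h1, pderiv_X_self, map_one]
      · rw [pderiv_X_of_ne h1, map_zero]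
    rw [key, ψ_zero_X]
    dsimp only
    by_cases h2 : l = 0
    · subst h2
      rw [if_pos rfl, map_sum, Finset.sum_eq_single (0, n' + 1)]
      · rw [pderiv_mul, pow_zero, pow_one, tt_zero, tt_succ, one_pow,
          Derivation.map_one_eq_zero, zero_mul, one_mul, zero_add]
        split_ifs with h3
        · rw [h3, pderiv_X_self]
        · rw [pderiv_X_of_ne h3]
      · rintro ⟨a, b⟩ hab hne
        rw [HasAntidiagonal.mem_antidiagonal] at hab
        have ha : a ≠ 0 := by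
          rintro rfl
          apply hne
          rw [Prod.mk.injEq]
          dsimp only at hab
          omega
        rw [pderiv_mul, pderiv_pow_char _ _ _ ha, pderiv_pow, pderiv_tt _ _ _ (by omega)]
        simp
      · intro h3
        exact absurd (HasAntidiagonal.mem_antidiagonal.2 (Nat.zero_add _)) h3
    · rw [if_neg h2, pderiv_X_of_ne, if_neg]
      · rw [Prod.mk.injEq]; omega
      · rw [Ne, Prod.mk.injEq]; omega

theorem pderiv_d2 (n s : ℕ) (f : KP p) :
    pderiv ((0, n) : ℕ × ℕ) (d2 p s f) = d2 p s (pderiv ((0, n) : ℕ × ℕ) f) := by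
  rw [d2_apply, d2_apply]
  simp only [map_add, map_sum, Derivation.map_smul, pderiv_ψ]

theorem W2_zero (n : ℕ) : W2 p (0, n) = p * wt p n := by rw [W2, if_pos rfl]

theorem W2_ne {j : ℕ} (hj : j ≠ 0) (n : ℕ) : W2 p (j, n) = wt p n := by rw [W2, if_neg hj]

/-- `∂ / ∂ (t_(n+1) ^ p)`. -/
theorem der2 (n : ℕ) : Cpx.Der (FF p) p (p * wt p n) (DD p n) where
  mem s N f hf := by
    rw [mem_FF] at hf ⊢
    refine ⟨IsWeightedHomogeneous.pderiv hf.1 ?_, pderiv_supported _ hf.2⟩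
    rw [W2_zero, sub_add_cancel]
  comm s N f _ := pderiv_d2 n s f
  pow s N f _ := pderiv_iter_p _ f
  ex1 s N f hf h0 := by
    rw [mem_FF] at hf
    have h00 : ((0, n) : ℕ × ℕ) ∈ Bl s := Nat.zero_le s
    refine ⟨anti (0, n) f, mem_FF.2 ⟨?_, ?_⟩, pderiv_anti _ h0⟩
    · have := anti_homogeneous (0, n) hf.1
      rwa [W2_zero] at this
    · exact anti_supported _ h00 hf.2
  ex2 s N f hf h0 := by
    rw [mem_FF] at hf
    have hp := (Fact.out : p.Prime)
    have h00 : ((0, n) : ℕ × ℕ) ∈ Bl s := Nat.zero_le s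
    refine ⟨-(X (0, n) ^ (p - 1) * f), mem_FF.2 ⟨?_, ?_⟩, ?_⟩
    · have h1 := ((isWeightedHomogeneous_X (ZMod p) (W2 p) (0, n)).pow (p - 1)).mul hf.1
      have h2 : (p - 1) • W2 p (0, n) + N = N + (p - 1 : ℤ) * (p * wt p n : ℤ) := by
        rw [nsmul_eq_mul, Nat.cast_sub hp.one_le, W2_zero]
        push_cast
        ring
      rw [h2] at h1
      exact h1.neg
    · exact neg_mem (mul_mem (pow_mem (X_mem_supported.2 h00) _) hf.2)
    · rw [DD_iter]
      have h3 : ∀ (j : ℕ) (g : KP p), (pderiv ((0, n) : ℕ × ℕ))^[j] (-g) =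
          -(pderiv ((0, n) : ℕ × ℕ))^[j] g := by
        intro j g
        induction j with
        | zero => rfl
        | succ j ih => rw [Function.iterate_succ_apply', ih, map_neg, Function.iterate_succ_apply']
      rw [h3, pderiv_iter_mul_pow _ h0, ZMod.wilsons_lemma]
      simp

end Vale.Agent.P257.SG
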